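import Vale.Agent.N352.E.Wd
import Vale.Agent.N352.Main

/-!
# N352, block E: from the extension to the conformal symmetry, without a net
-/

set_option linter.all false

open Filter Topology

namespace Vale.Agent.N352.E.Mn

open Vale.Agent.P352 Vale.Agent.P352.GF Vale.Agent.P352.BW Vale.Agent.P352.H246
open Vale.Agent.P352.H496 Vale.Agent.P352.H755 Vale.Agent.P352.H15
open Vale.Agent.P352.SubConf (IsAdj)
open Vale.Agent.P352X Vale.Agent.P352L Vale.Agent.P352R
open UniformSpace (Completion)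

noncomputable section

universe u v

variable {D : Type u} [NormedAddCommGroup D] [InnerProductSpace ℂ D]
  {D' : Type v} [NormedAddCommGroup D'] [InnerProductSpace ℂ D']

/-! ### fields that annihilate the vacuum -/

theorem fld0 {Q : Theory D} {B : Fld D} (hB : Q.fld B) {f : Fn} (hf : IsTest f) : B f 0 = 0 :=
  map_zero (fm hB hf)

theorem kill (c : Cf D) {B : Fld D} {e : Bool} (hB : c.Q.fld B) (p : Pa c e B) {f : Fn}
    (hf : IsTest f) (hz : B f c.Q.vac = 0) {W : Set Mink}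
    (s : ∀ g, P352.IsTest W g → Sep f (fl g)) {v : D} (hv : PW c.Q W v) : B f v = 0 := by
  induction hv with
  | vac => exact hz
  | add _ _ a b => exact ((fm hB hf).map_add _ _).trans (by rw [show fm hB hf _ = 0 from a,
      show fm hB hf _ = 0 from b, add_zero])
  | smul z _ a => exact ((fm hB hf).map_smul _ _).trans (by rw [show fm hB hf _ = 0 from a, smul_zero])
  | @fld A g v hA hg _ a =>
    obtain ⟨q, -, -, h⟩ := ex_split hA
    have k : ∀ e', B f ((q e').B (fl g) v) = 0 := fun e' => by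
      rw [Bas.comm _ _ _ _ _ _ v hB (q e').h p (q e').par hf (isTest_fl g) (s g hg), a,
        fld0 (q e').h (isTest_fl g), smul_zero]
    rw [h _ v (isTest_fl g)]
    exact ((fm hB hf).map_add _ _).trans (by rw [show fm hB hf _ = 0 from k _,
      show fm hB hf _ = 0 from k _, add_zero])

theorem sep0 (c : Cf D) {B : Fld D} {e : Bool} (hB : c.Q.fld B) (p : Pa c e B)
    (hz : ∀ f, IsTest f → B f c.Q.vac = 0) {f : Fn} (hf : IsTest f) (v : D) : B f v = 0 := by
  obtain ⟨B', -, ad⟩ := c.Q.adj B hB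
  have hc : ∀ f : SchwartzMap Mink ℂ, HasCompactSupport f → B (fl f) v = 0 := fun f hf => by
    obtain ⟨r, -, hr⟩ := exists_ball f hf
    refine ext_inner_right ℂ fun w => ?_
    rw [ad _ _ _ (isTest_fl f), inner_zero_left, PW.orth (Q := c.Q) (χ := B' (bar (fl f)) w)
      fun z hz' => PW.rs (2 * r + 1) (fun u hu => ?_) hz', inner_zero_right]
    rw [← inner_conj_symm, ← ad _ _ _ (isTest_fl f), kill c hB p (isTest_fl f) (hz _ (isTest_fl f))
      (fun g hg => sep_fl fun x hx y hy => ?_) hu, inner_zero_left, map_zero]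
    have e0 := hr x hx 0
    have e1 := hr x hx 1
    have hy' : |y 0| < y 1 - (2 * r + 1) := hg.2 hy
    have h2 : |x 0 - y 0| < |x 1 - y 1| := by
      have h3 := abs_sub (x 0) (y 0)
      have h4 := (abs_le.1 e1).2
      have h5 : y 1 - x 1 ≤ |x 1 - y 1| := by
        rw [abs_sub_comm]; exact le_abs_self _
      linarith
    have h3 := sq_lt_sq.2 h2
    simp only [P352.mdot, PiLp.sub_apply]
    nlinarith only [h3, sq_nonneg (x 2 - y 2), sq_nonneg (x 3 - y 3)]
  obtain ⟨F, rfl⟩ := exists_fl hf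
  obtain ⟨g, hg, l⟩ := exists_compact_seq F
  exact tendsto_nhds_unique (((fld_cont hB v).tendsto F).comp l)
    (tendsto_const_nhds.congr fun n => (hc _ (hg n)).symm)

/-- a field that annihilates the vacuum vanishes -/
theorem sep (c : Cf D) {B : Fld D} (hB : c.Q.fld B) (hz : ∀ f, IsTest f → B f c.Q.vac = 0)
    {f : Fn} (hf : IsTest f) (v : D) : B f v = 0 := by
  obtain ⟨q, q1, -, h⟩ := ex_split hB
  have k : ∀ g, IsTest g → (q false).B g c.Q.vac = 0 ∧ (q true).B g c.Q.vac = 0 := fun g hg => by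
    have a := (h g _ hg).symm.trans (hz g hg)
    have b := congrArg (gl c) a
    have p : ∀ e, gl c ((q e).B g c.Q.vac) = sg e • (q e).B g c.Q.vac := fun e =>
      (Bas.pa' (q e).par hg _).trans (by rw [c.hN.vac, q1 e])
    rw [map_add, map_zero, p, p, sg_true, sg_false] at b
    constructor
    · linear_combination (norm := module) (2⁻¹ : ℂ) • a + (2⁻¹ : ℂ) • b
    · linear_combination (norm := module) (2⁻¹ : ℂ) • a - (2⁻¹ : ℂ) • b
  rw [h f v hf, sep0 c (q _).h (q _).par (fun g a => (k g a).1) hf,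
    sep0 c (q _).h (q _).par (fun g a => (k g a).2) hf, add_zero]

open P352R.Cf P352R.Cf.Cb in
theorem fw (c : Cf D) (h : P.CntF c.Q) {S : Set (Fld D)} (hS : S.Countable)
    (k : ∀ B, c.Q.fld B ↔ B ∈ Submodule.span ℂ S) {e : ℂ} (he : e = 1 ∨ e = -1) :
    Fw c.Q c.A (par c.hN.toGr S e) := by
  have hN := c.hN
  have ee : e * e = 1 := by rcases he with rfl | rfl <;> simp
  have fl : ∀ B ∈ par hN.toGr S e, c.Q.fld B := fun B a => (k B).2 a.1
  refine ⟨⟨hN.add, hN.der⟩, fl, ⟨S, hS, fun B a => a.1⟩, fun L B hL a => ?_,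
    fun B a z _ v hf => sep c (fl B a) z hf v, fun L L' hL hL' => ?_⟩
  · obtain ⟨C, c1, -, c2⟩ := h.cov 1 L B one_pos hL (fl B a)
    refine ⟨C, ⟨(k C).1 c1, fun f v hf => ?_⟩, c2⟩
    obtain ⟨w, rfl⟩ := onto hN.toGr hL v
    rw [← hN.GU 1 L 0 w one_pos hL, ← c2 f _ hf, ← c2 f _ hf,
      a.2 _ w (Ap.test_sim one_pos hL 0 hf), U_smul one_pos hL, hN.GU 1 L 0 _ one_pos hL]
  · rcases hN.mul 1 L 0 1 L' 0 one_pos one_pos hL hL' with m | ⟨-, -, m⟩
    · exact ⟨1, .inl rfl, fun B a f hf => by rw [m, sim0, mul_one, one_smul]⟩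
    · refine ⟨e, he, fun B a f hf => ?_⟩
      have p := a.2 f c.Q.vac hf
      rw [hN.vac] at p
      have l : IsLor (cp L L') := by
        have e : cp L L' = lmul L' L := by
          funext m n
          simp [sim, lmul]
        rw [e]
        exact isLor_lmul hL' hL
      rw [m, sim0, mul_one, ← hN.GU 1 _ 0 _ one_pos l, ← U_smul one_pos l, ← p]

open P352R.Cf P352R.Cf.Cb in
/-- countably many covariant fields are sums of multiplets with finite scaling laws -/
theorem cfg (c : Cf D) (h : P.CntF c.Q) : MfAll c.Q ∧ FSL c.Q := by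
  have hN := c.hN
  refine ⟨fun B hB => ?_, Cb.fsl (fun s s' v hs hs' => ?_) hN.der h
    fun K k B a z _ v hf => sep c (k B a) z hf v⟩
  · obtain ⟨S, hS, e⟩ := h.cnt
    obtain ⟨C, C', a, b, d⟩ := hN.split B hB
    obtain ⟨n, E, e1, e2⟩ := mf_all c.Q c.A _ (fw c h hS e (.inl rfl)) C
      ⟨(e C).1 (c.Q.bose_fld C a), fun f v hf => by rw [hN.bose C f v a hf, one_smul]⟩
    obtain ⟨n', E', e1', e2'⟩ := mf_all c.Q c.A _ (fw c h hS e (.inr rfl)) C'
      ⟨(e C').1 b.1, fun f v hf => by rw [b.2 f v hf, neg_one_smul]⟩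
    refine ⟨n + n', Fin.append E E', fun i => ?_, fun f v hf => ?_⟩
    · refine Fin.addCases (fun i => ?_) (fun i => ?_) i
      · rw [Fin.append_left]; exact e1 i
      · rw [Fin.append_right]; exact e1' i
    · simp only [Fin.sum_univ_add, Fin.append_left, Fin.append_right]
      rw [d f v hf, e2 f v hf, e2' f v hf]
  · rcases hN.mul s _ 0 s' _ 0 hs hs' H496.isLor_one H496.isLor_one with m | ⟨m, -⟩
    · rw [m, ← P352R.Ct.one_one, sim0]
    · exact (m rfl).elim

/-! ### the trivial net -/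

/-- all bounded operators -/
def N1 (D : Type u) [NormedAddCommGroup D] [InnerProductSpace ℂ D] :
    Set V → VonNeumannAlgebra (Completion D) := fun _ => P352W.Net.cmt {1}

theorem afw1 {E : Submodule ℂ (Completion D)} (P : Theory E) : AfW (N1 D) P (↑) := by
  intro a b y B B' f _ _ _ _ ad hf Y hY v w
  have st : ∀ Z ∈ ({1} : Set (Completion D →L[ℂ] Completion D)), star Z ∈ ({1} : Set _) := by
    rintro _ rfl
    exact star_one _
  refine P352W.Net.bic2 {1} rfl (by rintro _ rfl _ rfl; exact mul_one _) st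
    (fun Z z => VonNeumannAlgebra.mem_commutant_iff.1 hY Z ((P352W.Net.mem_cmt st).2 z)) ?_
  rintro _ rfl
  rw [ContinuousLinearMap.one_apply, ContinuousLinearMap.one_apply, ← Submodule.coe_inner,
    ← Submodule.coe_inner, ← inner_conj_symm, ← ad f v w hf.1]
  exact inner_conj_symm (𝕜 := ℂ) w (B f v)

/-! ### conformal symmetry -/

/-- multiplets with scaling laws consist of descendants -/
def DM (Q : Theory D) (G : D → D) (τ : Ix → Ix → Fld D) : Prop :=
  ∀ (p : Bool) (k : Rp) (Φ : Fin k.n → Fld D) μ, (∀ ν, ∃ F B, Scl Q (Φ ν) F B) →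
    IsMl Q k Φ → (∀ a, if p then Fer Q G (Φ a) else Q.bose (Φ a)) → DescS Q G τ p (Φ μ)

theorem core2 {Q : Theory D} {G : D → D} (g : Gr Q G) {S : Ix → Ix → Fld D} {L : Fld D}
    (hS : Q.IsStress S) (hL : Q.IsScalar L 2)
    (h0 : ∀ f v, IsTest f → tr (improve S L) f v = 0) (mx : Pf.Mx Q (improve S L)) :
    DM Q G (improve S L) ∧ DescS Q G (improve S L) false L := by
  have h7 := isImpr hS ⟨rfl, rfl, fun _ h => h, fun _ h => h⟩ hL h0
  let M := gm (Br.gr.2 g)
  let k : CA.G.Cx D := ⟨Q, _, G, isT_of_impr h7 hS,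
    fun m n k l f g v hf hg h => sub_eq_zero.1 (h7.self m n k l f g v hf hg h), h7.cov,
    ⟨_, hS.bose o o⟩, g.inv, g.herm, fun m n f v hf => by
      show _ = M _
      simp only [improve, map_add, map_sub, map_smul, map_sum, g.bose _ _ v (hS.bose m n) hf,
        fun k l => g.bose _ _ v hL.1 (Ap.test_pd k (Ap.test_pd l hf))]
      rfl, g.GU,
    fun C hC => by
      obtain ⟨C1, C2, a1, a2, e⟩ := g.split C hC
      refine ⟨2, ![1, -1], ![C1, C2], fun j => ?_, fun k v hk => ?_⟩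
      · fin_cases j
        exacts [Q.bose_fld _ a1, a2.1]
      · rw [e k _ hk, g.bose C1 k v a1 hk, a2.2 k v hk, show G _ = M _ from rfl, map_add, map_neg]
        simp [M, gm, g.inv],
    g.mul, mx⟩
  obtain ⟨x, f0, al⟩ := CA.G.all_thm k
  have tl : CA.G.Tl k := fun _ _ => CA.G.clf k g
  exact ⟨CA.G.descM al tl, EG.desc_scal (CA.G.cfs' al tl) hL⟩

/-- the even and the odd part of a multiplet -/
theorem parts (c : Cf D) {k : Rp} {Φ : Fin k.n → Fld D} (h : IsMf c.Q k Φ) :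
    ∃ Ψ : Bool → Fin k.n → Fld D, (∀ e, IsMf c.Q k (Ψ e)) ∧ (∀ a, c.Q.bose (Ψ false a)) ∧
      (∀ a, Fer c.Q c.G (Ψ true a)) ∧ ∀ a f v, IsTest f → Φ a f v = ∑ e, Ψ e a f v := by
  choose C C' a1 a2 a3 using fun a => c.hN.split _ (h.1 a)
  have gg : ∀ v, gl c (gl c v) = v := c.hN.inv
  have p : ∀ (e : Bool) a f v, IsTest f → cond e (C' a) (C a) f v =
      (2⁻¹ : ℂ) • (Φ a f v + sg e • gl c (Φ a f (gl c v))) := fun e a f v hf => by
    rw [a3 a f v hf, a3 a f _ hf, show C a f (gl c v) = gl c (C a f v) from c.hN.bose _ f v (a1 a) hf,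
      show C' a f (gl c v) = -gl c (C' a f v) from (a2 a).2 f v hf, map_add, map_neg, gg, gg]
    cases e
    · simp only [cond_false, sg_false]
      module
    · simp only [cond_true, sg_true]
      module
  refine ⟨fun e a => cond e (C' a) (C a), fun e => ⟨fun a => ?_, fun a L f v hL hf => ?_⟩, a1, a2,
    fun a f v hf => by rw [Fintype.sum_bool, add_comm]; exact a3 a f v hf⟩
  · cases e
    exacts [c.Q.bose_fld _ (a1 a), (a2 a).1]
  · have gu : ∀ w, gl c (um c.Q one_pos hL 0 w) = um c.Q one_pos hL 0 (gl c w) := fun w =>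
      (c.hN.GU 1 L 0 w one_pos hL).symm
    have ml : ∀ w, Φ a f (um c.Q one_pos hL 0 w) = ∑ b, k.ρ L b a •
        um c.Q one_pos hL 0 (Φ b (fun x => f (sim 1 L 0 x)) w) := fun w => h.2 a L f w hL hf
    show cond e (C' a) (C a) f (um c.Q one_pos hL 0 v) = ∑ b, _ • um c.Q one_pos hL 0 _
    simp only [p _ _ _ _ hf, p _ _ _ _ (t_sim one_pos hL 0 hf), gu, ml, map_sum, map_smul,
      map_add, Finset.smul_sum, smul_add, ← Finset.sum_add_distrib]
    exact Finset.sum_congr rfl fun b _ => by module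

section ext

variable {c : Cf D} {E : Submodule ℂ (Completion D)} {P : Theory E} {G' : E → E}
  {e : Fld D → Fld E} (x : ExtC c.Q c.Γ P G' e) (hc : COV0 c) (hF : FSL c.Q)
  {τ : Ix → Ix → Fld E} (h : DM P G' τ)
include x hc hF h

theorem desc_mp {k : Rp} {Ψ : Fin k.n → Fld D} (m : IsMf c.Q k Ψ) (p : Bool)
    (q : ∀ a, if p then Fer c.Q c.G (Ψ a) else c.Q.bose (Ψ a)) (a : Fin k.n) :
    DescS P G' τ p (e (Ψ a)) := by
  have n : IsEnl P P := ⟨rfl, rfl, fun _ h => h, fun _ h => h⟩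
  refine h p k (fun b => e (Ψ b)) a (fun b => ?_) (fun b L f v hL hf =>
    ext_cov hc x ⟨1, L, 0, one_pos, hL⟩ (m.1 b) m.1 (fun g w hg => m.2 b L g w hL hg) hf v)
    fun b => ?_
  · obtain ⟨F, C, h3⟩ := hF _ (m.1 b)
    cases p
    · exact ⟨F, _, ext_scl x hc n (m.1 b) h3 fun _ => q b⟩
    have h1 := ext_odd x (q b)
    by_cases hb : P.bose (e (Ψ b))
    · refine ⟨∅, fun _ => e (Ψ b), fun _ => ⟨h1.1, id⟩, fun s f v _ hf => ?_⟩
      have z : G' (e (Ψ b) f (G' (P.U s GF.one 0 v))) = 0 :=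
        (smul_eq_zero.1 ((two_smul ℂ _).trans (add_eq_zero_iff_eq_neg.2
          ((x.bose _ f _ hb hf).symm.trans (h1.2 f _ hf))))).resolve_left two_ne_zero
      rwa [← x.bose _ f _ hb hf, x.inv] at z
    · exact ⟨F, _, ext_scl x hc n (m.1 b) h3 fun a => absurd a hb⟩
  · cases p
    exacts [x.bos _ (q b), ext_odd x (q b)]

theorem desc_fld (hM : MfAll c.Q) {B : Fld D} (hB : c.Q.fld B) : ∃ (m : ℕ) (p : Fin m → Bool)
    (C : Fin m → Fld E), (∀ i, DescS P G' τ (p i) (C i)) ∧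
      ∀ f v, IsTest f → e B f v = ∑ i, C i f v := by
  obtain ⟨n, A, h1, h2⟩ := hM B hB
  choose k Φ a hΦ q using h1
  choose Ψ b1 b2 b3 b4 using fun i => parts c (hΦ i)
  let r := (Fintype.equivFin (Fin n × Bool)).symm
  refine ⟨_, fun j => (r j).2, fun j => e (Ψ (r j).1 (r j).2 (a _)), fun j =>
    desc_mp x hc hF h (b1 _ _) _ (fun b => ?_) _, fun f v hf => ?_⟩
  · exact (r j).2.casesOn (motive := fun p => if p then Fer c.Q c.G (Ψ (r j).1 p b)
      else c.Q.bose (Ψ (r j).1 p b)) (b2 _ b) (b3 _ b)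
  · rw [r.sum_comp fun j => e (Ψ j.1 j.2 (a _)) f v]
    exact ext_sum x hB (fun j : Fin n × Bool => (b1 j.1 j.2).1 _) (fun f v hf => by
      rw [h2 f v hf, Fintype.sum_prod_type]
      exact Finset.sum_congr rfl fun i _ => by rw [q, b4 i _ f v hf]) hf v

end ext

/-- mixing in the sector of the stress tensor -/
def MX (c : Cf D) (T : Ix → Ix → Fld D) (l : Fn → Completion D) : Prop :=
  ∃ S : Submodule ℂ (Completion D),
    (∀ m n f, IsTest f → ((T m n f c.Q.vac : D) : Completion D) ∈ S) ∧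
    (∀ f, IsTest f → l f ∈ S) ∧ ∀ ξ ∈ S, ∀ w, Tendsto (fun r : ℝ =>
      inner ℂ ξ (Ue c.Q (Real.sqrt (r * 1)) (TPD.Lsc r 1) 0 w)) (𝓝[>] 0)
        (𝓝 (inner ℂ ξ c.Om * inner ℂ c.Om w))

/-- **the analytic core**: the extension exists, with mixing -/
def Core (c : Cf D) (T : Ix → Ix → Fld D) : Prop :=
  ∃ x : Ctx D, x.toCf = c ∧ x.T = T ∧ FIN x ∧ MX c T x.l

theorem imp_mem {R : Theory D'} {S : Ix → Ix → Fld D'} {L : Fld D'} {H : Type*}
    [NormedAddCommGroup H] [NormedSpace ℂ H] (j : D' →ₗ[ℂ] H) (Z : Submodule ℂ H)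
    (z2 : ∀ m n f, IsTest f → j (S m n f R.vac) ∈ Z) (z1 : ∀ f, IsTest f → j (L f R.vac) ∈ Z)
    {F : Ix → Ix → V → ℝ} (hF : ∀ m n, Tst (F m n)) : j (smt (improve S L) F R.vac) ∈ Z := by
  simp only [smt, improve, map_sum, map_add, map_sub, map_smul]
  refine Z.sum_mem fun m _ => Z.sum_mem fun n _ => ?_
  have hf := (hF m n).isTest
  exact Z.sub_mem (Z.add_mem (z2 m n _ hf) (Z.smul_mem _ (z1 _ (Ap.test_pd _ (Ap.test_pd _ hf)))))
    (Z.smul_mem _ (Z.sum_mem fun k _ => Z.smul_mem _ (z1 _ (Ap.test_pd _ (Ap.test_pd _ hf)))))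

/-- **the local extension** -/
theorem exten (c : Cf D) (hc : COV0 c) {S : Ix → Ix → Fld D} (k : Core c S) :
    ∃ (E : Submodule ℂ (Completion D)) (P : Theory E) (G' : E → E) (e : Fld D → Fld E)
      (t : Ix → Ix → Fld E), Ext c.Q c.Γ (N1 D) P G' e ∧ (MfAll c.Q → FSL c.Q → Desc P G' t) ∧
      ∀ R, P352R.P.IsEnl P R → P352R.P.Gr R G' → Conf R G' (fun m n => e (S m n)) t := by
  obtain ⟨x, rfl, rfl, ⟨E, P, G', e, L, h1, h2, h3, h4, h5, h6⟩, Z, z2, z1, z3⟩ := k
  have mx : ∀ R, IsEnl P R → Pf.Mx R (improve (fun m n => e (x.T m n)) L) := fun R n F w hF => by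
    have hv : (R.vac : Completion D) = x.toCf.Om := by rw [n.vac]; exact h1.vac
    have b3 := z3 _ (imp_mem (R := R) (S := fun m n => e (x.T m n)) (L := L) E.subtype Z
      (fun m n' f hf => by
        rw [n.vac, Submodule.subtype_apply,
          h1.agree _ f _ _ (x.Q.bose_fld _ (x.hT.bose m n')) hf cyc_vac h1.vac]
        exact z2 m n' f hf)
      (fun f hf => by rw [n.vac, Submodule.subtype_apply, h5 f hf]; exact z1 f hf) hF) w
    rw [← hv, Submodule.subtype_apply, ← Submodule.coe_inner, ← Submodule.coe_inner] at b3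
    refine b3.congr' (eventually_nhdsWithin_of_forall fun r hr => ?_)
    obtain ⟨p1, p2⟩ := CA.lsc_pos hr
    show inner ℂ _ (Ue _ _ _ _ _) = inner ℂ _ (R.U _ _ _ _)
    rw [← h1.U _ _ _ _ p1 p2, n.U]
    rfl
  have t0 := fun R n => (Br.impr.2 (EB.scal_row _ P _ L h2 h3 h4 R n).1).traceless
  refine ⟨E, P, G', e, improve (fun m n => e (x.T m n)) L, Pf.ext_of h1 (afw1 P),
    fun hM hF B hB => ?_, fun R n g => Pf.core (Br.gr.1 g) (H746.isStress_enl (Br.enl.1 n) h2)
      (scalar_enl (Br.enl.1 n) h3) (t0 R (Br.enl.1 n)) (mx R (Br.enl.1 n))⟩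
  have n : IsEnl P P := ⟨rfl, rfl, fun _ h => h, fun _ h => h⟩
  obtain ⟨d1, d2⟩ := core2 h1.toGr h2 h3 (t0 P n) (mx P n)
  obtain ⟨m, C, hC, h⟩ := h6 B hB
  have key : ∀ i, ∃ (r : ℕ) (p : Fin r → Bool) (C' : Fin r → Fld E),
      (∀ j, DescS P G' (improve (fun m n => e (x.T m n)) L) (p j) (C' j)) ∧
      ∀ f v, IsTest f → C i f v = ∑ j, C' j f v := fun i => by
    rcases hC i with h | ⟨C', a, b⟩
    · exact ⟨1, fun _ => false, fun _ => L, fun _ => d2, fun _ _ _ => by simp [h]⟩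
    · obtain ⟨r, p, C'', a1, a2⟩ := desc_fld h1 hc hF d1 hM a
      exact ⟨r, p, C'', a1, fun f v hf => (b f v hf).trans (a2 f v hf)⟩
  choose r p C' b1 b2 using key
  let q := (Fintype.equivFin (Σ i, Fin (r i))).symm
  refine ⟨_, fun j => p (q j).1 (q j).2, fun j => C' (q j).1 (q j).2, fun j => Br.desc (b1 _ _),
    fun f v hf => (h f v).trans ?_⟩
  rw [q.sum_comp fun j => C' j.1 j.2 f v, Fintype.sum_sigma]
  exact Finset.sum_congr rfl fun i _ => b2 i f v hf

theorem ug_sur (c : Cf D) {s : ℝ} {L : Ix → V} (hs : 0 < s) (hL : IsLor L) (a : V)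
    (z : Completion D) : ∃ y, P.Ue c.Q s L a y = z :=
  ⟨_, (Ug_apply _ hs hL _ _).symm.trans (DFunLike.congr_fun (SGx.uni0 c ⟨s, L, a, hs, hL⟩).1.2 z)⟩

open Fss.G in
/-- **a theory that contains the relatively local scalars is conformally invariant** -/
theorem key (c : Cf D) {T : Ix → Ix → Fld D} (hT : Stress0 c.Q T)
    {F : Ix → Ix → Finset (ℂ × ℕ)} {C : Ix → Ix → ℂ × ℕ → Fld D}
    (hC : ∀ m n, Scl c.Q (T m n) (F m n) (C m n)) (c4 : ∀ m n j, ((4 : ℂ), j) ∈ F m n ↔ j = 0)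
    (k : Core c fun m n => C m n (4, 0)) {R : Theory D'} {i G' T' A'}
    (h : Over c.Q T R i G' T' A') (hX : Max c.Q c.Γ (N1 D) R i) : ∃ t, Conf R G' T' t := by
  obtain ⟨h, g, gn, hT', hP, hx⟩ := h
  have g := Br.gr.1 g
  have hT' := Br.stress0.1 hT'
  have r := m1_gr c.hN.toGr
  have r' := m1_gr g
  choose C' c1 c2 using fun m n =>
    Cw.scl_ext (Br.sect.1 h) r r' (hT.bose m n) (hT'.bose m n) (hx m n) (hC m n)
  obtain ⟨d1, d2⟩ :=
    Cw.fss r' (Cw.cj r' gn) (fun s hs => h.cov s _ 0 hs H496.isLor_one) hT' hP c1 c4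
  obtain ⟨x, rfl, eT, ⟨E, P, G1, e, L, a1, -, a4, -, a5, -⟩, Z, z2, z1, z3⟩ := k
  have hl := x.hl
  rw [eT] at hl
  obtain ⟨B, b1, b2⟩ := hX E P G1 e L (Pf.ext_of a1 (afw1 P)) a4
  have b2 : ∀ f, IsTest f → ((B f R.vac : D') : Completion D') = jc i (x.l f) := fun f hf => by
    rw [b2 f hf, a5 f hf, jc_map]
  obtain ⟨b3, b4⟩ := scal_sect h d1 (fun m n => c2 m n _) hl.trace (fun s M a f hs hM hf => by
    have k : ((s ^ 2 : ℝ) : ℂ) ≠ 0 := Complex.ofReal_ne_zero.2 (by positivity)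
    rw [show P352R.P.Ue x.Q s M a _ = _ from (Ug_apply _ hs hM _ _).symm,
      Sq.pot (c := x.toCf) hl a hs hM hf,
      ← Complex.coe_smul, smul_smul, Complex.ofReal_inv, mul_inv_cancel₀ k, one_smul]) b1 b2
  suffices k : Conf R G' (fun m n => C' m n (4, 0)) (improve (fun m n => C' m n (4, 0)) B) from
    ⟨_, k.form, Br.impr.2 (Fss.impr hT' hP d1 d2 (Br.impr.1 k.impr)), k.act, k.cfs, k.desc⟩
  refine Pf.core g d1 b3 b4 fun F w hF' => ?_
  obtain ⟨y, y1, y2⟩ := imp_mem (R := R) (S := fun m n => C' m n (4, 0)) (L := B)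
    (Completion.toComplL (𝕜 := ℂ) (E := D')).toLinearMap (Z.map (jc i).toLinearMap)
    (fun m n f hf => ⟨_, z2 m n f hf, (jc_coe _).trans <| by rw [c2 m n _ f _ hf, h.vac]; rfl⟩)
    (fun f hf => ⟨_, z1 f hf, (b2 f hf).symm⟩) hF'
  have y2 : ((smt (improve (fun m n => C' m n (4, 0)) B) F R.vac : D') : Completion D') = jc i y :=
    y2.symm
  have m := z3 y y1 (ContinuousLinearMap.adjoint (jc i) (w : Completion D'))
  have o : jc i x.toCf.Om = (R.vac : Completion D') := jc_om h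
  rw [ContinuousLinearMap.adjoint_inner_right, ← jc_inner (i := i), ← y2, o, Completion.inner_coe,
    Completion.inner_coe] at m
  refine m.congr' (eventually_nhdsWithin_of_forall fun r hr => ?_)
  obtain ⟨p1, p2⟩ := CA.lsc_pos hr
  obtain ⟨z, k⟩ := ug_sur x.toCf p1 p2 0 y
  show inner ℂ y (P352R.P.Ue _ _ _ _ _) = inner ℂ _ (R.U _ _ _ w)
  rw [← Completion.inner_coe (smt _ _ _), y2, ← ue_coe p1 p2, ← k, ue_inner p1 p2, jc_ue h p1 p2,
    ue_inner p1 p2, ContinuousLinearMap.adjoint_inner_right]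

end

end Vale.Agent.N352.E.Mn
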