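import Vale.Agent.N352.E.Pot
import Vale.Agent.N352.E.Main
import Vale.Agent.N352.SlA

/-!
# N352, block E: the potential is weakly local relative to all fields
-/

set_option linter.all false

open MeasureTheory Filter Topology
open scoped SchwartzMap ComplexConjugate ContDiff

namespace Vale.Agent.N352.E

open Vale.Agent.P352 Vale.Agent.P352.GF Vale.Agent.P352.BW Vale.Agent.P352.H246
open Vale.Agent.P352.H496 Vale.Agent.P352.H755 Vale.Agent.P352.H15
open Vale.Agent.P352.SubConf (IsAdj)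
open Vale.Agent.P352X Vale.Agent.P352X.EB Vale.Agent.P352L
open UniformSpace (Completion)
open ContinuousLinearMap (adjoint)
open P352L.Gd (un)
open Nt (Nd mem_Nd lnm_Nd du_of Nd_wdg)

noncomputable section

variable {D : Type*} [NormedAddCommGroup D] [InnerProductSpace ℂ D] {c : Cf D}
  {T : Ix → Ix → Fld D}

/-- the vacuum separates the weak commutant -/
theorem Ca.sep {Q : Theory D} {O : Set V} (hO : IsOpen O) (hne : O.Nonempty)
    {x y : Completion D →L[ℂ] Completion D} (hx : x ∈ Ca Q O) (hy : y ∈ Ca Q O)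
    (e : x (om Q) = y (om Q)) : x = y := by
  have k := rs_sub Q (K := LinearMap.eqLocus x.toLinearMap y.toLinearMap)
    (isClosed_eq x.continuous y.continuous) e hO hne fun B f v hB hf hv => by
      obtain ⟨B', -, a⟩ := Q.adj B hB
      refine ext_inner_left ℂ fun z => Completion.induction_on z
        (isClosed_eq (by fun_prop) (by fun_prop)) fun w => ?_
      show inner ℂ _ (x _) = inner ℂ _ (y _)
      rw [← hx B B' f hB a hf, ← hy B B' f hB a hf, show x v = y v from hv]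
  exact ContinuousLinearMap.ext fun z => (k.ge trivial : z ∈ _)

/-- from small regions to compact sets, from fields to polynomials -/
theorem Ca.al {Q : Theory D} {K : Set V} (hK : IsCompact K) {x : Completion D →L[ℂ] Completion D}
    (h : ∀ z ∈ K, ∃ U, IsOpen U ∧ z ∈ U ∧ x ∈ Ca Q U) {X X' : D → D} (hX : Al Q K X X') :
    ∀ v w : D, inner ℂ ((X' w : D) : Completion D) (x v) =
      inner ℂ (w : Completion D) (x (X v : D)) := by
  induction hX with
  | one => exact fun _ _ => rfl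
  | add X X' Y Y' _ _ h1 h2 =>
    exact fun v w => by simp only [Completion.coe_add, map_add, inner_add_left, inner_add_right, h1, h2]
  | smul t X X' _ h1 =>
    exact fun v w => by
      simp only [Completion.coe_smul, map_smul, inner_smul_left, inner_smul_right, h1,
        RCLike.star_def, Complex.conj_conj]
  | fld A B f X X' hA hB hadj hf _ ih =>
    have ad : ∀ {C}, Q.fld C → ∀ f f' v, GF.IsTest f → GF.IsTest f' →
        C (fun x => f x + f' x) v = C f v + C f' v := fun hC f f' v p q => by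
      simpa only [one_mul, one_smul] using Q.lin _ f f' 1 v hC p q
    obtain ⟨W, -, b2, b3⟩ := G2.in_induct (P := fun f => ∀ v w : D,
      inner ℂ ((B (bar f) w : D) : Completion D) (x v) = inner ℂ (w : Completion D) (x (A f v : D)))
      (K := K) (fun v w => by
        rw [show (bar fun _ => 0) = fun _ => 0 from funext fun _ => star_zero _, Fss.lin0 hA,
          Fss.lin0 hB, Completion.coe_zero, map_zero, inner_zero_left, inner_zero_right]) (fun f f' p q h1 h2 v w => by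
        rw [show (bar fun x => f x + f' x) = fun x => bar f x + bar f' x from
          funext fun _ => star_add _ _, ad hA _ _ _ p.1 q.1, ad hB _ _ _ p.bar.1 q.bar.1]
        simp only [Completion.coe_add, map_add, inner_add_left, inner_add_right, h1, h2]) hK
      fun z hz => (h z hz).imp fun U k => ⟨k.1, k.2.1, fun f => k.2.2 A B f hA hadj⟩
    exact fun v w => (ih v _).trans (b3 f ⟨hf.1, hf.2.1, hf.2.2.trans b2⟩ _ w)

section lift

variable {E : Submodule ℂ D} {q : Theory E} {τ : ℝ × Ix × Ix → Fld E} {a : (V → V) → E → E}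
  {j : Completion E →L[ℂ] Completion D} {N : Set V → VonNeumannAlgebra (Completion E)}

/-- `x` lifts `y` -/
def Li (j : Completion E →L[ℂ] Completion D) (y : Completion E →L[ℂ] Completion E)
    (x : Completion D →L[ℂ] Completion D) : Prop :=
  (∀ z, x (j z) = j (y z)) ∧ ∀ z, star x (j z) = j (star y z)

variable (h : Sec c (un fun _ => T) E q τ a j) (r : Rl c (un fun _ => T)) (hN : LNm q a N)
  (hL : Lf (un fun _ => T) j N) (hC : ∀ g : Sg, Cov c.Q g.s g.L g.a) {K : Set V}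
  {y : Completion E →L[ℂ] Completion E} (hy : y ∈ Nd N K)
include h r hN hL hC hy

theorem li_ex {g : Sg} (hg : g.Adm K) : ∃ x, Li j y x ∧ x ∈ Ca c.Q g.Op := by
  have ab : 0 < GF.mdot va vb := Grp.nab ▸ one_pos
  obtain ⟨x, x1, -, x2, x3⟩ := hL va vb Grp.na Grp.nb Grp.nab _
    (mem_Nd.1 (Grp.alg1 (lnm_Nd hN) g.hs g.hL g.a hy) va vb 0 Grp.na Grp.nb ab (by
      rintro _ ⟨z, hz, rfl⟩
      exact hg z hz))
  have u : ∀ z, star (SGx.U0 c g) (SGx.U0 c g z) = z := fun z =>
    DFunLike.congr_fun (SGx.uni0 c g).1.1 z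
  have u' : ∀ z, star (Ug q g.s g.L g.a) (Ug q g.s g.L g.a z) = z := fun z =>
    DFunLike.congr_fun (Grp.uni hN.toRep g.s g.L g.a).1 z
  have e := fun z => h.U g.s g.L g.a z g.hs g.hL
  refine ⟨_, ⟨fun z => ?_, fun z => ?_⟩, Ca.cov g (hC g) (r.wk Grp.na Grp.nb Grp.nab x x1)⟩
  · simp only [ContinuousLinearMap.mul_apply] at x2 ⊢
    rw [← e, x2, u', e, u]
  · simp only [star_mul, star_star, ContinuousLinearMap.mul_apply] at x3 ⊢
    rw [← e, x3, u', e, u]

theorem li_all (hK : Bornology.IsBounded K) :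
    ∃ x, Li j y x ∧ ∀ g : Sg, g.Adm K → x ∈ Ca c.Q g.Op := by
  obtain ⟨g1, h1⟩ := EG.SGx.exa K hK
  obtain ⟨x1, a1, b1⟩ := li_ex h r hN hL hC hy h1
  refine ⟨x1, a1, fun g2 h2 => ?_⟩
  obtain ⟨g3, g4, h3, h4, n1, n2, n3⟩ := geo_row.chain K g1 g2 hK h1 h2
  obtain ⟨x2, a2, b2⟩ := li_ex h r hN hL hC hy h2
  obtain ⟨x3, a3, b3⟩ := li_ex h r hN hL hC hy h3
  obtain ⟨x4, a4, b4⟩ := li_ex h r hN hL hC hy h4
  have k : ∀ {g g' : Sg} {x x'}, (g.Op ∩ g'.Op).Nonempty → Li j y x → Li j y x' →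
      x ∈ Ca c.Q g.Op → x' ∈ Ca c.Q g'.Op → x = x' := fun {g g' x x'} n p p' s s' =>
    Ca.sep (((open_Wdg _ _ _).preimage g.cont).inter ((open_Wdg _ _ _).preimage g'.cont)) n
      (Ca.anti Set.inter_subset_left s) (Ca.anti Set.inter_subset_right s') (by
        show x c.Om = x' c.Om
        rw [← sec_om h, p.1, p'.1])
  rwa [k n1 a1 a3 b1 b3, k n2 a3 a4 b3 b4, k n3 a4 a2 b4 b2]

end lift

/-- **the potential is weakly local** -/
theorem wloc (hT : c.Q.IsStress T) (hA : ND.PCh c.Q T c.A) (hU : L.UVac c.Q)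
    (hE : ∀ m n, EB1 c.Q (T m n)) (r : Rl c (un fun _ => T))
    (hC : ∀ g : Sg, Cov c.Q g.s g.L g.a) {l : Fn → Completion D} (hl : IsPot c.Q T l) :
    N86.WeakLoc c.Q l := by
  have h1 := fam_of hT
  have t := e0_thm c
  have hf := hf_of h1
  have w := wc_thm t (fun p => hE _ _) hf
  obtain ⟨E, q, τ, a, j, h⟩ : ∃ E q τ a j, Sec c (un fun _ => T) E q τ a j :=
    ⟨_, _, _, _, _, Hy.sec ⟨t, hf, w.pj _⟩⟩
  obtain ⟨N, hN, hL⟩ := nb_thm t hf (r.slf rfl) (EG.lift_row _ _) (EG.bic_row _) w h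
  obtain ⟨k, rfl, e1, e2, e⟩ := EG.Pt.ctxN q _ a _ (sec_st h hT) (sec_pch h h1 hA) (sec_tfg h h1)
    (lnm_Nd hN) (h.uv hU)
  haveI : Fact k.tp := ⟨e⟩
  have lc := Sl.loc_all k (du_of k hN.mono e2)
  have t3 := t3_thm k
  have el := (sec_pot h (e1 ▸ k.hl) h.rep).unique hl
  intro f X X' hf hX
  obtain ⟨K, a1, a2, a3⟩ := G2.al_cpt hX
  have ad : ∀ f f', GF.IsTest f → GF.IsTest f' → l (fun x => f x + f' x) = l f + l f' :=
    fun f f' p q => by simpa only [one_mul, one_smul] using hl.lin f f' 1 p q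
  have ze : l (fun _ => 0) = 0 := by simpa using ad (fun _ => 0) (fun _ => 0) ⟨0, rfl⟩ ⟨0, rfl⟩
  obtain ⟨U, -, b2, b3⟩ := G2.in_induct (P := fun g => inner ℂ ((X' c.Q.vac : D) : Completion D)
    (l g) = inner ℂ (l (bar g)) ((X c.Q.vac : D) : Completion D)) (K := tsupport f) (by
      rw [show (bar fun _ => 0) = fun _ => 0 from funext fun _ => star_zero _, ze]
      simp) (fun f f' p q h1 h2 => by
      rw [show (bar fun x => f x + f' x) = fun x => bar f x + bar f' x from
        funext fun _ => star_add _ _, ad _ _ p.1 q.1, ad _ _ p.bar.1 q.bar.1, inner_add_left,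
        inner_add_right, h1, h2]) hf.2.1 fun x hx => by
      choose! ε e0 g g' s1 s2 s3 _ using fun y (hy : y ∈ K) => geo_row.sep x y (a2 hy x hx)
      obtain ⟨F, f1, f2⟩ := a1.elim_nhds_subcover (fun y => Metric.ball y (ε y))
        fun y hy => Metric.ball_mem_nhds y (e0 y hy)
      refine ⟨⋂ y ∈ F, Metric.ball x (ε y), isOpen_biInter_finset fun _ _ => Metric.isOpen_ball,
        Set.mem_iInter₂.2 fun y hy => Metric.mem_ball_self (e0 y (f1 y hy)), fun u hu => ?_⟩
      obtain ⟨y0, hy0⟩ := G3p.ex_wdg hu.2.1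
      have := (lc _ u ⟨hu.1, hu.2.1, subset_rfl⟩).pair (φ := adjoint j (X c.Q.vac : D))
        (φ' := adjoint j (X' c.Q.vac : D)) (fun Z hZ => ?_)
        (t3.jc.cyc_sub t3.grp Grp.na Grp.nb (Grp.nab ▸ one_pos) hy0)
      · rw [ContinuousLinearMap.adjoint_inner_right, ContinuousLinearMap.adjoint_inner_left,
          ← el _ hu.1, ← el _ hu.bar.1] at this
        exact this.symm
      rw [mem_cc, e2] at hZ
      obtain ⟨z, z1, z2⟩ := li_all h r hN hL hC hZ hu.2.1.isCompact.isBounded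
      have := Ca.al a1 (x := z) (fun p hp => ?_) a3 c.Q.vac c.Q.vac
      · rw [ContinuousLinearMap.adjoint_inner_right, ContinuousLinearMap.adjoint_inner_left,
          ← z1.1, ← z1.2, ContinuousLinearMap.star_eq_adjoint, ContinuousLinearMap.adjoint_inner_left,
          show j k.Om = _ from sec_om h]
        exact this.symm
      obtain ⟨y, hy, hp⟩ := Set.mem_iUnion₂.1 (f2 hp)
      exact ⟨_, Metric.isOpen_ball, hp, Ca.anti (fun v hv => s3 y (f1 y hy) (s2 y (f1 y hy) v hv))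
        (z2 _ fun v hv => s1 y (f1 y hy) v (Set.mem_iInter₂.1 (hu.2.2 hv) y hy))⟩
  exact b3 f ⟨hf.1, hf.2.1, b2⟩

open Fss.G P352R Mn in
/-- **all analytic hypotheses on the stress tensor**: the potential is weakly local, and a theory
that contains it is conformally invariant -/
theorem keyR {D' : Type*} [NormedAddCommGroup D'] [InnerProductSpace ℂ D'] (hT : Stress0 c.Q T)
    (hA : ND.PCh c.Q T c.A) (hC : ∀ s L a, 0 < s → IsLor L → Cov c.Q s L a)
    (hS : ∀ m n, ∃ F C, Scl c.Q (T m n) F C) (hU : L.UVac c.Q) (hE : ∀ m n, EB1 c.Q (T m n))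
    (sl : SL1 c.Q T) : NoLog c.Q T ∧ ∃ S l, c.Q.IsStress S ∧ ND.PCh c.Q S c.A ∧ IsPot c.Q S l ∧
      N86.WeakLoc c.Q l ∧ ∀ (R : Theory D') i G' T' A', Over c.Q T R i G' T' A' →
        (∃ B, R.bose B ∧ ∀ f, IsTest f → ((B f R.vac : D') : Completion D') =
          Completion.map i (l f)) → ∃ t, Conf R G' T' t := by
  obtain ⟨F, C, hC', c4, h1, h2, h3, r0⟩ :=
    sector0 hT hA (fun s hs => hC s _ 0 hs H496.isLor_one) hS hU hE sl
  obtain ⟨N, l, -, hl, -, Z, z2, z1, z3⟩ := pot h1 h2 hU h3 r0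
  refine ⟨fun m n => ⟨_, _, hC' m n, c4 m n⟩, _, l, h1, h2, hl,
    wloc h1 h2 hU h3 r0 (fun g => hC _ _ _ g.hs g.hL) hl, ?_⟩
  rintro R i G' T' A' ⟨h, g, gn, hT', hP, hx⟩ ⟨B, b1, b2⟩
  have g := Br.gr.1 g
  have hT' := Br.stress0.1 hT'
  have r := m1_gr c.hN.toGr
  have r' := m1_gr g
  choose C' c1 c2 using fun m n =>
    Cw.scl_ext (Br.sect.1 h) r r' (hT.bose m n) (hT'.bose m n) (hx m n) (hC' m n)
  obtain ⟨d1, d2⟩ :=
    Cw.fss r' (Cw.cj r' gn) (fun s hs => h.cov s _ 0 hs H496.isLor_one) hT' hP c1 c4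
  have b2 : ∀ f, IsTest f → ((B f R.vac : D') : Completion D') = jc i (l f) := fun f hf => by
    rw [b2 f hf, jc_map]
  obtain ⟨b3, b4⟩ := scal_sect h d1 (fun m n => c2 m n _) hl.trace (fun s M a f hs hM hf => by
    have k : ((s ^ 2 : ℝ) : ℂ) ≠ 0 := Complex.ofReal_ne_zero.2 (by positivity)
    rw [show P352R.P.Ue c.Q s M a _ = _ from (Ug_apply _ hs hM _ _).symm,
      Sq.pot hl a hs hM hf,
      ← Complex.coe_smul, smul_smul, Complex.ofReal_inv, mul_inv_cancel₀ k, one_smul]) b1 b2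
  suffices k : Conf R G' (fun m n => C' m n (4, 0)) (improve (fun m n => C' m n (4, 0)) B) from
    ⟨_, k.form, Br.impr.2 (Fss.impr hT' hP d1 d2 (Br.impr.1 k.impr)), k.act, k.cfs, k.desc⟩
  refine Pf.core g d1 b3 b4 fun F w hF' => ?_
  obtain ⟨y, y1, y2⟩ := imp_mem (R := R) (S := fun m n => C' m n (4, 0)) (L := B)
    (Completion.toComplL (𝕜 := ℂ) (E := D')).toLinearMap (Z.map (jc i).toLinearMap)
    (fun m n f hf => ⟨_, z2 m n f hf, (jc_coe _).trans <| by rw [c2 m n _ f _ hf, h.vac]; rfl⟩)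
    (fun f hf => ⟨_, z1 f hf, (b2 f hf).symm⟩) hF'
  have y2 : ((smt (improve (fun m n => C' m n (4, 0)) B) F R.vac : D') : Completion D') = jc i y :=
    y2.symm
  have m := z3 y y1 (ContinuousLinearMap.adjoint (jc i) (w : Completion D'))
  have o : jc i c.Om = (R.vac : Completion D') := jc_om h
  rw [ContinuousLinearMap.adjoint_inner_right, ← jc_inner (i := i), ← y2, o, Completion.inner_coe,
    Completion.inner_coe] at m
  refine m.congr' (eventually_nhdsWithin_of_forall fun r hr => ?_)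
  obtain ⟨p1, p2⟩ := CA.lsc_pos hr
  obtain ⟨z, k⟩ := ug_sur c p1 p2 0 y
  show inner ℂ y (P352R.P.Ue _ _ _ _ _) = inner ℂ _ (R.U _ _ _ w)
  rw [← Completion.inner_coe (smt _ _ _), y2, ← ue_coe p1 p2, ← k, ue_inner p1 p2, jc_ue h p1 p2,
    ue_inner p1 p2, ContinuousLinearMap.adjoint_inner_right]

end

end Vale.Agent.N352.E
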