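import Vale.Agent.N352.E.Cf
import Vale.Agent.N352.X.Xs
import Vale.Agent.N352.X.Lt

/-!
# N352, block E: labels, covariance, extensions (port of X/COV, XT, Xs)
-/

set_option linter.all false

open MeasureTheory Filter Topology
open scoped SchwartzMap ComplexConjugate ContDiff

namespace Vale.Agent.N352.E

export Vale.Agent.P352X.EB (Wd TW CW evw cutw snw cutf SE Apx Tm)
export Vale.Agent.P352NA (Cyc)
export Vale.Agent.N352.G (Gd sg_sq conj_sg sg_false sg_true)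
export Vale.Agent.N352.G.X (ExtC test_pull cov_mf cyc_vac cyc_fld cs cs_dense ext_C ext_aff)

open Vale.Agent.P352 Vale.Agent.P352.GF Vale.Agent.P352.BW Vale.Agent.P352.H246
open Vale.Agent.P352.H496 Vale.Agent.P352.H755 Vale.Agent.P352.H15
open Vale.Agent.P352.SubConf (IsAdj)
open Vale.Agent.P352X Vale.Agent.P352X.EB
open Vale.Agent.P352X.EB.NA (ul zz_le)
open UniformSpace (Completion)
open Complex (I)
open Bornology (IsBounded)

noncomputable section

variable {D : Type*} [NormedAddCommGroup D] [InnerProductSpace ℂ D]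

variable {c : Cf D}

namespace Fsg

open Vale.Agent.P352X.Fss

variable {T : Ix → Ix → Fld D} {B : Fld D} {f : Fn} {s : ℝ} {F : Finset (ℂ × ℕ)} {C : ℂ × ℕ → Fld D}

/-- conjugation of the generators by dilations -/
lemma conj_dil (hs : 0 < s) {y : V} {w : Ix → V}
    (hw : ∀ m n, eta n * w m n = -(eta m * w n m)) {X X' : V → V}
    (hX : ∀ z n, X z n = (s • y) n + 0 * z n + ∑ m, z m * w m n)
    (hX' : ∀ z n, X' z n = y n + 0 * z n + ∑ m, z m * w m n) (v : D) :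
    u c.Q s hs (c.A X' v) = c.A X (u c.Q s hs v) := by
  obtain ⟨s', L, a, K⟩ := H746.exists_crv hw 0 y
  have K' : H746.Crv s' L (fun e => s • a e) w 0 (s • y) :=
    ⟨K.s0, K.L0, by simp [K.a0], K.sp, K.lor, K.ds, K.dL, fun n => (K.da n).const_mul s⟩
  have h1 := hasDerivAt_iso (U_add hs H496.isLor_one 0) (U_smul hs H496.isLor_one 0)
    (fun v => H246.U_nrm0 (Q := c.Q) hs H496.isLor_one 0 v) (der (c := c) K hX' v)
  have h2 := der (c := c) K' hX (u c.Q s hs v)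
  have e : (fun e => c.Q.U s GF.one 0 (c.Q.U (s' e) (L e) (a e) v)) =
      fun e => c.Q.U (s' e) (L e) (s • a e) (u c.Q s hs v) := by
    funext e
    refine (m1 c _ _ _ _ _ _ v hs (K.sp e) H496.isLor_one (K.lor e) (.inl rfl)).trans
      (Eq.trans ?_ (m1 c _ _ _ _ _ _ v (K.sp e) hs (K.lor e) H496.isLor_one (.inr rfl)).symm)
    have : sim (s' e) (L e) (s • a e) 0 = s • a e := by
      funext n
      simp [sim]
    simp only [this, sim_dil, zero_add, one_smul, mul_comm s]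
    simp only [GF.one, N86.c1_bas]
  rw [e] at h1
  refine smul_right_injective D Complex.I_ne_zero ?_
  exact (map_smul (u c.Q s hs) I _).symm.trans (h1.unique h2)

lemma dl_pch (hT : Stress0 c.Q T) (hs : 0 < s) (hP : ND.PCh c.Q T c.A) (h : Scl c.Q B F C)
    {G : ℝ → Fn} (hG : IsCutoff G) {X : V → V}
    (hX : IsSim 0 X) (hf : IsTest f) (hc : HasCompactSupport f) (v w : D) :
    Tendsto (fun r => inner ℂ w (ND.cur (fun m n => dl c.Q s hs (T m n)) X (G r) (B f v) -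
      B f (ND.cur (fun m n => dl c.Q s hs (T m n)) X (G r) v))) atTop
      (𝓝 (inner ℂ w (c.A X (B f v) - B f (c.A X v)))) := by
  have R := m1 c
  have hb := fun m n => c.Q.bose_fld _ (hT.bose m n)
  have s0 : (s : ℂ) ≠ 0 := Complex.ofReal_ne_zero.2 hs.ne'
  set X' : V → V := fun z => s⁻¹ • X (s • z) with hX'
  obtain ⟨y, w', h1, h2⟩ := id hX
  have h3 : ∀ z n, X' z n = (s⁻¹ • y) n + 0 * z n + ∑ m, z m * w' m n := fun z n => by
    simp only [hX', Pi.smul_apply, h2, smul_eq_mul, mul_assoc, ← Finset.mul_sum]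
    field_simp
  have hX1 : IsSim 0 X' := ⟨_, w', h1, h3⟩
  have eP : ∀ z, u c.Q s hs (gen c hX1 (u c.Q s⁻¹ (inv_pos.2 hs) z)) = c.A X z := fun z => by
    refine (conj_dil hs h1 (X := X) (by rw [smul_inv_smul₀ hs.ne']; exact h2) h3 _).trans ?_
    rw [Fss.G.u_inv R hs z]
  have l := tendsto_finset_sum F fun d _ => (hP _ X' _ _ (u c.Q s⁻¹ (inv_pos.2 hs) v)
    (u c.Q s⁻¹ (inv_pos.2 hs) w) (cut_ds hG hs) hX1 (h.1 d).1 (ds_test hs hf)
    (ds_cpt hs hc)).const_mul (CL.zz s d)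
  convert l.congr' ((isTest_cutoff hG).mono fun r hr => ?_) using 2
  · rw [← eP, ← eP]
    exact CL.comm h R hs hf (gen c hX1) v w
  · have ht : IsTest fun x => (s : ℂ) * ds s (G r) x := Ap.sw_cmul s (ds_test hs hr)
    have e : ∀ z, ND.cur (fun m n => dl c.Q s hs (T m n)) X (G r) z =
        u c.Q s hs (curL hb hX1 ht (u c.Q s⁻¹ (inv_pos.2 hs) z)) := fun z => by
      rw [curL_apply, ND.cur, ND.cur, map_sum]
      refine Finset.sum_congr rfl fun n _ => ?_
      rw [Fss.dl]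
      congr 2
      funext x
      simp only [ds_apply, hX', Pi.smul_apply, smul_eq_mul]
      push_cast
      field_simp
    rw [e, e, CL.comm h R hs hf]
    simp only [curL_apply]

lemma st (T : Ix → Ix → Fld D) (hF : FSL c.Q) (hN : NoLog c.Q T) (hT : Stress0 c.Q T)
    (hP : ND.PCh c.Q T c.A) : ∃ T', c.Q.IsStress T' ∧ ND.PCh c.Q T' c.A := by
  classical
  obtain ⟨T', h1, h2, -⟩ := CL.fssL (m1 c) hF hT hN
  refine ⟨T', h1, fun G X B f v w hG hX hB hf hc' => ?_⟩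
  choose F C h4 hd he using h2
  obtain ⟨S, a, ha⟩ := CL.vg (Finset.univ.biUnion fun p : Ix × Ix => F p.1 p.2) (4, 0)
  have hs : ∀ m n, F m n ⊆ Finset.univ.biUnion fun p : Ix × Ix => F p.1 p.2 := fun m n d hd =>
    Finset.mem_biUnion.2 ⟨(m, n), Finset.mem_univ _, hd⟩
  have c1 : ∑ t ∈ S, a t = 1 := by simpa [CL.pg, CL.ph] using ha _ (hs o o (h4 o o))
  have fm : ∀ m n f v, IsTest f → T' m n f v =
      ∑ t ∈ S, a t • dl c.Q _ (Real.exp_pos t) (T m n) f v := fun m n f v hf => by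
    rw [he]
    exact CL.sfm (hd m n) (m1 c) (h4 m n) (fun d hd => ha d (hs m n hd)) hf v
  obtain ⟨F', C', b⟩ := hF B hB
  have := tendsto_finset_sum S fun t _ =>
    (dl_pch hT (Real.exp_pos t) hP b hG hX hf hc' v w).const_mul (a t)
  rw [← Finset.sum_mul, c1, one_mul] at this
  refine this.congr' ((isTest_cutoff hG).mono fun r hr => ?_)
  have e : ∀ z, ND.cur T' X (G r) z = ∑ t ∈ S, a t •
      ND.cur (fun m n => dl c.Q _ (Real.exp_pos t) (T m n)) X (G r) z := fun z => by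
    simp only [ND.cur, fun n => fm o n _ z (test_sim0 hX hr n), Finset.smul_sum]
    exact Finset.sum_comm
  simp only [e, ← fl_apply hB hf, map_sum, map_smul, ← Finset.sum_sub_distrib, ← smul_sub,
    inner_sum, inner_smul_right]

end Fsg

/-- the labels of fields: fields of definite parity, with an adjoint -/
structure Lb (c : Cf D) where
  B : Fld D
  B' : Fld D
  e : Bool
  h : c.Q.fld B
  h' : c.Q.fld B'
  a : IsAdj B B'
  par : Pa c e B

/-- row COV0: a similitude maps a field to a linear combination of fields -/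
def COV0 (c : Cf D) : Prop := ∀ B B', c.Q.fld B → c.Q.fld B' → IsAdj B B' → ∀ g : Sg,
  ∃ (n : ℕ) (q : Fin n → Lb c) (κ : Fin n → ℂ), ∀ f v, IsTest f →
      B f (c.Q.U g.s g.L g.a v) = ∑ i, κ i • c.Q.U g.s g.L g.a ((q i).B (g.pull f) v) ∧
      B' f (c.Q.U g.s g.L g.a v) = ∑ i, conj (κ i) • c.Q.U g.s g.L g.a ((q i).B' (g.pull f) v)

/-- row COV: the same on the vacuum, for the group with the grading -/
def COV (c : Cf D) : Prop := ∀ B B', c.Q.fld B → c.Q.fld B' → IsAdj B B' → ∀ g : Sh c,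
  ∃ (n : ℕ) (q : Fin n → Lb c) (κ : Fin n → ℂ), ∀ f, IsTest f →
      ((B f c.Q.vac : D) : Completion D) = ∑ i, κ i • g.U c ((q i).B (g.pull f) c.Q.vac : D) ∧
      ((B' f c.Q.vac : D) : Completion D) =
        ∑ i, conj (κ i) • g.U c ((q i).B' (g.pull f) c.Q.vac : D)

/-- row COVU: the similitudes map a field into the span of a finite family of fields -/
def COVU (c : Cf D) : Prop := ∀ B B', c.Q.fld B → c.Q.fld B' → IsAdj B B' →
  ∃ (e n : ℕ) (q : Fin n → Lb c) (κ : Sg → Fin n → ℂ),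
    (∀ g : Sg, 1 ≤ g.s → g.L = GF.one → ∀ i, ‖κ g i‖ ≤ g.s ^ e) ∧
    ∀ (g : Sg) f v, IsTest f →
      B f (c.Q.U g.s g.L g.a v) = ∑ i, κ g i • c.Q.U g.s g.L g.a ((q i).B (g.pull f) v) ∧
      B' f (c.Q.U g.s g.L g.a v) = ∑ i, conj (κ g i) • c.Q.U g.s g.L g.a ((q i).B' (g.pull f) v)

theorem COVU.cov0 (h : COVU c) : COV0 c := fun B B' a b d g =>
  let ⟨_, n, q, κ, _, k⟩ := h B B' a b d
  ⟨n, q, κ g, k g⟩

theorem gd (c : Cf D) : Gd c.Γ := ⟨SGx.g2 c, SGx.gs c⟩

namespace Sq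

variable {s : ℝ}

variable {T : Ix → Ix → Fld D} {l : Fn → Completion D} {f : Fn}

theorem pot (hl : IsPot c.Q T l) {L : Ix → V} (a : V) (hs : 0 < s) (hL : IsLor L) (hf : IsTest f) :
    Ug c.Q s L a (l fun x => f (sim s L a x)) = ((s ^ 2)⁻¹ : ℝ) • l f := by
  have h1 : ∀ w, inner ℂ (Ug c.Q s L a w) (l f) =
      (s ^ 2 : ℝ) * inner ℂ w (l fun x => f (sim s L a x)) := fun w =>
    Completion.induction_on w (isClosed_eq (by fun_prop) (by fun_prop)) fun v => by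
      rw [Grp.coe hs hL, hl.cov s L a f v hs hL hf]
  refine ext_inner_left ℂ fun z => ?_
  have h2 : z = Ug c.Q s L a (star (Ug c.Q s L a) z) :=
    (DFunLike.congr_fun (SGx.uni0 c ⟨s, L, a, hs, hL⟩).1.2 z).symm
  have h3 : ((s ^ 2 : ℝ) : ℂ) ≠ 0 := Complex.ofReal_ne_zero.2 (by positivity)
  rw [h2, Grp.ug_inner hs hL, ← Complex.coe_smul, inner_smul_right, h1, Complex.ofReal_inv,
    inv_mul_cancel_left₀ h3]

theorem bose_ev {B : Fld D} (h : c.Q.bose B) (hf : IsTest f) :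
    c.Γ (B f c.Q.vac : D) = (B f c.Q.vac : D) := by
  rw [c.hN.ext, ← c.hN.bose B f _ h hf, c.hN.vac]

theorem l_even (hT : c.Q.IsStress T) (hl : IsPot c.Q T l) (hf : IsTest f) : c.Γ (l f) = l f := by
  refine hl.unique (l' := fun f => c.Γ (l f)) ⟨fun f g z a b => ?_, c.Γ.continuous.comp hl.cont,
    fun f hf => ?_, fun s L a f v hs hL hf => ?_⟩ f hf
  · rw [hl.lin f g z a b, map_add, map_smul]
  · rw [← map_smul, hl.trace f hf, GF.tr, ← Completion.coe_toComplL (𝕜 := ℂ)]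
    simp only [map_sum, map_smul, Completion.coe_toComplL, bose_ev (hT.bose _ _) hf]
  · rw [← (gd c).gi, ← (gd c).gi, c.hN.ext, c.hN.ext, ← c.hN.GU _ _ _ _ hs hL,
      hl.cov s L a f _ hs hL hf]

end Sq

/-- every field is the sum of an even and an odd label -/
theorem ex_split {B : Fld D} (hB : c.Q.fld B) : ∃ q : Bool → Lb c, (∀ e, (q e).e = e) ∧
    c.Q.bose (q false).B ∧ ∀ f v, IsTest f → B f v = (q false).B f v + (q true).B f v := by
  obtain ⟨C, C', h1, h2, h3⟩ := c.hN.split B hB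
  obtain ⟨A, a1, a2⟩ := c.Q.adj C (c.Q.bose_fld _ h1)
  obtain ⟨A', b1, b2⟩ := c.Q.adj C' h2.1
  refine ⟨fun e => cond e ⟨C', A', true, h2.1, b1, b2, fun f v hf => ?_⟩
    ⟨C, A, false, c.Q.bose_fld _ h1, a1, a2, fun f v hf => ?_⟩, fun e => by cases e <;> rfl, h1, h3⟩
  · rw [h2.2 f v hf, sg_true, neg_one_smul]
  · rw [c.hN.bose C f v h1 hf, sg_false, one_smul]

/-- the adjoint label -/
def Lb.dag (q : Lb c) : Lb c :=
  ⟨q.B', q.B, q.e, q.h', q.h, H755.adj_symm q.a, Bas.padj _ _ _ q.a q.par⟩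

theorem Lb.pvac (q : Lb c) {f : Fn} (hf : IsTest f) :
    c.Γ (q.B f c.Q.vac : D) = sg q.e • ((q.B f c.Q.vac : D) : Completion D) :=
  (bas_row (sg_row c)).pvac _ _ f q.par hf

theorem Lb.pvac' (q : Lb c) {f : Fn} (hf : IsTest f) :
    c.Γ (q.B' f c.Q.vac : D) = sg q.e • ((q.B' f c.Q.vac : D) : Completion D) := q.dag.pvac hf

/-- **row COVU** -/
theorem covu_row (mf : MfAll c.Q) (fsl : FSL c.Q) : COVU c := by
  intro B B' hB hB' hA
  obtain ⟨n, A, h1, h2⟩ := mf B hB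
  choose k Φ μ hΦ e using h1
  choose F C hC using fun i b => fsl _ ((hΦ i).1 b)
  choose q _ _ hq using fun i b p => ex_split ((hC i b).1 p).1
  let ι := (Σ i, Σ b, F i b) × Bool
  let E := (Fintype.equivFin ι).symm
  let κ : Sg → ι → ℂ := fun g j => (k j.1.1).ρ g.L j.1.2.1 (μ j.1.1) * CL.zz g.s j.1.2.2
  let r : ι → Lb c := fun j => q j.1.1 j.1.2.1 j.1.2.2 j.2
  have key : ∀ (g : Sg) f v, IsTest f → B f (c.Q.U g.s g.L g.a v) =
      ∑ i, κ g (E i) • c.Q.U g.s g.L g.a ((r (E i)).B (g.pull f) v) := fun g f v hf => by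
    rw [E.sum_comp fun j : ι => κ g j • c.Q.U g.s g.L g.a ((r j).B (g.pull f) v),
      h2 f _ hf, Fintype.sum_prod_type, Fintype.sum_sigma]
    refine Finset.sum_congr rfl fun i _ => ?_
    rw [e, cov_mf (sg_row c).mul1 (hΦ i) (hC i) (μ i) g hf]
    refine Finset.sum_congr rfl fun j _ => ?_
    rw [hq _ _ _ _ _ (test_pull g hf), map_add, smul_add, Fintype.sum_bool, add_comm]
    rfl
  refine ⟨Finset.univ.sup fun j : ι => ⌈(4 - j.1.2.2.1.1).re⌉₊ + j.1.2.2.1.2, _,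
    fun i => r (E i), fun g i => κ g (E i), fun g hs hL i => ?_,
    fun g f v hf => ⟨key g f v hf, Bas.sadj (sg_row c) _ _ _ _ _ _ _ _ _ g.hs g.hL hA
      (fun i => (r (E i)).a) (key g) f v hf⟩⟩
  refine (norm_mul_le _ _).trans ((mul_le_of_le_one_left (norm_nonneg _) ?_).trans (zz_le hs _
    (Finset.le_sup (f := fun j : ι => ⌈(4 - j.1.2.2.1.1).re⌉₊ + j.1.2.2.1.2)
      (Finset.mem_univ (E i)))))
  rw [hL, (k _).id, Matrix.one_apply]
  split_ifs <;> simp

/-- **row COV0** -/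
theorem cov0_row (mf : MfAll c.Q) (fsl : FSL c.Q) : COV0 c := (covu_row mf fsl).cov0

theorem U_par (g : Sh c) {e : Bool} {w : Completion D} (h : c.Γ w = sg e • w) :
    Ug c.Q g.s g.L g.a w = sg (g.e && e) • g.U c w := by
  obtain ⟨g, b⟩ := g
  cases b
  · exact (one_smul _ _).symm
  · have : c.Γ (Ug c.Q g.s g.L g.a w) = Ug c.Q g.s g.L g.a (c.Γ w) :=
      DFunLike.congr_fun (SGx.gU0 c g) w
    show _ = sg e • c.Γ (Ug c.Q g.s g.L g.a w)
    rw [this, h, map_smul, smul_smul, sg_sq, one_smul]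

theorem cov_vac (g : Sh c) {n : ℕ} {κ : Fin n → ℂ} {B : Fld D} {q : Fin n → Lb c} {f : Fn}
    (hf : IsTest f) (h : B f (c.Q.U g.s g.L g.a c.Q.vac) =
      ∑ i, κ i • c.Q.U g.s g.L g.a ((q i).B (g.pull f) c.Q.vac)) :
    ((B f c.Q.vac : D) : Completion D) =
      ∑ i, (κ i * sg (g.e && (q i).e)) • g.U c ((q i).B (g.pull f) c.Q.vac : D) := by
  rw [c.Q.U_vac _ _ _ g.hs g.hL] at h
  rw [h, ← Completion.coe_toComplL (𝕜 := ℂ), map_sum]
  exact Finset.sum_congr rfl fun i _ => by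
    rw [map_smul, Completion.coe_toComplL, ← Grp.coe g.hs g.hL,
      U_par g ((q i).pvac (test_pull _ hf)), smul_smul]

/-- **row COV** -/
theorem cov_row (h : COV0 c) : COV c := by
  intro B B' hB hB' hA g
  obtain ⟨n, q, κ, h2⟩ := h B B' hB hB' hA g.toSg
  refine ⟨n, q, fun i => κ i * sg (g.e && (q i).e), fun f hf => ⟨cov_vac g hf (h2 f _ hf).1, ?_⟩⟩
  simp only [map_mul, conj_sg]
  exact cov_vac g (q := fun i => (q i).dag) hf (h2 f _ hf).2

section ext

variable {Q : Theory D} {Γ : Completion D →L[ℂ] Completion D} {D' : Submodule ℂ (Completion D)}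
  {Q' : Theory D'} {G' : D' → D'} {e : Fld D → Fld D'} {B B' : Fld D} {f : Fn} {w : D}

theorem U_U (c : Cf D) (g : Sg) :
    (∀ v, c.Q.U g.s g.L g.a (c.Q.U g.inv.s g.inv.L g.inv.a v) = v) ∨
      ∀ v, c.Q.U g.s g.L g.a (c.Q.U g.inv.s g.inv.L g.inv.a v) = c.G v :=
  (SGx.mul0 c g g.inv).imp (fun h v => Completion.coe_injective D (by
    rw [← Grp.coe g.hs g.hL, ← Grp.coe g.inv.hs g.inv.hL]
    exact DFunLike.congr_fun (h.trans (SGx.one0 c g)) _)) fun h v =>
      Completion.coe_injective D (by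
        rw [SGx.one0, mul_one] at h
        rw [← Grp.coe g.hs g.hL, ← Grp.coe g.inv.hs g.inv.hL, ← c.hN.ext]
        exact DFunLike.congr_fun h _)

theorem U_inj (c : Cf D) (g : Sg) : Function.Injective (c.Q.U g.s g.L g.a) := fun v w h =>
  ext_inner_left ℂ fun z => by
    rw [← c.Q.U_inner _ _ g.a _ _ g.hs g.hL, h, c.Q.U_inner _ _ g.a _ _ g.hs g.hL]

/-- the grading as a linear map -/
def gl (c : Cf D) : D →ₗ[ℂ] D := ⟨⟨c.G, Bas.gadd⟩, Bas.gsmul⟩

theorem cyc_G (h : Cyc c.Q w) : Cyc c.Q (c.G w) := by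
  refine h ((cs c.Q).comap (gl c)) ?_ fun A f v hA hf hv => ?_
  · show Cyc c.Q (c.G _)
    rw [c.hN.vac]
    exact cyc_vac
  obtain ⟨q, -, -, h⟩ := ex_split hA
  show Cyc c.Q (c.G _)
  rw [h f v hf, Bas.gadd, Bas.pa' (q false).par hf, Bas.pa' (q true).par hf]
  exact (cs c.Q).add_mem ((cs c.Q).smul_mem _ (cyc_fld (q _).h hf hv))
    ((cs c.Q).smul_mem _ (cyc_fld (q _).h hf hv))

theorem cyc_U (hc : COV0 c) (g : Sg) (h : Cyc c.Q w) : Cyc c.Q (c.Q.U g.s g.L g.a w) := by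
  refine h ((cs c.Q).comap (ul c.Q g)) ?_ fun A f v hA hf hv => ?_
  · show Cyc c.Q (c.Q.U _ _ _ _)
    rw [c.Q.U_vac _ _ _ g.hs g.hL]
    exact cyc_vac
  obtain ⟨A', hA', d⟩ := c.Q.adj A hA
  obtain ⟨n, q, κ, h2⟩ := hc A A' hA hA' d g.inv
  obtain ⟨u, hu, rfl⟩ : ∃ u, Cyc c.Q u ∧ c.Q.U g.inv.s g.inv.L g.inv.a u = v :=
    (U_U c g).elim (fun h => ⟨_, hv, U_inj c g (h _)⟩)
      fun h => ⟨_, cyc_G hv, U_inj c g ((h _).trans (c.hN.inv _))⟩
  rw [Submodule.mem_comap, (h2 f u hf).1, map_sum]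
  refine Submodule.sum_mem _ fun i _ => ?_
  rw [map_smul]
  refine Submodule.smul_mem _ _ ?_
  have := cyc_fld (q i).h (test_pull g.inv hf) hu
  show Cyc c.Q (c.Q.U _ _ _ _)
  rcases U_U c g with h | h <;> rw [h]
  exacts [this, cyc_G this]

/-- covariance passes to the adjoints -/
theorem cov_adj (g : Sg) {ι : Type} [Fintype ι] {Φ Φ' : ι → Fld D} {κ : ι → ℂ} (h : IsAdj B B')
    (h' : ∀ i, IsAdj (Φ i) (Φ' i)) (k : ∀ f v, IsTest f → B f (c.Q.U g.s g.L g.a v) =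
      ∑ i, κ i • c.Q.U g.s g.L g.a (Φ i (g.pull f) v)) (f : Fn) (w : D) (hf : IsTest f) :
    B' f (c.Q.U g.s g.L g.a w) = ∑ i, conj (κ i) • c.Q.U g.s g.L g.a (Φ' i (g.pull f) w) := by
  let E := (Fintype.equivFin ι).symm
  rw [← E.sum_comp]
  exact Bas.sadj (sg_row c) _ _ _ _ (fun i => κ (E i)) _ _ _ _ g.hs g.hL h (fun i => h' (E i))
    (fun f v hf => (k f v hf).trans (E.sum_comp _).symm) f w hf

/-- covariance relations pass to the extension -/
theorem ext_cov (hc : COV0 c) (E : ExtC c.Q Γ Q' G' e) (g : Sg) {ι : Type} [Fintype ι]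
    {C : ι → Fld D} {κ : ι → ℂ} (hB : c.Q.fld B) (hC : ∀ i, c.Q.fld (C i))
    (h : ∀ f v, IsTest f → B f (c.Q.U g.s g.L g.a v) =
      ∑ i, κ i • c.Q.U g.s g.L g.a (C i (g.pull f) v)) (hf : IsTest f) (v : D') :
    e B f (Q'.U g.s g.L g.a v) = ∑ i, κ i • Q'.U g.s g.L g.a (e (C i) (g.pull f) v) := by
  obtain ⟨B', b, hB'⟩ := c.Q.adj B hB
  choose C' b' hC' using fun i => c.Q.adj (C i) (hC i)
  have h0 := fun w => cov_adj g hB' hC' h _ w (Ap.test_bar hf)
  have hU := (SGx.uni0 c g).1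
  have hW : ∀ x y, inner ℂ (Ug c.Q g.s g.L g.a x) (Ug c.Q g.s g.L g.a y) = inner ℂ x y :=
    ContinuousLinearMap.inner_map_map_of_mem_unitary hU
  refine STRa.ext_dense (u := fun w : cs c.Q => Ug c.Q g.s g.L g.a (w : D))
    ((Function.Surjective.denseRange fun z => ⟨star (Ug c.Q g.s g.L g.a) z,
      DFunLike.congr_fun hU.2 z⟩).comp
      (cs_dense c.Q) (Ug c.Q g.s g.L g.a).continuous) fun w => ?_
  have h2 : ∀ z : D', (Q'.U g.s g.L g.a z : Completion D) = Ug c.Q g.s g.L g.a z := fun z =>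
    (E.U _ _ _ z g.hs g.hL).trans (Ug_apply _ g.hs g.hL _ _).symm
  have h3 : ∀ z : D, ((c.Q.U g.s g.L g.a z : D) : Completion D) = Ug c.Q g.s g.L g.a z := fun z =>
    (Grp.coe g.hs g.hL _ z).symm
  conv_lhs => rw [← h3, ext_aff E hB b hB' hf _ (cyc_U hc g w.2), h0, h2]
  simp only [STRa.coe_sum, Completion.coe_smul, Submodule.coe_sum, Submodule.coe_smul, inner_sum,
    sum_inner, inner_smul_left, inner_smul_right, h2, h3, hW, fun i =>
      ext_aff E (hC i) (b' i) (hC' i) (test_pull g hf) v w.2]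
  rfl

/-- the stress tensor of an extension -/
theorem str0 {T : Ix → Ix → Fld D} (hT : c.Q.IsStress T) (hc : COV0 c) (E : ExtC c.Q Γ Q' G' e)
    (hA : ∀ A, Q'.fld A → ∃ (n : ℕ) (B : Fin n → Fld D), (∀ i, c.Q.fld (B i)) ∧
      ∀ f v, IsTest f → A f v = ∑ i, e (B i) f v) : Q'.IsStress fun m n => e (T m n) := by
  have hf : ∀ m n, c.Q.fld (T m n) := fun m n => c.Q.bose_fld _ (hT.bose m n)
  have ha := fun m n f (h : IsTest f) (v : D') (w : D) (hw : Cyc c.Q w) =>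
    ext_aff E (hf m n) (hf m n) (hT.herm m n) h v hw
  refine ⟨fun m n => E.bos _ (hT.bose m n), fun m n f v h => ext_C c.Q fun w hw => ?_,
    fun m n => E.adj _ _ (hf m n) (hf m n) (hT.herm m n), fun m n s L a f v hs hL h => ?_,
    fun n f v h => ext_C c.Q fun w hw => ?_, fun F n B f v w hF hB h hs => ?_⟩
  · rw [ha _ _ _ h _ _ hw, ha _ _ _ h _ _ hw, hT.symm m n _ _ (Ap.test_bar h)]
  · exact (ext_cov hc E ⟨s, L, a, hs, hL⟩ (C := fun p : Ix × Ix => T p.1 p.2)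
      (κ := fun p => (L p.1 m * L p.2 n : ℂ)) (hf m n) (fun _ => hf _ _) (fun g w hg =>
        (hT.cov m n s L a g w hs hL hg).trans (Fintype.sum_prod_type' _).symm) h v).trans
      (Fintype.sum_prod_type _)
  · rw [Submodule.coe_sum, sum_inner]
    simp only [ha _ _ _ (Ap.test_pd _ h) _ _ hw, H755.bar_pd h]
    rw [← inner_sum, ← STRa.coe_sum, hT.conserved n _ w (Ap.test_bar h), Completion.coe_zero,
      inner_zero_right, Submodule.coe_zero, inner_zero_left]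
  · obtain ⟨k, C, hC, h1⟩ := hA B hB
    choose C' hC' adj using fun i => c.Q.adj (C i) (hC i)
    have hb : HasCompactSupport (bar f) := hs.comp_left (g := star) (star_zero _)
    refine tendsto_const_nhds.congr' ?_
    filter_upwards [STRa.exact_charge hT hF (Ap.test_bar h) hb, eventually_gt_atTop 0] with R hR R0
    obtain ⟨a, b, -, -, -, -, h2⟩ := hF
    obtain ⟨h3, h4⟩ := h2 R R0
    have h5 : bar (F R) = F R := funext fun x => by
      change conj (F R x) = F R x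
      rw [h4, map_mul, Complex.conj_ofReal, Complex.conj_ofReal]
    congr 1
    refine ext_C c.Q fun z hz => ?_
    have h6 := fun i g (hg : IsTest g) (u : D') (y : D) (hy : Cyc c.Q y) =>
      ext_aff E (hC i) (hC' i) (adj i) hg u hy
    rw [Submodule.coe_sub, inner_sub_left, ha _ _ _ h3 _ _ hz, h1 _ _ h, h1 _ _ h,
      h1 _ _ (Ap.test_pd n h), h5]
    simp only [Submodule.coe_sum, Submodule.coe_smul, sum_inner, inner_smul_left, h6 _ _ h _ _ hz,
      h6 _ _ h _ _ (cyc_fld (hf _ _) h3 hz), h6 _ _ (Ap.test_pd n h) _ _ hz,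
      ha _ _ _ h3 _ _ (cyc_fld (hC' _) (Ap.test_bar h) hz), h5, H755.bar_pd h]
    rw [← Finset.sum_sub_distrib, Finset.mul_sum]
    refine Finset.sum_congr rfl fun i _ => ?_
    rw [← inner_sub_right, ← Completion.coe_sub, ← neg_sub, hR _ (hC' i), Completion.coe_neg,
      Completion.coe_smul, inner_neg_right, inner_smul_right]
    simp

variable (E : ExtC c.Q c.Γ Q' G' e)
include E

theorem ext_odd (h : Fer c.Q c.G B) : Fer Q' G' (e B) := by
  refine ⟨E.fld _ h.1, fun f v hf => ext_C c.Q fun y hy => ?_⟩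
  obtain ⟨B', b, hA⟩ := c.Q.adj B h.1
  have pa := Bas.padj true B B' hA (fun f v hf => (h.2 f v hf).trans (neg_one_smul ℂ _).symm) _ y
    (Ap.test_bar hf)
  rw [sg_true, neg_one_smul] at pa
  rw [ext_aff E h.1 b hA hf _ hy, Submodule.coe_neg, inner_neg_left, E.G, E.G, (gd c).gi, (gd c).gi,
    c.hN.ext, c.hN.ext, ext_aff E h.1 b hA hf _ (cyc_G hy), pa, Completion.coe_neg,
    inner_neg_right, neg_neg]

/-- linear relations pass to the extension -/
theorem ext_sum {ι : Type} [Fintype ι] {C : ι → Fld D} (hB : c.Q.fld B) (hC : ∀ i, c.Q.fld (C i))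
    (h : ∀ f v, IsTest f → B f v = ∑ i, C i f v) {f : Fn} (hf : IsTest f) (v : D') :
    e B f v = ∑ i, e (C i) f v := ext_C c.Q fun y hy => by
  obtain ⟨B', b, d⟩ := c.Q.adj B hB
  choose C' b' d' using fun i => c.Q.adj _ (hC i)
  have : B' (bar f) y = ∑ i, C' i (bar f) y := ext_inner_left ℂ fun z => by
    rw [← d f z y hf, h f z hf, sum_inner, inner_sum]
    exact Finset.sum_congr rfl fun i _ => d' i f z y hf
  rw [ext_aff E hB b d hf v hy, this, STRa.coe_sum, inner_sum, Submodule.coe_sum, sum_inner]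
  exact Finset.sum_congr rfl fun i _ => (ext_aff E (hC i) (b' i) (d' i) hf v hy).symm

variable (hc : COV0 c) {Q'' : Theory D'} (n : IsEnl Q' Q'')
include hc n

/-- scaling laws pass to the extension -/
theorem ext_scl (hB : c.Q.fld B) {F : Finset (ℂ × ℕ)} {C : ℂ × ℕ → Fld D}
    (h : Scl c.Q B F C) (hb : Q''.bose (e B) → c.Q.bose B) : Scl Q'' (e B) F fun p => e (C p) := by
  refine ⟨fun p => ⟨n.fld _ (E.fld _ (h.1 p).1), fun b => n.bose _ (E.bos _ ((h.1 p).2 (hb b)))⟩,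
    fun s f v hs hf => ?_⟩
  rw [n.U, ← Finset.sum_coe_sort]
  exact ext_cov hc E ⟨s, _, 0, hs, H496.isLor_one⟩ hB (fun i : F => (h.1 i).1) (fun g w hg =>
    (h.2 s g w hs hg).trans (Finset.sum_coe_sort _ _).symm) hf v

end ext

end

end Vale.Agent.N352.E
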