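import Vale.Agent.P352X.EG.W
import Vale.Agent.P352R.Cv2

/-!
# N352, block E: graded theories without a net
-/

set_option linter.all false

open MeasureTheory Filter Topology
open scoped SchwartzMap ComplexConjugate ContDiff

namespace Vale.Agent.N352.E

export Vale.Agent.P352X.EG (sg cj)
export Vale.Agent.P352X.EB (Sg W0 W1)

open Vale.Agent.P352 Vale.Agent.P352.GF Vale.Agent.P352.BW Vale.Agent.P352.H246
open Vale.Agent.P352.H496 Vale.Agent.P352.H755 Vale.Agent.P352.H15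
open Vale.Agent.P352.SubConf (IsAdj)
open Vale.Agent.P352X Vale.Agent.P352X.EB
open UniformSpace (Completion)
open Complex (I)
open Bornology (IsBounded)

noncomputable section

variable {D : Type*} [NormedAddCommGroup D] [InnerProductSpace ℂ D]

/-- graded theories with generators -/
structure LNf (Q : Theory D) (G : D → D) (A : (V → V) → D → D)
    (Γ : Completion D →L[ℂ] Completion D) : Prop extends Gr Q G where
  vac : G Q.vac = Q.vac
  add : ∀ r r' (c : ℝ) X X' v, IsSim r X → IsSim r' X' →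
    A (fun z => X z + c • X' z) v = A X v + (c : ℂ) • A X' v
  der : P352L.Gnr Q A
  ext : ∀ v : D, Γ v = (G v : D)

/-- **The context**: a theory with fermions -/
structure Cf (D : Type*) [NormedAddCommGroup D] [InnerProductSpace ℂ D] where
  Q : Theory D
  G : D → D
  A : (V → V) → D → D
  Γ : Completion D →L[ℂ] Completion D
  hN : LNf Q G A Γ

abbrev Cf.Om (c : Cf D) : Completion D := om c.Q

/-- powers of the grading -/
def Cf.gp (c : Cf D) (e : Bool) : Completion D →L[ℂ] Completion D := cond e c.Γ 1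

/-- the similitudes, extended by the grading -/
structure Sh (c : Cf D) extends Sg where
  e : Bool

namespace Sh

variable {c : Cf D}

def U (g : Sh c) (c' : Cf D) : Completion D →L[ℂ] Completion D :=
  cond g.e (c'.Γ * Ug c'.Q g.s g.L g.a) (Ug c'.Q g.s g.L g.a)

open Classical in
def mul (g h : Sh c) : Sh c := ⟨g.toSg.mul h.toSg, decide (g.U c * h.U c ≠
  Ug c.Q (g.toSg.mul h.toSg).s (g.toSg.mul h.toSg).L (g.toSg.mul h.toSg).a)⟩

open Classical in
def inv (g : Sh c) : Sh c :=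
  ⟨g.toSg.inv, decide (star (g.U c) ≠ Ug c.Q g.toSg.inv.s g.toSg.inv.L g.toSg.inv.a)⟩

/-- the powers of the grading as elements of the group -/
def gm (c : Cf D) (e : Bool) : Sh c := ⟨⟨1, GF.one, 0, one_pos, H496.isLor_one⟩, e⟩

end Sh

variable (c : Cf D)

/-- fields of parity `e` -/
def Pa (e : Bool) (B : Fld D) : Prop := ∀ f v, IsTest f → B f (c.G v) = sg e • c.G (B f v)

/-- row WB: energy norms, bounds on words -/
structure WB : Prop where
  der : ∀ m v, HasDerivAt (fun t : ℝ => c.Q.U 1 GF.one (bas m t) v) (Dv c.Q m v) 0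
  add : ∀ m v w, Dv c.Q m (v + w) = Dv c.Q m v + Dv c.Q m w
  smul : ∀ m (z : ℂ) v, Dv c.Q m (z • v) = z • Dv c.Q m v
  tra : ∀ m y v, Dv c.Q m (c.Q.U 1 GF.one y v) = c.Q.U 1 GF.one y (Dv c.Q m v)
  inv : ∀ k y v, en c.Q k (c.Q.U 1 GF.one y v) = en c.Q k v
  vac : ∀ k, en c.Q k c.Q.vac = 1
  le : ∀ k v, ‖v‖ ≤ en c.Q k v
  mono : ∀ k k' v, k ≤ k' → en c.Q k v ≤ en c.Q k' v
  wb : ∀ B B', c.Q.fld B → c.Q.fld B' → IsAdj B B' →
    ∀ (k n : ℕ) (b κ : ℝ) (g : Fn), IsTest g → 0 ≤ b → 1 ≤ κ →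
    (∀ α : List Ix, α.length ≤ k * (2 * n + 1) → ∀ v,
      ‖B (pw α g) v‖ ≤ b * κ ^ α.length * en c.Q k v ∧
      ‖B' (bar (pw α g)) v‖ ≤ b * κ ^ α.length * en c.Q k v) →
    ‖(B g ∘ B' (bar g))^[n] (B g c.Q.vac)‖ ≤ (b * (5 * (2 * n + 1) * κ) ^ k) ^ (2 * n + 1) ∧
    ‖(B' (bar g) ∘ B g)^[n] (B' (bar g) c.Q.vac)‖ ≤ (b * (5 * (2 * n + 1) * κ) ^ k) ^ (2 * n + 1)

/-- row SG: the group of similitudes -/
structure SG : Prop where
  act_mul : ∀ (g h : Sh c) x, (g.mul h).act x = g.act (h.act x)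
  inv_act : ∀ (g : Sh c) x, g.inv.act (g.act x) = x
  act_inv : ∀ (g : Sh c) x, g.act (g.inv.act x) = x
  U_mul : ∀ g h : Sh c, (g.mul h).U c = g.U c * h.U c
  U_inv : ∀ g : Sh c, g.inv.U c = star (g.U c)
  uni : ∀ g : Sh c, g.U c ∈ unitary (Completion D →L[ℂ] Completion D)
  vac : ∀ g : Sh c, g.U c c.Om = c.Om ∧ star (g.U c) c.Om = c.Om
  test : ∀ (g : Sh c) f, IsTest f → IsTest (g.pull f)
  inn : ∀ (g : Sh c) O f, In O f → In (g.act ⁻¹' O) (g.pull f)
  clm : ∀ g : Sh c, ∃ P : Sch →L[ℂ] Sch, ∀ f, ev (P f) = g.pull (ev f)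
  bdd : ∀ (g : Sh c) K, IsBounded K → IsBounded (g.act '' K)
  ex : ∀ K, IsBounded K → ∃ g : Sh c, g.Adm K
  opn : ∀ g : Sh c, IsOpen g.Op
  g2 : c.Γ * c.Γ = 1
  gs : star c.Γ = c.Γ
  gv : c.Γ c.Om = c.Om
  gU : ∀ g : Sh c, c.Γ * g.U c = g.U c * c.Γ
  gm : ∀ e, (Sh.gm c e).U c = c.gp e ∧ ∀ x, (Sh.gm c e).act x = x
  coe : ∀ s L a (v : D), 0 < s → IsLor L → Ug c.Q s L a v = (c.Q.U s L a v : D)
  sur : ∀ (g : Sh c) (v : D), ∃ w : D, g.U c v = w
  mul1 : ∀ s L a s' L' a' v, 0 < s → 0 < s' → IsLor L → IsLor L' → (L = GF.one ∨ L' = GF.one) →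
    c.Q.U s L a (c.Q.U s' L' a' v) =
      c.Q.U (s * s') (fun m => sim 1 L 0 (L' m)) (sim s L a a') v
  ut0 : Ut c.Q 0 = 1
  ut : ∀ x y, Ut c.Q (x + y) = Ut c.Q x * Ut c.Q y
  utc : ∀ z, Continuous fun y => Ut c.Q y z
  spec : ∀ z : Completion D, ∃ ν : Measure V, IsFiniteMeasure ν ∧
    (∀ᵐ p ∂ν, 0 ≤ p o ∧ 0 ≤ GF.mdot p p) ∧
      ∀ a, inner ℂ z (Ut c.Q a z) = ∫ p, Complex.exp (I * GF.mdot p a) ∂ν

/-- row BAS: parities, adjoints -/
structure BAS : Prop where
  gadd : ∀ v w, c.G (v + w) = c.G v + c.G w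
  gsmul : ∀ (z : ℂ) v, c.G (z • v) = z • c.G v
  padj : ∀ e B B', IsAdj B B' → Pa c e B → Pa c e B'
  pvac : ∀ e B f, Pa c e B → IsTest f →
    c.Γ (B f c.Q.vac : D) = sg e • ((B f c.Q.vac : D) : Completion D)
  comm : ∀ e e' B C f g v, c.Q.fld B → c.Q.fld C → Pa c e B → Pa c e' C → IsTest f → IsTest g →
    Sep f g → B f (C g v) = sg (e && e') • C g (B f v)
  sadj : ∀ s L a (n : ℕ) (κ : Fin n → ℂ) (B B' : Fld D) (Φ Φ' : Fin n → Fld D), 0 < s → IsLor L →
    IsAdj B B' → (∀ i, IsAdj (Φ i) (Φ' i)) → (∀ f v, IsTest f → B f (c.Q.U s L a v) =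
      ∑ i, κ i • c.Q.U s L a (Φ i (fun x => f (sim s L a x)) v)) → ∀ f v, IsTest f →
    B' f (c.Q.U s L a v) = ∑ i, conj (κ i) • c.Q.U s L a (Φ' i (fun x => f (sim s L a x)) v)
  madj : ∀ (k : Rp) (Φ Φ' : Fin k.n → Fld D), IsMf c.Q k Φ →
    (∀ a, c.Q.fld (Φ' a) ∧ IsAdj (Φ a) (Φ' a)) → IsMf c.Q (cj k) Φ'

/-- the tools -/
structure E0 : Prop where
  ana : ANA
  dy : DY
  pou : POU (Completion D)
  geo : GEO
  sg : SG c
  wb : WB c
  bas : BAS c

/-- row GR: Gaarding vectors are in the closure of the graph -/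
def GR : Prop := EBd c.Q → ∀ (S : Submodule ℂ D) (B B' : Fld D) (f : Fn) (u : Completion D)
  (z : V → Completion D) (ε : ℝ), 0 < ε → c.Q.fld B → c.Q.fld B' → IsAdj B B' → In Set.univ f →
  (∀ a, ∀ s ∈ S, c.Q.U 1 GF.one a s ∈ S) → (∀ s ∈ S, B f s ∈ S) →
  u ∈ closure ((fun s : D => (s : Completion D)) '' S) → Continuous z →
  (∀ a, ‖a‖ < ε → z a ∈ closure ((fun s : D => (s : Completion D)) '' S) ∧ ∀ s ∈ S,
    inner ℂ ((B' (bar fun x => f (sim 1 GF.one a x)) s : D) : Completion D) u =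
      inner ℂ (s : Completion D) (z a)) →
  (u, z 0) ∈ closure ((fun s : D => ((s : Completion D), ((B f s : D) : Completion D))) '' S)

namespace SGx

open EG.SGx (dext ut_coe ut_inn ut_add ut_zero urep spec bdd exa wne)

lemma g2 : c.Γ * c.Γ = 1 := dext fun v => by
  rw [mul_apply_eq_comp, c.hN.ext, c.hN.ext, c.hN.inv]; rfl

lemma gs : star c.Γ = c.Γ := by
  refine ((ContinuousLinearMap.eq_adjoint_iff _ _).2 fun z w => ?_).symm
  refine Completion.induction_on₂ z w (isClosed_eq (by fun_prop) (by fun_prop)) fun v w => ?_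
  rw [c.hN.ext, c.hN.ext, Completion.inner_coe, Completion.inner_coe, c.hN.herm]

lemma gv : c.Γ c.Om = c.Om := by rw [Cf.Om, om, c.hN.ext, c.hN.vac]

lemma gg (X : Completion D →L[ℂ] Completion D) : c.Γ * (c.Γ * X) = X := by
  rw [← mul_assoc, g2, one_mul]

/-- the similitudes without the grading -/
noncomputable abbrev U0 (g : Sg) : Completion D →L[ℂ] Completion D := Ug c.Q g.s g.L g.a

lemma gU0 (g : Sg) : c.Γ * U0 c g = U0 c g * c.Γ := dext fun v => by
  rw [mul_apply_eq_comp, mul_apply_eq_comp, Grp.coe g.hs g.hL, c.hN.ext, c.hN.ext,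
    Grp.coe g.hs g.hL, c.hN.GU _ _ _ _ g.hs g.hL]

lemma mul0 (g h : Sg) : U0 c g * U0 c h = U0 c (g.mul h) ∨ U0 c g * U0 c h = c.Γ * U0 c (g.mul h) :=
  (c.hN.mul _ _ g.a _ _ h.a g.hs h.hs g.hL h.hL).imp (fun e => dext fun v => by
    rw [mul_apply_eq_comp, Grp.coe h.hs h.hL, Grp.coe g.hs g.hL, e,
      Grp.coe (g.mul h).hs (g.mul h).hL]; rfl) fun e => dext fun v => by
    rw [mul_apply_eq_comp, mul_apply_eq_comp, Grp.coe h.hs h.hL, Grp.coe g.hs g.hL, e.2.2,
      Grp.coe (g.mul h).hs (g.mul h).hL, c.hN.ext]; rfl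

lemma one0 (g : Sg) : U0 c (g.mul g.inv) = 1 := by
  have e0 : g.act (g.inv.act 0) = 0 := g.act_inv 0
  have e1 : g.inv.act 0 = g.inv.a := Grp.sim_zero _ _ _
  rw [e1] at e0
  show Ug c.Q (g.s * g.s⁻¹) (fun m => sim 1 g.L 0 (linv g.L m)) (g.act g.inv.a) = 1
  rw [mul_inv_cancel₀ g.hs.ne', linv_id g.hL, e0]
  exact Grp.ug_one

lemma uni0 (g : Sg) : U0 c g ∈ unitary (Completion D →L[ℂ] Completion D) ∧
    (star (U0 c g) = U0 c g.inv ∨ star (U0 c g) = c.Γ * U0 c g.inv) := by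
  rcases mul0 c g g.inv with h | h <;> rw [one0] at h
  · exact (Grp.uni_of (Grp.ug_inner g.hs g.hL g.a) h).imp_right .inl
  · exact (Grp.uni_of (U' := c.Γ * U0 c g.inv) (Grp.ug_inner g.hs g.hL g.a) (by
      rw [gU0, ← mul_assoc, h, mul_one, g2])).imp_right .inr

variable {c}

lemma cas (g : Sh c) : g.U c = U0 c g.toSg ∨ g.U c = c.Γ * U0 c g.toSg := by
  obtain ⟨g, _ | _⟩ := g
  exacts [.inl rfl, .inr rfl]

open Classical in
lemma pick {X Y : Completion D →L[ℂ] Completion D} (h : X = Y ∨ X = c.Γ * Y) :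
    cond (decide (X ≠ Y)) (c.Γ * Y) Y = X := by
  by_cases e : X = Y
  · simp [e]
  · simp [e, ← h.resolve_left e]

lemma gU (g : Sh c) : c.Γ * g.U c = g.U c * c.Γ := by
  rcases cas g with h | h <;> rw [h]
  · exact gU0 c _
  · rw [mul_assoc, gU0]

lemma U_mul (g h : Sh c) : (g.mul h).U c = g.U c * h.U c := pick <| by
  have k : ∀ X, U0 c g.toSg * (c.Γ * X) = c.Γ * (U0 c g.toSg * X) := fun X => by
    rw [← mul_assoc, ← gU0, mul_assoc]
  rcases cas g with a | a <;> rcases cas h with b | b <;> rcases mul0 c g.toSg h.toSg with e | e <;>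
    simp only [a, b, mul_assoc, k, e, gg, true_or, or_true]

lemma U_inv (g : Sh c) : g.inv.U c = star (g.U c) := pick <| by
  rcases cas g with a | a <;> rcases (uni0 c g.toSg).2 with e | e <;>
    simp only [a, star_mul, gs, e, ← gU0, mul_assoc, gg, true_or, or_true]

lemma uni (g : Sh c) : g.U c ∈ unitary (Completion D →L[ℂ] Completion D) := by
  rcases cas g with h | h <;> rw [h]
  · exact (uni0 c _).1
  · exact mul_mem ⟨by rw [gs, g2], by rw [gs, g2]⟩ (uni0 c _).1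

lemma vac (g : Sh c) : g.U c c.Om = c.Om := by
  have e : U0 c g.toSg c.Om = c.Om := by
    rw [Cf.Om, om, Grp.coe g.hs g.hL, c.Q.U_vac _ _ _ g.hs g.hL]
  rcases cas g with h | h <;> rw [h]
  · exact e
  · rw [mul_apply_eq_comp, e, gv]

end SGx

open SGx EG.SGx in
theorem sg_row : SG c where
  act_mul g h := g.toSg.act_mul h.toSg
  inv_act g := g.toSg.inv_act
  act_inv g := g.toSg.act_inv
  U_mul := SGx.U_mul
  U_inv := SGx.U_inv
  uni := SGx.uni
  vac g := ⟨SGx.vac g, SGx.U_inv g ▸ SGx.vac g.inv⟩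
  test g f hf := Ap.test_sim g.hs g.hL g.a hf
  inn g O f hf := Ap.in_sim g.hs g.hL g.a hf
  clm g := ⟨(SchwartzMap.compCLMOfContinuousLinearEquiv ℂ (conf_sim g.hs g.hL).cle).comp
    (ST.tsl (-g.a)), fun f => funext fun x => by
      show f (sim g.s g.L 0 x - -g.a) = f (sim g.s g.L g.a x)
      rw [sim_zero g.a, sub_neg_eq_add]⟩
  bdd g := bdd g.toSg
  ex K hK := (exa K hK).elim fun g h => ⟨⟨g, false⟩, h⟩
  opn g := (open_Wdg _ _ _).preimage g.cont
  g2 := SGx.g2 c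
  gs := SGx.gs c
  gv := SGx.gv c
  gU := SGx.gU
  gm e := ⟨by cases e <;> simp [Sh.U, Sh.gm, Cf.gp, Grp.ug_one], H26.sim_one0⟩
  coe s L a v hs hL := Grp.coe hs hL a v
  sur g v := by
    rcases SGx.cas g with h | h <;> rw [h]
    · exact ⟨_, Grp.coe g.hs g.hL g.a v⟩
    · exact ⟨_, by rw [mul_apply_eq_comp, Grp.coe g.hs g.hL, c.hN.ext]⟩
  mul1 s L a s' L' a' v hs hs' hL hL' h := (c.hN.mul s L a s' L' a' hs hs' hL hL').elim (· v)
    fun e => h.elim (absurd · e.1) (absurd · e.2.1)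
  ut0 := Grp.ut0
  ut := ut_add c.Q
  utc := (urep c.Q).cont
  spec := spec c.Q

namespace Wb

theorem dr : EG.Wb.Dr c.Q := fun m v => by
  have h := c.hN.der (fun _ => 1) (fun _ => GF.one) (fun t => bas m t) (fun _ => bas m 1) v rfl rfl
    (by funext n; simp [bas]) (fun _ => ⟨one_pos, H496.isLor_one⟩) fun n x => by
      simp only [sim, bas]
      split_ifs
      · exact (hasDerivAt_id _).add_const _
      · exact hasDerivAt_const _ _
  simp only [bas_eq m] at h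
  rwa [Dv_eq h]

end Wb

open EG.Wb in
theorem wb_row : WB c where
  der m v := by simpa only [bas_eq m] using Wb.dr c m v
  add m v w := (DvA (Wb.dr c) m).map_add v w
  smul m z v := Dv_eq (by
    simp only [U1_smul]
    exact (Wb.dr c m v).const_smul z)
  tra m y v := Dv_U (Wb.dr c) m (WithLp.toLp 2 y) v
  inv k y v := by
    induction k generalizing v with
    | zero => exact U1_norm (Q := c.Q) (WithLp.toLp 2 y) v
    | succ k ih =>
      have e : ∀ m, Dv c.Q m (c.Q.U 1 GF.one y v) = c.Q.U 1 GF.one y (Dv c.Q m v) := fun m =>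
        Dv_U (Wb.dr c) m (WithLp.toLp 2 y) v
      simp only [en, e, ih]
  vac k := by
    induction k with
    | zero => exact c.Q.norm_vac
    | succ j ih => simp [en, Dv_vac, en_zero, ih]
  le k v := EG.Wb.en_mono v (Nat.zero_le k)
  mono k k' v h := EG.Wb.en_mono v h
  wb B B' hB hB' _ k n b κ g hg hb hκ h := by
    have R := Wb.dr c
    set Q := c.Q
    let T : Bool → List Ix → D →+ D := fun c α =>
      if c then fA hB (isTest_pw hg α) else fA hB' (isTest_bar (isTest_pw hg α))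
    have key : ∀ c, ‖(T c [] ∘ T (!c) [])^[n] (T c [] Q.vac)‖ ≤
        (b * (5 * (2 * n + 1) * κ) ^ k) ^ (2 * n + 1) := fun c => by
      obtain ⟨w, h1, h2, h3⟩ := ex_wd T Q.vac c n
      refine le_trans (le_of_eq ?_) ((en_wd (T := T) (k := k) R (fun m c α v => ?_) hb hκ
        (L := 2 * n + 1) (by omega) (fun c α v hα => ?_) _ le_rfl 0 w h1 (by omega)).trans_eq ?_)
      · rw [h3]; rfl
      · cases c
        · refine (Dv_fld R m hB' (isTest_bar (isTest_pw hg α)) v).trans ?_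
          rw [← H755.bar_pd (isTest_pw hg α)]
          rfl
        · exact Dv_fld R m hB (isTest_pw hg α) v
      · cases c
        · exact (h α hα v).2
        · exact (h α hα v).1
      · simp [h2]
    exact ⟨key true, key false⟩

variable {c}

namespace Bas

open EG.Bas (bb tb sg2 sgc sep_symm)

lemma gadd (v w : D) : c.G (v + w) = c.G v + c.G w :=
  ext_inner_right ℂ fun u => by
    rw [c.hN.herm, inner_add_left, inner_add_left, c.hN.herm, c.hN.herm]

lemma gsmul (z : ℂ) (v : D) : c.G (z • v) = z • c.G v :=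
  ext_inner_right ℂ fun u => by
    rw [c.hN.herm, inner_smul_left, inner_smul_left, c.hN.herm]

lemma pa' {e : Bool} {B : Fld D} (h : Pa c e B) {f : Fn} (hf : IsTest f) (v : D) :
    c.G (B f v) = sg e • B f (c.G v) := by
  rw [h f v hf, smul_smul, sg2, one_smul]

lemma padj (e : Bool) (B B' : Fld D) (ha : IsAdj B B') (h : Pa c e B) : Pa c e B' := by
  intro f v hf
  refine ext_inner_left ℂ fun w => ?_
  rw [← bb f, ← ha _ _ _ (tb hf), ← c.hN.herm, pa' h (tb hf), inner_smul_left, inner_smul_right,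
    ← c.hN.herm, ← ha _ _ _ (tb hf), sgc]

/-- an even field is a Bose field on test functions -/
lemma even {B : Fld D} (hB : c.Q.fld B) (h : Pa c false B) :
    ∃ C, c.Q.bose C ∧ ∀ f v, IsTest f → B f v = C f v := by
  obtain ⟨C, C', h1, h2, h3⟩ := c.hN.split B hB
  refine ⟨C, h1, fun f v hf => ?_⟩
  have a1 := h f v hf
  rw [h3 f _ hf, h3 f _ hf, gadd, c.hN.bose C f v h1 hf, h2.2 f v hf] at a1
  simp only [sg, cond_false, one_smul, add_right_inj] at a1
  have a2 : (2 : ℂ) • c.G (C' f v) = 0 := by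
    rw [two_smul]
    nth_rewrite 1 [← a1]
    exact neg_add_cancel _
  have a3 : c.G (C' f v) = 0 := (smul_eq_zero.1 a2).resolve_left two_ne_zero
  have a4 : C' f v = 0 := by
    have := gsmul (c := c) 0 0
    rw [zero_smul, zero_smul] at this
    rw [← c.hN.inv (C' f v), a3, this]
  rw [h3 f v hf, a4, add_zero]

lemma odd {B : Fld D} (hB : c.Q.fld B) (h : Pa c true B) : Fer c.Q c.G B :=
  ⟨hB, fun f v hf => by rw [h f v hf]; simp [sg]⟩

lemma comm (e e' : Bool) (B C : Fld D) (f g : Fn) (v : D) (hB : c.Q.fld B) (hC : c.Q.fld C)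
    (h : Pa c e B) (h' : Pa c e' C) (hf : IsTest f) (hg : IsTest g) (hs : Sep f g) :
    B f (C g v) = sg (e && e') • C g (B f v) := by
  cases e
  · obtain ⟨B₀, a1, a2⟩ := even hB h
    rw [a2 f _ hf, a2 f _ hf, c.Q.loc _ _ _ _ v a1 hC hf hg hs]
    simp [sg]
  · cases e'
    · obtain ⟨C₀, a1, a2⟩ := even hC h'
      rw [a2 g _ hg, a2 g _ hg, c.Q.loc _ _ _ _ v a1 hB hg hf (EG.Bas.sep_symm hs)]
      simp [sg]
    · rw [c.hN.anti B C f g v (odd hB h) (odd hC h') hf hg hs]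
      simp [sg]

lemma surj (t : SG c) {s : ℝ} {L : Ix → V} (a : V) (hs : 0 < s) (hL : IsLor L) (z : D) :
    ∃ v, c.Q.U s L a v = z := by
  let g : Sh c := ⟨⟨s, L, a, hs, hL⟩, false⟩
  obtain ⟨v, hv⟩ := t.sur g.inv z
  refine ⟨v, Completion.coe_injective D ?_⟩
  rw [← t.coe _ _ _ _ hs hL, ← hv]
  show (g.U c * g.inv.U c) z = z
  rw [t.U_inv, (t.uni g).2]
  rfl

lemma sadj (t : SG c) (s : ℝ) (L : Ix → V) (a : V) (n : ℕ) (κ : Fin n → ℂ) (B B' : Fld D)
    (Φ Φ' : Fin n → Fld D) (hs : 0 < s) (hL : IsLor L) (h : IsAdj B B')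
    (h' : ∀ i, IsAdj (Φ i) (Φ' i)) (e : ∀ f v, IsTest f → B f (c.Q.U s L a v) =
      ∑ i, κ i • c.Q.U s L a (Φ i (fun x => f (sim s L a x)) v)) (f : Fn) (w : D) (hf : IsTest f) :
    B' f (c.Q.U s L a w) = ∑ i, conj (κ i) • c.Q.U s L a (Φ' i (fun x => f (sim s L a x)) w) := by
  refine ext_inner_left ℂ fun z => ?_
  obtain ⟨v, rfl⟩ := surj t a hs hL z
  have ht : IsTest fun x => bar f (sim s L a x) :=
    t.test ⟨⟨s, L, a, hs, hL⟩, false⟩ _ (tb hf)
  rw [← bb f, ← h _ _ _ (tb hf), e _ _ (tb hf), sum_inner, inner_sum, bb]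
  refine Finset.sum_congr rfl fun i _ => ?_
  rw [inner_smul_left, inner_smul_right, c.Q.U_inner _ _ _ _ _ hs hL,
    c.Q.U_inner _ _ _ _ _ hs hL, h' i _ _ _ ht]
  exact congrArg (fun k => conj (κ i) * inner ℂ v (Φ' i k w)) (bb fun x => f (sim s L a x))

lemma madj (t : SG c) (k : Rp) (Φ Φ' : Fin k.n → Fld D) (h : IsMf c.Q k Φ)
    (h' : ∀ a, c.Q.fld (Φ' a) ∧ IsAdj (Φ a) (Φ' a)) : IsMf c.Q (cj k) Φ' :=
  ⟨fun a => (h' a).1, fun a L f v hL hf =>
    sadj t 1 L 0 k.n (fun b => k.ρ L b a) (Φ a) (Φ' a) Φ Φ' one_pos hL (h' a).2 (fun b => (h' b).2)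
      (fun f v hf => h.2 a L f v hL hf) f v hf⟩

end Bas

/-- row BAS -/
theorem bas_row (s : SG c) : BAS c where
  gadd := Bas.gadd
  gsmul := Bas.gsmul
  padj := Bas.padj
  pvac e B f h hf := by
    rw [c.hN.ext, Bas.pa' h hf, c.hN.vac, Completion.coe_smul]
  comm := Bas.comm
  sadj := Bas.sadj s
  madj := Bas.madj s

theorem e0_thm (c : Cf D) : E0 c where
  ana := ana_row
  dy := dy_row ana_row
  pou := pou_row _
  geo := geo_row
  sg := sg_row c
  wb := wb_row c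
  bas := bas_row (sg_row c)

open EG.GRp

/-- the generators of the translations -/
def grP (t : WB c) (m : Ix) : D →ₗ[ℂ] D := ⟨⟨Dv c.Q m, t.add m⟩, t.smul m⟩

lemma gr_en (t : WB c) : ∀ (k : ℕ) (v : D) (r : ℝ), (∀ w, ‖Wo (grP t) k w v‖ ≤ r) →
    en c.Q k v ≤ 5 ^ k * r
  | 0, v, r, h => by
    rw [pow_zero, one_mul]
    exact h Fin.elim0
  | k + 1, v, r, h => by
    have h1 := gr_en t k v r fun w => h (Fin.cons none w)
    have h2 : ∑ m, en c.Q k (Dv c.Q m v) ≤ ∑ _m : Ix, 5 ^ k * r :=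
      Finset.sum_le_sum fun m _ => gr_en t k _ r fun w => h (Fin.cons (some m) w)
    simp only [Finset.sum_const, Finset.card_univ, Fintype.card_fin, nsmul_eq_mul] at h2
    rw [en, pow_succ]
    push_cast at h2
    linarith

lemma gr_inn (a : V) (x y : Completion D) :
    inner ℂ (Ut c.Q a x) (Ut c.Q a y) = inner ℂ x y := by
  rw [Ut, Ug, dif_pos ⟨one_pos, H496.isLor_one⟩]
  exact (ueC c.Q one_pos H496.isLor_one a).inner_map_map x y

lemma gr_nrm (a : V) (x : Completion D) : ‖Ut c.Q a x‖ = ‖x‖ := by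
  rw [Ut, Ug, dif_pos ⟨one_pos, H496.isLor_one⟩]
  exact (ueC c.Q one_pos H496.isLor_one a).norm_map x

/-- the energy bound for one field -/
def EB1 (Q : Theory D) (B : Fld D) : Prop := ∃ k, ∀ f, In Set.univ f → ∃ C : ℝ, ∀ v,
  ‖B f v‖ ≤ C * en Q k v

theorem gr1 (t : E0 c) (S : Submodule ℂ D) (B B' : Fld D) (f : Fn) (y : Completion D)
    (z : V → Completion D) (ε : ℝ) (hε : 0 < ε) (hE : EB1 c.Q B) (hB' : c.Q.fld B')
    (hA : IsAdj B B') (hf : In Set.univ f) (hU : ∀ a, ∀ s ∈ S, c.Q.U 1 GF.one a s ∈ S)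
    (hS : ∀ s ∈ S, B f s ∈ S) (hy : y ∈ closure ((fun s : D => (s : Completion D)) '' S))
    (hz : Continuous z)
    (hzz : ∀ a, ‖a‖ < ε → z a ∈ closure ((fun s : D => (s : Completion D)) '' S) ∧ ∀ s ∈ S,
      inner ℂ ((B' (bar fun x => f (sim 1 GF.one a x)) s : D) : Completion D) y =
        inner ℂ (s : Completion D) (z a)) :
    (y, z 0) ∈ closure ((fun s : D => ((s : Completion D), ((B f s : D) : Completion D))) '' S) := by
  let ι : D →ₗ[ℂ] Completion D := (Completion.toComplL : D →L[ℂ] Completion D).toLinearMap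
  have hι : ∀ v, ι v = (v : Completion D) := fun _ => rfl
  have hc : ∀ a (v : D), Ut c.Q a v = (c.Q.U 1 GF.one a v : D) := fun a v =>
    t.sg.coe 1 GF.one a v one_pos H496.isLor_one
  have s : Ab ι (Ut c.Q) (grP t.wb) (c.Q.U 1 GF.one) :=
    ⟨fun a v => (hc a v).symm, fun a b x => by rw [t.sg.ut]; rfl, gr_nrm, t.sg.utc,
      fun m v => by
        simp only [hι, hc]
        exact ((Completion.toComplL : D →L[ℂ] Completion D).restrictScalars ℝ).hasFDerivAt
          |>.comp_hasDerivAt (0 : ℝ) (t.wb.der m v),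
      fun m a v => t.wb.tra m a v⟩
  let X : D →ₗ[ℂ] D := ⟨⟨B f, fun v w => ext_inner_right ℂ fun x => by
    rw [inner_add_left, hA _ _ _ hf.1, hA _ _ _ hf.1, hA _ _ _ hf.1, inner_add_left]⟩,
    fun a v => ext_inner_right ℂ fun x => by
      simp only [RingHom.id_apply]
      rw [inner_smul_left, hA _ _ _ hf.1, hA _ _ _ hf.1, inner_smul_left]⟩
  obtain ⟨k, hk⟩ := hE
  obtain ⟨C, hC⟩ := hk f hf
  have hX : ∀ v, ‖ι (X v)‖ ≤ |C| * 5 ^ k * ‖Jm ι (grP t.wb) k v‖ := fun v => by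
    rw [hι, Completion.norm_coe, mul_assoc]
    refine (hC v).trans (mul_le_mul (le_abs_self C) (gr_en t.wb k v _ fun w => ?_)
      ((norm_nonneg _).trans (t.wb.le k v)) (abs_nonneg C))
    rw [← Completion.norm_coe]
    exact norm_le_pi_norm (Jm ι (grP t.wb) k v) w
  have hb : IsTest (bar f) := H246.isTest_bar hf.1
  have hi : ∀ a x, Ut c.Q a (Ut c.Q (-a) x) = x := fun a x => by
    rw [← ContinuousLinearMap.mul_apply, ← t.sg.ut, add_neg_cancel, t.sg.ut0]
    rfl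
  have hK : ∀ a, ∀ x ∈ closure (ι '' S), Ut c.Q a x ∈ closure (ι '' S) := fun a x hx =>
    map_mem_closure (Ut c.Q a).continuous hx (by
      rintro _ ⟨v, hv, rfl⟩
      exact ⟨_, hU a v hv, (hc a v).symm⟩)
  have hZ : Continuous fun a => Ut c.Q a (z a) := by
    refine continuous_iff_continuousAt.2 fun b => tendsto_iff_norm_sub_tendsto_zero.2 ?_
    refine squeeze_zero (fun _ => norm_nonneg _) (fun a => ?_)
      (g := fun a => ‖z a - z b‖ + ‖Ut c.Q a (z b) - Ut c.Q b (z b)‖) ?_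
    · rw [← gr_nrm (c := c) a (z a - z b), map_sub]
      exact norm_sub_le_norm_sub_add_norm_sub _ _ _
    · simpa using (tendsto_iff_norm_sub_tendsto_zero.1 (hz.tendsto b)).add
        (tendsto_iff_norm_sub_tendsto_zero.1 ((t.sg.utc (z b)).tendsto b))
  have h := s.main Completion.denseRange_coe (by positivity) (X' := B' (bar f)) hX
    (fun v w => by
      simp only [hι, Completion.inner_coe]
      rw [← inner_conj_symm, ← hA _ _ _ hf.1, inner_conj_symm]
      rfl) S hε hU hS hy hZ fun a ha => ⟨hK a _ (hzz a ha).1, fun v hv => by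
        have e := (hzz a ha).2 _ (hU (-a) v hv)
        rw [← gr_inn (c := c) a, ← gr_inn (c := c) a (_ : D) (z a), ← hc (-a), hi, hc] at e
        rw [hι, hι, ← e]
        congr 2
        refine Eq.trans ?_ (c.Q.transl B' a (bar f) _ hB' hb)
        congr 1
        exact Completion.coe_injective D (by rw [← hc, ← hc, hi])⟩
  simp only [t.sg.ut0, ContinuousLinearMap.one_apply] at h
  exact h

/-- row GR -/
theorem gr_row (t : E0 c) : GR c := fun hE S B B' f y z ε hε hB =>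
  gr1 t S B B' f y z ε hε (hE B hB)

namespace Fsg

lemma m1 (c : Cf D) : Fss.G.M1 c.Q := Fss.G.m1_gr c.hN.toGr

lemma der {s : ℝ → ℝ} {L : ℝ → Ix → V} {a : ℝ → V} {w : Ix → V} {r : ℝ} {y : V}
    (K : H746.Crv s L a w r y) {X : V → V}
    (hX : ∀ z n, X z n = y n + r * z n + ∑ m, z m * w m n) (v : D) :
    HasDerivAt (fun e => c.Q.U (s e) (L e) (a e) v) (I • c.A X v) 0 :=
  c.hN.der s L a X v K.s0 K.L0 K.a0 (fun e => ⟨K.sp e, K.lor e⟩) fun n x => K.dX hX n x

/-- the generators are linear -/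
def gen (c : Cf D) {r : ℝ} {X : V → V} (hX : IsSim r X) : D →ₗ[ℂ] D where
  toFun := c.A X
  map_add' v w := by
    obtain ⟨y, w', hw, hX⟩ := hX
    obtain ⟨s, L, a, K⟩ := H746.exists_crv hw r y
    have h1 := (der (c := c) K hX v).add (der (c := c) K hX w)
    have h2 := der (c := c) K hX (v + w)
    simp only [fun e => U_add (Q := c.Q) (K.sp e) (K.lor e) (a e) v w] at h2
    refine smul_right_injective D Complex.I_ne_zero ?_
    simp only [smul_add]
    exact h2.unique h1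
  map_smul' z v := by
    obtain ⟨y, w', hw, hX⟩ := hX
    obtain ⟨s, L, a, K⟩ := H746.exists_crv hw r y
    have h1 := (der (c := c) K hX v).const_smul z
    have h2 := der (c := c) K hX (z • v)
    simp only [fun e => U_smul (Q := c.Q) (K.sp e) (K.lor e) (a e) z v] at h2
    refine smul_right_injective D Complex.I_ne_zero ?_
    simp only [RingHom.id_apply]
    rw [smul_comm]
    exact h2.unique h1

end Fsg

end

end Vale.Agent.N352.E
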