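import Vale.Agent.N352.E.Base

/-!
# N352, block E: covariance without finite scaling laws
-/

set_option linter.all false

open MeasureTheory Filter Topology
open scoped SchwartzMap ComplexConjugate ContDiff

namespace Vale.Agent.N352.E

open Vale.Agent.P352 Vale.Agent.P352.GF Vale.Agent.P352.BW Vale.Agent.P352.H246
open Vale.Agent.P352.H496 Vale.Agent.P352.H755 Vale.Agent.P352.H15
open Vale.Agent.P352.SubConf (IsAdj)
open Vale.Agent.P352X Vale.Agent.P352X.EB
open Vale.Agent.P352X.EB.NA (ul zz_le)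
open UniformSpace (Completion)
open Complex (I)

noncomputable section

variable {D : Type*} [NormedAddCommGroup D] [InnerProductSpace ℂ D] {c : Cf D}

/-- **row COV0 from covariance** -/
theorem cov0_of (h : ∀ s L a, 0 < s → IsLor L → H246.Cov c.Q s L a) : COV0 c := by
  intro B B' hB hB' hA g
  obtain ⟨n, κ, A, hA', e⟩ := (h _ _ g.inv.a g.inv.hs g.inv.hL).2 B hB
  choose q p1 _ hq using fun i => ex_split (hA' i)
  have t := sg_row c
  have pl : ∀ f : Fn, (fun x => g.pull f (sim g.inv.s g.inv.L g.inv.a x)) = f := fun f =>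
    funext fun x => congrArg f (t.act_inv ⟨g, false⟩ x)
  let W := ul c.Q g
  let W' := ul c.Q g.inv
  have gW : ∀ v, W (c.G v) = c.G (W v) := fun v => c.hN.GU _ _ _ v g.hs g.hL
  -- the sign
  obtain ⟨b, hb⟩ : ∃ b : Bool, ∀ v, W (W' v) = cond b (c.G v) v :=
    (U_U c g).elim (fun h => ⟨false, h⟩) fun h => ⟨true, h⟩
  have hb' : ∀ v, W' (W v) = cond b (c.G v) v := fun v => U_inj c g (by
    show W _ = W _
    rw [hb]
    cases b
    exacts [rfl, (gW v).symm])
  let ι := Fin n × Bool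
  let E := (Fintype.equivFin ι).symm
  have key : ∀ f v, IsTest f → B f (c.Q.U g.s g.L g.a v) = ∑ i, (κ (E i).1 * sg (b && (E i).2)) •
      c.Q.U g.s g.L g.a ((q (E i).1 (E i).2).B (g.pull f) v) := fun f v hf => by
    have tf := test_pull g hf
    rw [E.sum_comp fun j : ι => (κ j.1 * sg (b && j.2)) •
      c.Q.U g.s g.L g.a ((q j.1 j.2).B (g.pull f) v), Fintype.sum_prod_type]
    have e1 := congrArg W (e (g.pull f) (W v) tf)
    rw [pl] at e1
    change W (W' (B f (W v))) = W (∑ i, κ i • A i (g.pull f) (W' (W v))) at e1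
    rw [hb, hb', map_sum] at e1
    cases b
    · refine Eq.trans e1 (Finset.sum_congr rfl fun i _ => ?_)
      rw [map_smul, hq i _ _ tf, map_add, smul_add, Fintype.sum_bool, add_comm]
      simp only [Bool.false_and, sg_false, mul_one]
      rfl
    · refine ((c.hN.inv _).symm.trans (congrArg (gl c) e1)).trans ?_
      rw [map_sum]
      refine Finset.sum_congr rfl fun i _ => ?_
      have a1 := (q i false).par _ v tf
      have a2 := (q i true).par _ v tf
      rw [p1, sg_false, one_smul] at a1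
      rw [p1, sg_true, neg_one_smul] at a2
      have gg : ∀ z, gl c (W (c.G z)) = W z := fun z => by
        rw [gW]
        exact c.hN.inv _
      rw [map_smul, map_smul, hq i _ _ tf, Fintype.sum_bool]
      simp only [cond_true, a1, a2, map_add, map_neg, gg, Bool.true_and, sg_false, sg_true, mul_one,
        mul_neg, neg_smul, smul_add, smul_neg]
      exact add_comm _ _
  exact ⟨_, fun i => q (E i).1 (E i).2, _, fun f v hf => ⟨key f v hf,
    Bas.sadj t _ _ _ _ _ _ _ _ _ g.hs g.hL hA (fun i => (q (E i).1 (E i).2).a) key f v hf⟩⟩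

namespace Fsg

open Vale.Agent.P352X.Fss hiding U_dil u_inv inv_u u_adj dl_herm dl_cov dl_cons dl_charge dl_pch
open Vale.Agent.P352X.Fss.G Vale.Agent.P352X.CL

variable {T : Ix → Ix → Fld D} {B : Fld D} {f : Fn} {s : ℝ} {n : ℕ} {C : Fin n → Fld D}
  {κ : Fin n → ℂ}

/-- the dilate of `B` is a linear combination of fields -/
def Dc (c : Cf D) (s : ℝ) (hs : 0 < s) (B : Fld D) {n : ℕ} (κ : Fin n → ℂ) (C : Fin n → Fld D) :
    Prop := (∀ i, c.Q.fld (C i)) ∧ ∀ f v, IsTest f →
  B f (u c.Q s hs v) = u c.Q s hs (∑ i, κ i • C i (ds s f) v)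

theorem ex_dc (h : COV0 c) (hs : 0 < s) (hB : c.Q.fld B) :
    ∃ (n : ℕ) (κ : Fin n → ℂ) (C : Fin n → Fld D), Dc c s hs B κ C := by
  obtain ⟨B', b, d⟩ := c.Q.adj B hB
  obtain ⟨n, q, κ, e⟩ := h B B' hB b d ⟨s, GF.one, 0, hs, H496.isLor_one⟩
  refine ⟨n, κ, fun i => (q i).B, fun i => (q i).h, fun f v hf => ?_⟩
  rw [map_sum]
  exact (e f v hf).1.trans (Finset.sum_congr rfl fun p _ => (map_smul (u c.Q s hs) _ _).symm)

theorem comm1 {hs : 0 < s} (h : Dc c s hs B κ C) (hf : IsTest f) (P : D →ₗ[ℂ] D)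
    (v w : D) : inner ℂ w (u c.Q s hs (P (u c.Q s⁻¹ (inv_pos.2 hs) (B f v))) -
      B f (u c.Q s hs (P (u c.Q s⁻¹ (inv_pos.2 hs) v)))) = ∑ d, κ d *
      inner ℂ (u c.Q s⁻¹ (inv_pos.2 hs) w) (P (C d (ds s f) (u c.Q s⁻¹ (inv_pos.2 hs) v)) -
        C d (ds s f) (P (u c.Q s⁻¹ (inv_pos.2 hs) v))) := by
  have R := m1 c
  conv_lhs => rw [← u_inv R hs v]
  rw [h.2 _ _ hf, h.2 _ _ hf, inv_u R, inv_u R, ← map_sub, u_adj R, map_sum,
    ← Finset.sum_sub_distrib, inner_sum]
  exact Finset.sum_congr rfl fun d _ => by rw [map_smul, ← smul_sub, inner_smul_right]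

theorem charge1 (hT : Stress0 c.Q T) {hs : 0 < s} (h : Dc c s hs B κ C) {G : ℝ → Fn}
    (hG : IsCutoff G) (n : Ix) (hf : IsTest f) (hc : HasCompactSupport f) (v w : D) :
    Tendsto (fun r => inner ℂ w
      (dl c.Q s hs (T o n) (G r) (B f v) - B f (dl c.Q s hs (T o n) (G r) v))) atTop
      (𝓝 (inner ℂ w ((Complex.I * eta n) • B (pd n f) v))) := by
  have R := m1 c
  have hb := c.Q.bose_fld _ (hT.bose o n)
  have s0 : (s : ℂ) ≠ 0 := Complex.ofReal_ne_zero.2 hs.ne'
  have l := tendsto_finset_sum Finset.univ fun d _ => ((hT.charge _ n _ _ (u c.Q s⁻¹ (inv_pos.2 hs) v)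
    (u c.Q s⁻¹ (inv_pos.2 hs) w) (cut_ds hG hs) (h.1 d) (ds_test hs hf)
    (ds_cpt hs hc)).const_mul (s : ℂ)⁻¹).const_mul (κ d)
  convert l.congr' ((isTest_cutoff hG).mono fun r hr => ?_) using 2
  · conv_lhs => rw [← u_inv R hs v, h.2 _ _ (Ap.test_pd n hf), ← map_smul, u_adj R,
      Finset.smul_sum, inner_sum]
    refine Finset.sum_congr rfl fun d _ => ?_
    rw [ds_pd hs hf, lin1 (h.1 d) (ds_test hs (Ap.test_pd n hf))]
    simp only [inner_smul_right]
    field_simp
  · refine Eq.trans (Finset.sum_congr rfl fun d _ => ?_)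
      (comm1 h hf (fl hb (ds_test hs hr)) v w).symm
    rw [lin1 hb (ds_test hs hr), lin1 hb (ds_test hs hr),
      H746.fld_smul (h.1 d) (ds_test hs hf), ← smul_sub, inner_smul_right, inv_mul_cancel_left₀ s0]
    rfl

lemma pch1 (hT : Stress0 c.Q T) {hs : 0 < s} (hP : ND.PCh c.Q T c.A) (h : Dc c s hs B κ C)
    {G : ℝ → Fn} (hG : IsCutoff G) {X : V → V}
    (hX : IsSim 0 X) (hf : IsTest f) (hc : HasCompactSupport f) (v w : D) :
    Tendsto (fun r => inner ℂ w (ND.cur (fun m n => dl c.Q s hs (T m n)) X (G r) (B f v) -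
      B f (ND.cur (fun m n => dl c.Q s hs (T m n)) X (G r) v))) atTop
      (𝓝 (inner ℂ w (c.A X (B f v) - B f (c.A X v)))) := by
  have R := m1 c
  have hb := fun m n => c.Q.bose_fld _ (hT.bose m n)
  have s0 : (s : ℂ) ≠ 0 := Complex.ofReal_ne_zero.2 hs.ne'
  set X' : V → V := fun z => s⁻¹ • X (s • z) with hX'
  obtain ⟨y, w', h1, h2⟩ := id hX
  have h3 : ∀ z n, X' z n = (s⁻¹ • y) n + 0 * z n + ∑ m, z m * w' m n := fun z n => by
    simp only [hX', Pi.smul_apply, h2, smul_eq_mul, mul_assoc, ← Finset.mul_sum]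
    field_simp
  have hX1 : IsSim 0 X' := ⟨_, w', h1, h3⟩
  have eP : ∀ z, u c.Q s hs (gen c hX1 (u c.Q s⁻¹ (inv_pos.2 hs) z)) = c.A X z := fun z => by
    refine (conj_dil hs h1 (X := X) (by rw [smul_inv_smul₀ hs.ne']; exact h2) h3 _).trans ?_
    rw [Fss.G.u_inv R hs z]
  have l := tendsto_finset_sum Finset.univ fun d _ => (hP _ X' _ _ (u c.Q s⁻¹ (inv_pos.2 hs) v)
    (u c.Q s⁻¹ (inv_pos.2 hs) w) (cut_ds hG hs) hX1 (h.1 d) (ds_test hs hf)
    (ds_cpt hs hc)).const_mul (κ d)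
  convert l.congr' ((isTest_cutoff hG).mono fun r hr => ?_) using 2
  · rw [← eP, ← eP]
    exact comm1 h hf (gen c hX1) v w
  · have ht : IsTest fun x => (s : ℂ) * ds s (G r) x := Ap.sw_cmul s (ds_test hs hr)
    have e : ∀ z, ND.cur (fun m n => dl c.Q s hs (T m n)) X (G r) z =
        u c.Q s hs (curL hb hX1 ht (u c.Q s⁻¹ (inv_pos.2 hs) z)) := fun z => by
      rw [curL_apply, ND.cur, ND.cur, map_sum]
      refine Finset.sum_congr rfl fun n _ => ?_
      rw [Fss.dl]
      congr 2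
      funext x
      simp only [ds_apply, hX', Pi.smul_apply, smul_eq_mul]
      push_cast
      field_simp
    rw [e, e, comm1 h hf]
    simp only [curL_apply]

/-- **the component of dimension four of a stress tensor is a stress tensor** -/
theorem st1 (h0 : COV0 c) (hT : Stress0 c.Q T) (hN : NoLog c.Q T) (hP : ND.PCh c.Q T c.A) :
    ∃ T', c.Q.IsStress T' ∧ ND.PCh c.Q T' c.A ∧
    (∀ m n, ∃ F C, (4, 0) ∈ F ∧ Scl c.Q (T m n) F C ∧ T' m n = C (4, 0)) ∧
    ∃ (S : Finset ℝ) (a : ℝ → ℂ), ∑ t ∈ S, a t = 1 ∧ ∀ m n f v, IsTest f →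
      T' m n f v = ∑ t ∈ S, a t • dl c.Q _ (Real.exp_pos t) (T m n) f v := by
  classical
  have R := m1 c
  set Q := c.Q with hQ
  have hb := fun m n => Q.bose_fld _ (hT.bose m n)
  choose F C hC h4 using hN
  let F0 := Finset.univ.biUnion fun p : Ix × Ix => F p.1 p.2
  let Λ := F0.image Prod.fst ∪ F0.image fun p => conj p.1
  let M := F0.sup Prod.snd + 1
  have m0 : ∀ m n, ∀ p ∈ F m n, p.1 ∈ Λ ∧ conj p.1 ∈ Λ ∧ p.2 < M := fun m n p hp =>
    have : p ∈ F0 := Finset.mem_biUnion.2 ⟨(m, n), Finset.mem_univ _, hp⟩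
    ⟨Finset.mem_union_left _ (Finset.mem_image_of_mem _ this), Finset.mem_union_right _
      (Finset.mem_image_of_mem (fun p : ℂ × ℕ => conj p.1) this),
      Nat.lt_succ_of_le (Finset.le_sup (f := Prod.snd) this)⟩
  obtain ⟨S, a, hc0⟩ := vg (Λ ×ˢ Finset.range M) (4, 0)
  have hc1 : ∀ d ∈ Λ, ∀ j < M, ∑ t ∈ S, a t * pg (d, j) t = if (d, j) = (4, 0) then 1 else 0 :=
    fun d hd j hj => by
      convert hc0 (d, j) (Finset.mem_product.2 ⟨hd, Finset.mem_range.2 hj⟩)
  have hc : ∀ m n, ∀ p ∈ F m n, ∑ t ∈ S, a t * pg p t = if p = (4, 0) then 1 else 0 :=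
    fun m n p hp => hc1 _ (m0 m n p hp).1 _ (m0 m n p hp).2.2
  have hc' : ∀ m n, ∀ p ∈ F m n, ∑ t ∈ S, conj (a t) * pg p t = if p = (4, 0) then 1 else 0 :=
    fun m n p hp => by
      have := congrArg conj (hc1 _ (m0 m n p hp).2.1 _ (m0 m n p hp).2.2)
      simp only [map_sum, map_mul, pg_conj, Complex.conj_conj, apply_ite conj, map_one,
        map_zero] at this
      rw [this]
      refine if_congr ⟨fun h => Prod.ext ?_ (congrArg Prod.snd h :), fun h => by
        rw [h, map_ofNat]⟩ rfl rfl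
      simpa [map_ofNat] using congrArg (fun p => conj p.1) h
  have fm : ∀ a : ℝ → ℂ, (∀ m n, ∀ p ∈ F m n, ∑ t ∈ S, a t * pg p t =
      if p = (4, 0) then 1 else 0) → ∀ m n f v, IsTest f → C m n (4, 0) f v =
        ∑ t ∈ S, a t • Fss.dl Q _ (Real.exp_pos t) (T m n) f v := fun a ha m n f v hf =>
    sfm (hC m n) R ((h4 m n 0).2 rfl) (fun p hp => by convert ha m n p hp) hf v
  have c1 : ∑ t ∈ S, a t = 1 := by simpa [CL.pg, CL.ph] using hc o o _ ((h4 o o 0).2 rfl)
  have dim : ∀ m n s (hs : 0 < s) f v, IsTest f →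
      C m n (4, 0) f (u Q s hs v) = u Q s hs (C m n (4, 0) (ds s f) v) := fun m n s hs f v hf => by
    obtain ⟨s, rfl⟩ : ∃ t, Real.exp t = s := ⟨_, Real.exp_log hs⟩
    have e : ∀ w, dl Q _ hs (C m n (4, 0)) f w =
        ∑ t ∈ S, a t • dl Q _ (Real.exp_pos (s + t)) (T m n) f w := fun w => by
      rw [Fss.dl, fm a hc _ _ _ _ (ds_test hs hf), map_sum]
      exact Finset.sum_congr rfl fun t _ => by rw [map_smul, ← dl_dl R]; rfl
    have e2 := e (u Q _ hs v)
    rw [Fss.dl, inv_u R] at e2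
    rw [e2]
    simp only [sdl (hC m n) R _ hf, Finset.smul_sum, smul_smul]
    rw [Finset.sum_comm, ← Finset.sum_ite_eq_of_mem' (F m n) (4, 0)
      (fun p => C m n p f (u Q _ hs v)) ((h4 m n 0).2 rfl)]
    refine Finset.sum_congr rfl fun p hp => ?_
    obtain ⟨d, j⟩ := p
    obtain ⟨a1, -, a2⟩ := m0 m n _ hp
    simp only [← Finset.sum_smul, pg_add d a2, Finset.mul_sum, mul_left_comm (a _)]
    rw [Finset.sum_comm]
    simp only [← Finset.mul_sum]
    rw [Finset.sum_congr rfl fun i hi => by rw [hc1 d a1 i (Finset.mem_range.1 hi)]]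
    by_cases hd : d = 4
    · subst hd
      obtain rfl := (h4 m n j).1 hp
      simp [a2]
    · simp [hd]
  have lim : ∀ {B : Fld D} {f : Fn} (hB : Q.fld B) (hf : IsTest f) (P : ℝ → D → D)
      (P' : ℝ → ℝ → D → D) (v w : D) (y : ℂ),
      (∀ᶠ r in atTop, ∀ z, P r z = ∑ t ∈ S, a t • P' t r z) →
      (∀ t, Tendsto (fun r => inner ℂ w (P' t r (B f v) - B f (P' t r v))) atTop (𝓝 y)) →
      Tendsto (fun r => inner ℂ w (P r (B f v) - B f (P r v))) atTop (𝓝 y) :=
    fun hB hf P P' v w y h1 h2 => by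
      have := tendsto_finset_sum S fun t _ => (h2 t).const_mul (a t)
      rw [← Finset.sum_mul, c1, one_mul] at this
      refine this.congr' (h1.mono fun r hr => ?_)
      simp only [hr, ← fl_apply hB hf, map_sum, map_smul, ← Finset.sum_sub_distrib, ← smul_sub,
        inner_sum, inner_smul_right]
  have h1 : Q.IsStress fun m n => C m n (4, 0) := by
    refine ⟨fun m n => ((hC m n).1 _).2 (hT.bose m n), fun m n f v hf => ?_,
      fun m n f v w hf => ?_, fun m n s L y f v hs hL hf => ?_, fun n f v hf => ?_,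
      fun G n B f v w hG hB hf hc' => ?_⟩
    · simp only [fm a hc _ _ f v hf, Fss.dl, hT.symm m n _ _ (ds_test (Real.exp_pos _) hf)]
    · rw [fm a hc _ _ f v hf, fm _ hc' _ _ _ w (Ap.test_bar hf), sum_inner, inner_sum]
      exact Finset.sum_congr rfl fun t _ => by
        rw [inner_smul_left, inner_smul_right, dl_herm R hT _ m n hf]
    · have t1 := Ap.test_sim one_pos hL y hf
      let W : D →ₗ[ℂ] D := ⟨⟨Q.U 1 L y, U_add one_pos hL y⟩, U_smul one_pos hL y⟩
      have e : ∀ k l, Q.U s L y (C k l (4, 0) (fun x => f (sim s L y x)) v) =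
          W (C k l (4, 0) (fun x => f (sim 1 L y x)) (u Q s hs v)) := fun k l => by
        rw [← (U_dil R hs hL y _).2, dim k l s hs _ v t1]
        rw [show ds s (fun x => f (sim 1 L y x)) = fun x => f (sim s L y x) from funext fun x => by
          rw [ds_apply]
          simp only [N86.c1_sim _ L y, simL_smul, one_smul]]
        rfl
      simp only [e, fm a hc _ _ _ _ t1, map_sum, map_smul, Finset.smul_sum]
      rw [← (U_dil R hs hL y v).2, fm a hc _ _ f _ hf]
      simp only [dl_cov R hT _ m n hL y hf, Finset.smul_sum]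
      rw [Finset.sum_comm]
      refine Finset.sum_congr rfl fun k _ => ?_
      rw [Finset.sum_comm]
      exact Finset.sum_congr rfl fun l _ => Finset.sum_congr rfl fun t _ => smul_comm _ _ _
    · simp only [fun m => fm a hc m n _ v (Ap.test_pd m hf)]
      rw [Finset.sum_comm]
      simp only [← Finset.smul_sum, dl_cons R hT _ n hf, smul_zero, Finset.sum_const_zero]
    · exact lim hB hf _ (fun t r => Fss.dl Q _ (Real.exp_pos t) (T o n) (G r)) v w _
        ((isTest_cutoff hG).mono fun r hr z => fm a hc o n _ z hr) fun t =>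
          let ⟨_, _, _, h⟩ := ex_dc h0 (Real.exp_pos t) hB
          charge1 hT h hG n hf hc' v w
  refine ⟨_, h1, fun G X B f v w hG hX hB hf hc' => ?_,
    fun m n => ⟨F m n, C m n, (h4 m n 0).2 rfl, hC m n, rfl⟩, S, a, c1, fm a hc⟩
  refine lim hB hf _ (fun t r => ND.cur (fun m n => Fss.dl Q _ (Real.exp_pos t) (T m n)) X (G r))
    v w _ ((isTest_cutoff hG).mono fun r hr z => ?_) fun t =>
      let ⟨_, _, _, h⟩ := ex_dc h0 (Real.exp_pos t) hB
      pch1 hT hP h hG hX hf hc' v w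
  simp only [ND.cur, fun n => fm a hc o n _ z (test_sim0 hX hr n), Finset.smul_sum]
  exact Finset.sum_comm

end Fsg

end

end Vale.Agent.N352.E
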