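import Vale.Agent.P352R.Tw.Td

/-!
# N352, block E: wedge duality for a net of bosons
-/

set_option linter.all false

namespace Vale.Agent.N352.E

open Vale.Agent.P352 Vale.Agent.P352.GF Vale.Agent.P352.BW Vale.Agent.P352.H246
open Vale.Agent.P352.H496 Vale.Agent.P352.H755 Vale.Agent.P352.H15
open Vale.Agent.P352X Vale.Agent.P352X.EG
open Vale.Agent.P352X.EB (W0 W1)
open UniformSpace (Completion)
open P352R.Tw

variable {D : Type*} [NormedAddCommGroup D] [InnerProductSpace ℂ D]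

theorem dual0 (c : Cg D) (hG : c.Γ = 1) (m : MfAll c.Q) :
    ∀ X ∈ (c.N W0).commutant, X ∈ c.N W1 := fun X hX => by
  have t := e0_thm c
  have := ((kl_iff t.sg.g2 t.sg.gs (c.hN.gam _)).1 (td0 t m X hX)).1
  rw [hG, one_mul, mul_one, ← two_smul ℂ] at this
  simpa [smul_smul] using (c.N W1).toStarSubalgebra.smul_mem this (2⁻¹ : ℂ)

/-- **wedge duality** -/
theorem dual1 (c : Cg D) (hG : c.Γ = 1) (m : MfAll c.Q) {a b : V} (y : V) (ha : IsNull a)
    (hb : IsNull b) (hab : 0 < GF.mdot a b) :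
    ∀ X ∈ (c.N (Wdg a b y)).commutant, X ∈ c.N (Wdg b a y) := fun X hX => by
  have t := e0_thm c
  obtain ⟨L, hL, e⟩ := JCa.trans ha hb hab
  let g : Sh c := ⟨⟨1, L, y, one_pos, hL⟩, false⟩
  have u := t.sg.uni g
  have a0 (Y) : Y ∈ c.N W0 ↔ _ := t.sg.alg g W0 Y
  have a1 (Y) : Y ∈ c.N W1 ↔ _ := t.sg.alg g W1 Y
  rw [show g.act '' W0 = _ from (e y).1] at a0
  rw [show g.act '' W1 = _ from (e y).2] at a1
  have k : g.U c * (star (g.U c) * X * g.U c) * star (g.U c) = X := by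
    rw [← mul_assoc, ← mul_assoc, u.2, one_mul, mul_assoc, u.2, mul_one]
  exact k ▸ (a1 _).1 (dual0 c hG m _ ((JCb.comm_conj u a0 _).2 (k.symm ▸ hX)))

end Vale.Agent.N352.E
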