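import Vale.Agent.N352.E.Main
import Vale.Agent.N352.E.Pot
import Vale.Agent.N352.E.Sl

/-!
# N352, block E: sufficient conditions for strong locality
-/

set_option linter.all false

open Filter Topology
open scoped Nat

namespace Vale.Agent.N352.E.En

open Vale.Agent.P352 Vale.Agent.P352.GF Vale.Agent.P352.BW Vale.Agent.P352.H246
open Vale.Agent.P352.H496 Vale.Agent.P352.H755 Vale.Agent.P352.H15
open Vale.Agent.P352.SubConf (IsAdj)
open Vale.Agent.P352X Vale.Agent.P352L Vale.Agent.P352R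
open P352R.L22 P352R.Bz P352W.Net
open UniformSpace (Completion)

noncomputable section

variable {D : Type*} [NormedAddCommGroup D] [InnerProductSpace ℂ D] {c : Cf D}
  {T : Ix → Ix → Fld D}

/-- the local vectors of a large region are a core -/
theorem core1 {B : Fld D} (hB : c.Q.fld B) (e : EB1 c.Q B) {g : Fn} (hg : In Set.univ g)
    {S : Set Mink} (hS : Big S) (v : D) {ε : ℝ} (he : 0 < ε) :
    ∃ u, PW c.Q S u ∧ ‖v - u‖ < ε ∧ ‖B g v - B g u‖ < ε := by
  obtain ⟨B', b, ad⟩ := c.Q.adj B hB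
  obtain ⟨F, rfl⟩ := exists_fl hg.1
  have hF : P352.IsTest Set.univ F := In_fl.1 hg
  have d : ∀ z, z ∈ closure ((fun s : D => (s : Completion D)) '' PS c.Q Set.univ) := fun z =>
    Completion.denseRange_coe.dense_image (Completion.continuous_coe D) dense_PS z
  have h := gr1 (e0_thm c) (PS c.Q Set.univ) B B' _ v
    (fun a => (B (fun x => fl F (sim 1 GF.one a x)) v : D)) 1 one_pos e b ad hg
    (fun a s hs => PW.transl (W := Set.univ) (WithLp.toLp 2 a) (fun _ _ => Set.mem_univ _) hs)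
    (fun s hs => PW.fld hB hF hs) (d _) (cont_tr hB hg.1 v) fun a _ => ⟨d _, fun s _ => by
      rw [Completion.inner_coe, Completion.inner_coe, ← inner_conj_symm,
        ← ad _ _ _ (Ap.test_sim one_pos H496.isLor_one a hg.1)]
      exact inner_conj_symm (𝕜 := ℂ) s _⟩
  simp only [EG.WCp.tr0] at h
  obtain ⟨_, ⟨w, hw, rfl⟩, d⟩ := Metric.mem_closure_iff.1 h (ε / 2) (half_pos he)
  obtain ⟨u, hu, d1, d2⟩ := dense_en_fld hS 0 hB hF hw (half_pos he)
  rw [Prod.dist_eq, max_lt_iff, Completion.dist_eq, Completion.dist_eq, dist_eq_norm,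
    dist_eq_norm] at d
  exact ⟨u, hu, (norm_sub_le_norm_sub_add_norm_sub v w u).trans_lt
      ((add_lt_add d.1 d1).trans_eq (add_halves ε)),
    (norm_sub_le_norm_sub_add_norm_sub _ (B (fl F) w) _).trans_lt
      ((add_lt_add d.2 d2).trans_eq (add_halves ε))⟩

/-- **an analytic vacuum and polynomial energy bounds give strong locality** -/
theorem of_ana (e : EBd c.Q) {t : Fld D} (ht : c.Q.bose t) (ad : IsAdj t t) {f : Fn}
    (hf : In Set.univ f) (re : bar f = f) {C : ℝ}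
    (b : ∀ n : ℕ, ‖(t f)^[n] c.Q.vac‖ ≤ C ^ (n + 1) * n !) : ∃ M : VonNeumannAlgebra (Completion D),
      Aff M (t f) ∧ ∀ B g, c.Q.fld B → In Set.univ g → Sep f g → Aff M.commutant (B g) := by
  let X : Module.End ℂ D := lin (t f) _ fun v w => ad f v w hf.1
  have sy : Sy X := fun v w => (ad f v w hf.1).trans (by rw [re]; rfl)
  have s : ∀ Z, Z = X → Sy Z := fun _ h => h ▸ sy
  obtain ⟨τ, hτ, k⟩ := ana (Q := c.Q) (W := cc (tsupport f)) sy (fun B g v hB hg =>
    c.Q.loc t B f g v ht hB hf.1 hg.1 fun x hx y hy => hg.2.2 hy x hx) C fun n => by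
      rw [Module.End.pow_apply]
      exact b n
  obtain ⟨S0, big, sub, -⟩ := H496.exists_big (ι := Empty) hf.2.1.isCompact (fun i => i.elim)
    fun i => i.elim
  have big : Big (MW (cc (tsupport f))) := fun r => (big r).imp fun _ b x hx => sub (b x hx)
  have c1 : Co X 1 := ⟨τ, hτ, fun v ε p => by
    obtain ⟨u, hu, d⟩ := Metric.mem_closure_iff.1 (dense_big (Q := c.Q) big v) ε p
    rw [dist_eq_norm] at d
    exact ⟨u, k u hu, k u hu, d, d⟩⟩
  refine ⟨vn (RR (· = X)), ⟨t f, sy, fun Y hY => ?_⟩, fun B g hB hg sp => ?_⟩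
  · obtain ⟨R, r⟩ := ex_res' sy c1
    rw [vn_comm, mem_cmt (rr_star s)] at hY
    exact r.wk sy (hY R ⟨X, 1, rfl, r⟩)
  · obtain ⟨B', -, a⟩ := c.Q.adj B hB
    refine ⟨_, fun v w => a g v w hg.1, fun Y hY => ?_⟩
    rw [VonNeumannAlgebra.commutant_commutant] at hY
    refine aff' (S := (· = X)) (C := lin (B g) _ fun v w => a g v w hg.1)
      (fun _ h => h ▸ ⟨sy, c1, τ, hτ, fun v ε p => ?_⟩) (fun v w => a g v w hg.1)
      (fun _ h v => h ▸ c.Q.loc t B f g v ht hB hf.1 hg.1 sp) hY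
    obtain ⟨u, hu, d⟩ := core1 hB (e B hB) hg big v p
    obtain ⟨F, rfl⟩ := exists_fl hg.1
    exact ⟨u, k u hu, k _ (.fld hB (In_fl.1 ⟨hg.1, hg.2.1, fun y hy x hx => sp x hx y hy⟩) hu), d⟩

theorem sl_of (h : ∀ m n f, In Set.univ f → bar f = f → ∃ M : VonNeumannAlgebra (Completion D),
    Aff M (T m n f) ∧ ∀ B g, c.Q.fld B → In Set.univ g → Sep f g → Aff M.commutant (B g)) :
    SL c.Q T := fun a b m n f ha hb _ hf re =>
  (h m n f (Ap.in_univ' hf) re).imp fun M k => ⟨k.1, fun B g hB hg =>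
    k.2 B g hB (Ap.in_univ' hg) (Ap.sep_wdg ha hb hf.2.2 hg.2.2)⟩

/-- linear energy bounds for the stress tensor -/
theorem sl_leb (hT : Stress0 c.Q T) (e : EBd c.Q) (l : ∀ m n, Sl.LB c.Q (T m n)) : SL c.Q T :=
  sl_of fun m n _ hf re => Sl.of_leb (A := c.A) c.hN.der (Br.ebd.2 e) (hT.bose m n) (hT.herm m n)
    (l m n) hf re

/-- analytic vacuum for the stress tensor -/
theorem sl_ana (hT : Stress0 c.Q T) (e : EBd c.Q) (l : ∀ m n f, In Set.univ f → bar f = f →
    ∃ C : ℝ, ∀ k : ℕ, ‖(T m n f)^[k] c.Q.vac‖ ≤ C ^ (k + 1) * k !) : SL c.Q T :=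
  sl_of fun m n f hf re =>
    have ⟨_, b⟩ := l m n f hf re
    of_ana e (hT.bose m n) (hT.herm m n) hf re b

/-- local nets -/
theorem sl_net {Q : Theory D} {G A Γ N} (h : P352R.G.LNg Q G A Γ N) (hT : Stress0 Q T) : SL Q T :=
  fun a b m n _ ha hb ab hf _ => Sl.of_net h (hT.bose m n) hb ha ((H755.mdot_comm _ _).trans ab) hf

end

end Vale.Agent.N352.E.En
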