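import Vale.Agent.N352.E.G2
import Vale.Agent.N352.E.Ent
import Mathlib.Analysis.Normed.Operator.Extend

/-!
# N352, block E: form bounds give linear energy bounds
-/

set_option linter.all false

open Filter Topology MeasureTheory
open scoped ComplexConjugate

namespace Vale.Agent.N352.E.Fb

noncomputable section

/-- log convex sequences with exponential growth -/
theorem lc {a : ℕ → ℝ} {B c : ℝ} (hc : 0 < c) (h0 : ∀ n, 0 ≤ a n)
    (h : ∀ n, a (n + 1) ^ 2 ≤ a n * a (n + 2)) (b : ∀ n, a n ≤ B * c ^ n) : a 1 ≤ c * a 0 := by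
  by_contra k
  rw [not_le] at k
  have p : 0 < a 0 := (h0 0).lt_of_ne fun e => by
    have := h 0
    rw [← e] at this k
    nlinarith
  have r : 1 < a 1 / a 0 / c := by rw [div_div, one_lt_div (by positivity)]; linarith
  have s : ∀ n, 0 < a n ∧ a 1 / a 0 * a n ≤ a (n + 1) := fun n => by
    induction n with
    | zero => exact ⟨p, (div_mul_cancel₀ _ p.ne').le⟩
    | succ n ih =>
      have q : 0 < a (n + 1) := lt_of_lt_of_le (mul_pos (div_pos (by nlinarith) p) ih.1) ih.2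
      refine ⟨q, le_of_mul_le_mul_left ?_ ih.1⟩
      nlinarith [h n, mul_le_mul_of_nonneg_right ih.2 q.le]
  have t : ∀ n, (a 1 / a 0) ^ n * a 0 ≤ a n := fun n => by
    induction n with
    | zero => simp
    | succ n ih =>
      refine le_trans ?_ (s n).2
      rw [pow_succ', mul_assoc]
      exact mul_le_mul_of_nonneg_left ih (div_nonneg (h0 1) p.le)
  obtain ⟨n, hn⟩ := ((tendsto_pow_atTop_atTop_of_one_lt r).eventually_gt_atTop (B / a 0)).exists
  rw [div_pow, div_lt_div_iff₀ p (pow_pos hc n)] at hn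
  exact absurd ((t n).trans (b n)) hn.not_ge

section
variable {D H : Type*} [NormedAddCommGroup D] [InnerProductSpace ℂ D] [NormedAddCommGroup H]
  [InnerProductSpace ℂ H] [CompleteSpace H]

/-- the lemma of Lax -/
theorem lax {S K L : H →L[ℂ] H} (s : ∀ x y, inner ℂ (S x) y = inner ℂ x (S y))
    (h : ∀ y, S (S (L y)) = K (S (S y))) : ∃ c, ∀ y, ‖S (L y)‖ ≤ c * ‖S y‖ := by
  let M := K.adjoint * L
  have e : ∀ x y, inner ℂ (S (M x)) (S y) = inner ℂ (S (L x)) (S (L y)) := fun x y => by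
    rw [s, s (L x), h, ← K.adjoint_inner_left]
    rfl
  have e' : ∀ x y, inner ℂ (S (M x)) (S y) = inner ℂ (S x) (S (M y)) := fun x y => by
    rw [e, ← inner_conj_symm, ← e, inner_conj_symm]
  have b : ∀ y, ‖S (M y)‖ ≤ (‖M‖ + 1) * ‖S y‖ := fun y => by
    refine lc (a := fun n => ‖S ((M ^ n) y)‖) (B := ‖S‖ * ‖y‖) (c := ‖M‖ + 1) (by positivity)
      (fun _ => norm_nonneg _) (fun n => ?_) (fun n => ?_) |>.trans_eq' (by simp) |>.trans_eq
      (by simp)
    · rw [← inner_self_eq_norm_sq (𝕜 := ℂ), pow_succ', pow_succ' _ (n + 1), pow_succ']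
      simp only [ContinuousLinearMap.mul_apply M]
      rw [e']
      exact re_inner_le_norm _ _
    · refine (S.le_opNorm _).trans ?_
      rw [mul_assoc]
      refine mul_le_mul_of_nonneg_left ?_ (norm_nonneg _)
      induction n with
      | zero => simp
      | succ n ih =>
        rw [pow_succ', pow_succ', mul_left_comm]
        exact (M.le_opNorm _).trans (mul_le_mul (by linarith) ih (norm_nonneg _) (by positivity))
  refine ⟨‖M‖ + 1, fun y => abs_le_of_sq_le_sq' ?_ (by positivity) |>.2⟩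
  rw [← inner_self_eq_norm_sq (𝕜 := ℂ), ← e]
  refine (re_inner_le_norm _ _).trans ?_
  have := norm_nonneg (S y)
  have := norm_nonneg M
  nlinarith [mul_le_mul_of_nonneg_right (b y) (norm_nonneg (S y)), mul_nonneg this (sq_nonneg ‖S y‖),
    mul_nonneg (mul_nonneg this this) (sq_nonneg ‖S y‖)]

variable {P : ℕ → D →ₗ[ℂ] H} {S : H →L[ℂ] H}

/-- polarization -/
theorem pol (e : D →ₗ[ℂ] H) {A : D →ₗ[ℂ] D} {C : ℝ} (i : ∀ v, e v = 0 → v = 0)
    (h : ∀ v, ‖inner ℂ v (A v)‖ ≤ C * ‖e v‖ ^ 2) (v w : D) :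
    ‖inner ℂ w (A v)‖ ≤ 2 * C * ‖e v‖ * ‖e w‖ := by
  have k : ∀ v w : D, ‖inner ℂ w (A v)‖ ≤ C * (‖e v‖ ^ 2 + ‖e w‖ ^ 2) := fun v w => by
    have h' : ∀ v, ‖inner ℂ (A v) v‖ ≤ C * ‖e v‖ ^ 2 := fun v => (norm_inner_symm _ _).trans_le (h v)
    have p1 := parallelogram_law_with_norm ℂ (e v) (e w)
    have p2 := parallelogram_law_with_norm ℂ (e v) (e (Complex.I • w))
    rw [norm_inner_symm, inner_map_polarization', norm_div, Complex.norm_ofNat,
      div_le_iff₀ four_pos]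
    refine (norm_add_le _ _).trans ((add_le_add ((norm_sub_le _ _).trans
      (add_le_add (norm_sub_le _ _) le_rfl)) le_rfl).trans ?_)
    simp only [norm_mul, Complex.norm_I, one_mul]
    rw [← map_add, ← map_sub] at p1 p2
    rw [map_smul e _ w, norm_smul, Complex.norm_I, one_mul] at p2
    have := congrArg (C * ·) p1
    have := congrArg (C * ·) p2
    nlinarith [h' (v + w), h' (v - w), h' (v + Complex.I • w), h' (v - Complex.I • w)]
  rcases (norm_nonneg (e v)).eq_or_lt with a | a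
  · obtain rfl := i v (norm_eq_zero.1 a.symm)
    simp
  rcases (norm_nonneg (e w)).eq_or_lt with b | b
  · obtain rfl := i w (norm_eq_zero.1 b.symm)
    simp
  have := k ((‖e w‖ : ℂ) • v) ((‖e v‖ : ℂ) • w)
  simp only [map_smul, inner_smul_left, inner_smul_right, norm_mul, norm_smul, Complex.norm_real,
    norm_norm, Complex.conj_ofReal] at this
  refine le_of_mul_le_mul_left ?_ (mul_pos a b)
  nlinarith

/-- **form bounds for an operator and its commutator give a linear bound** -/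
theorem lin (s : ∀ x y, inner ℂ (S x) y = inner ℂ x (S y)) (n : ∀ x, ‖S x‖ ≤ ‖x‖)
    (sp : ∀ k v, S (P (k + 1) v) = P k v) (d : ∀ k, DenseRange (P k))
    (i : ∀ v w, inner ℂ (P 0 v) (P 0 w) = inner ℂ v w) {N : D → D}
    (pn : ∀ k v, P k (N v) = P (k + 2) v) {A A' : D →ₗ[ℂ] D} (cm : ∀ v, N (A v) = A (N v) + A' v)
    {C C' : ℝ} (h : ∀ v, ‖inner ℂ v (A v)‖ ≤ C * ‖P 1 v‖ ^ 2)
    (h' : ∀ v, ‖inner ℂ v (A' v)‖ ≤ C' * ‖P 1 v‖ ^ 2) : ∃ c, ∀ v, ‖P 0 (A v)‖ ≤ c * ‖P 2 v‖ := by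
  have k : ∀ {A : D →ₗ[ℂ] D} {C : ℝ}, (∀ v, ‖inner ℂ v (A v)‖ ≤ C * ‖P 1 v‖ ^ 2) →
      ∀ v, ‖S (P 0 (A v))‖ ≤ 2 * |C| * ‖P 1 v‖ := fun {A C} h v => by
    have b : ∀ x, ‖inner ℂ x (S (P 0 (A v)))‖ ≤ 2 * |C| * ‖P 1 v‖ * ‖x‖ := fun x => by
      refine (d 1).induction_on x (isClosed_le (by fun_prop) (by fun_prop)) fun w => ?_
      rw [← s, sp, i]
      refine pol (P 1) (fun v e => ?_) (fun v => (h v).trans (by gcongr; exact le_abs_self C)) v w
      rw [← inner_self_eq_zero (𝕜 := ℂ), ← i, ← sp, e, map_zero, inner_zero_left]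
    have := b (S (P 0 (A v)))
    rw [inner_self_eq_norm_sq_to_K, norm_pow, RCLike.norm_ofReal, abs_norm, sq] at this
    rcases (norm_nonneg (S (P 0 (A v)))).eq_or_lt with a | a
    · rw [← a]; positivity
    exact le_of_mul_le_mul_right this a
  have k2 : ∀ v, ‖P 1 (A v)‖ ≤ (2 * |C| + 2 * |C'|) * ‖P 3 v‖ := fun v => by
    rw [← sp, ← pn 0, cm, map_add, map_add, add_mul]
    refine (norm_add_le _ _).trans (add_le_add ((k h _).trans_eq (by rw [pn])) ((k h' _).trans ?_))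
    rw [← sp, ← sp 2]
    exact mul_le_mul_of_nonneg_left ((n _).trans (n _)) (by positivity)
  let K := ((S : H →ₗ[ℂ] H) ∘ₗ P 0 ∘ₗ A).extendOfNorm (P 1)
  let L := (P 1 ∘ₗ A).extendOfNorm (P 3)
  have eK : ∀ v, K (P 1 v) = S (P 0 (A v)) := LinearMap.extendOfNorm_eq (d 1) ⟨_, k h⟩
  have eL : ∀ v, L (P 3 v) = P 1 (A v) := LinearMap.extendOfNorm_eq (d 3) ⟨_, k2⟩
  obtain ⟨c, hc⟩ := lax (K := K) (L := L) s fun y =>
    (d 3).induction_on y (isClosed_eq (by fun_prop) (by fun_prop)) fun v => by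
      rw [eL, sp, sp, sp, eK]
  exact ⟨c, fun v => by simpa only [eL, sp] using hc (P 3 v)⟩

/-- **linear bounds for an operator and its adjoint give a form bound** -/
theorem frm (s : ∀ x y, inner ℂ (S x) y = inner ℂ x (S y))
    (sp : ∀ k v, S (P (k + 1) v) = P k v) (d : ∀ k, DenseRange (P k))
    (i : ∀ v w, inner ℂ (P 0 v) (P 0 w) = inner ℂ v w) {A A' : D →ₗ[ℂ] D}
    (ad : ∀ v w, inner ℂ (A' v) w = inner ℂ v (A w)) {C C' : ℝ}
    (h : ∀ v, ‖P 0 (A v)‖ ≤ C * ‖P 2 v‖) (h' : ∀ v, ‖P 0 (A' v)‖ ≤ C' * ‖P 2 v‖) :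
    ∃ c, ∀ v, ‖inner ℂ v (A v)‖ ≤ c * ‖P 1 v‖ ^ 2 := by
  let L := (P 0 ∘ₗ A).extendOfNorm (P 2)
  let K := (P 0 ∘ₗ A').extendOfNorm (P 2)
  have eL : ∀ v, L (P 2 v) = P 0 (A v) := LinearMap.extendOfNorm_eq (d 2) ⟨_, h⟩
  have eK : ∀ v, K (P 2 v) = P 0 (A' v) := LinearMap.extendOfNorm_eq (d 2) ⟨_, h'⟩
  obtain ⟨c, hc⟩ := lax (K := K.adjoint) (L := L) s fun y =>
    (d 2).induction_on y (isClosed_eq (by fun_prop) (by fun_prop)) fun v =>
      (d 2).eq_of_inner_right ℂ fun w => by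
        rw [eL, sp, sp, K.adjoint_inner_right, eK, ← s, ← s, sp, sp, i, i, ad]
  refine ⟨c, fun v => ?_⟩
  have := hc (P 2 v)
  rw [eL, sp] at this
  rw [← i, ← sp 0 v, s, sq, mul_left_comm]
  exact (norm_inner_le_norm _ _).trans (mul_le_mul_of_nonneg_left this (norm_nonneg _))

end

open P352 P352.GF P352.H246 P352.H755 P352X P352X.SN Gx
open UniformSpace (Completion)
open Complex (I)

variable {D : Type*} [NormedAddCommGroup D] [InnerProductSpace ℂ D] (c : Cf D)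

/-- the square root of the energy -/
def rt (p : V) : ℝ := √(1 + |GF.mdot p (bas o 1)|)

theorem rt1 (p : V) : 1 ≤ rt p := Real.one_le_sqrt.2 (le_add_of_nonneg_right (abs_nonneg _))

/-- its powers -/
def gk (k : ℕ) (p : V) : ℂ := (rt p : ℂ) ^ k

theorem mrt : Measurable fun p => (rt p : ℂ) :=
  Complex.measurable_ofReal.comp (measurable_const.add (isPair_mdot.meas _).abs).sqrt

theorem bi : Bd fun p => (rt p : ℂ)⁻¹ := ⟨mrt.inv, 1, fun p => by
  rw [norm_inv, Complex.norm_real]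
  exact inv_le_one_of_one_le₀ ((rt1 p).trans (le_abs_self _))⟩

theorem g2 {p : V} (hp : p ∈ Kin.Cone) : gk 2 p = 1 + (GF.mdot p (bas o 1) : ℂ) := by
  rw [gk, ← Complex.ofReal_pow, rt, Real.sq_sqrt (by positivity),
    abs_of_nonneg ((abs_nonneg _).trans (cone_le hp o))]
  push_cast
  rfl

theorem dom (k : ℕ) (v : D) : (bc c).Dom (gk k) v :=
  (dom_wt (bas o 1) k (sm_coe v)).of_le (mrt.pow_const k) (K := 1)
    ((Kin.cone (bc c) v).mono fun p hp => by
      rw [one_mul, Gx.wt, ← g2 hp, gk, gk, norm_pow, norm_pow, norm_pow, Complex.norm_real]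
      have := (rt1 p).trans (le_abs_self _)
      exact pow_le_pow_left₀ (norm_nonneg _) (le_self_pow₀ this two_ne_zero) k)

/-- the powers as operators on the domain -/
def Pk (k : ℕ) : D →ₗ[ℂ] Completion D where
  toFun v := (bc c).Psi (gk k) v
  map_add' v w := by rw [Completion.coe_add, Calc.Psi_add_vec (dom c k v) (dom c k w)]
  map_smul' z v := by rw [Completion.coe_smul, Calc.Psi_smul_vec z (dom c k v)]; rfl

theorem p0 (v : D) : Pk c 0 v = v := by
  show (bc c).Psi (fun _ => _ ^ 0) _ = _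
  simp only [pow_zero]
  rw [Calc.Psi_bd (Bd.const 1), (bc c).one]
  rfl

theorem ne0 (p : V) : (rt p : ℂ) ≠ 0 := Complex.ofReal_ne_zero.2 (one_pos.trans_le (rt1 p)).ne'

theorem sp (k : ℕ) (v : D) : (bc c).Phi (fun p => (rt p : ℂ)⁻¹) (Pk c (k + 1) v) = Pk c k v := by
  refine (Calc.Phi_Psi bi (dom c _ v)).trans (congrArg ((bc c).Psi · _) (funext fun p => ?_))
  rw [gk, gk, pow_succ', inv_mul_cancel_left₀ (ne0 p)]

theorem dn (k : ℕ) : DenseRange (Pk c k) := fun y => by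
  have b : Bd fun p => (rt p : ℂ)⁻¹ ^ k := by
    induction k with
    | zero => exact Bd.const 1
    | succ k ih => exact ih.mul bi
  have e : (fun p => gk k p * (rt p : ℂ)⁻¹ ^ k) = fun _ => 1 := funext fun p => by
    rw [gk, ← mul_pow, mul_inv_cancel₀ (ne0 p), one_pow]
  have m : Measurable (gk k) := mrt.pow_const k
  have d : (bc c).Dom (fun p => gk k p * (rt p : ℂ)⁻¹ ^ k) y := e ▸ .of_bd (Bd.const 1) y
  obtain ⟨x, h1, -, h3⟩ := (bc c).core isPair_mdot
    (D := LinearMap.range (io D : D →ₗ[ℂ] Completion D))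
    (by rintro y _ ⟨v, rfl⟩; exact ⟨_, ((ue _ _).trans (utc y v)).symm⟩)
    (by rintro _ ⟨v, rfl⟩; exact dom c k v) ((Calc.dom_Phi b m).2 d)
    (Completion.denseRange_coe _)
  rw [Calc.Psi_Phi b m d, e, Calc.Psi_bd (Bd.const 1), (bc c).one] at h3
  exact mem_closure_of_tendsto h3 (.of_forall fun n => (h1 n).imp fun v h => congrArg ((bc c).Psi _) h)

theorem p2 (v : D) : Pk c 2 v = (v - I • Dv c.Q o v : D) := by
  have b : Dr c (bas o 1) v (Dv c.Q o v : D) := (((io D).restrictScalars ℝ).hasFDerivAt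
    |>.comp_hasDerivAt (0 : ℝ) ((wb_row c).der o v)).congr_of_eventuallyEq
      (.of_forall fun t => (utc _ _).trans (by congr 2; funext n; simp [bas]))
  obtain ⟨d, e⟩ := dr_psi b
  have o := Calc.Dom.of_bd (C := (bc c).toCalc) (Bd.const 1) (v : Completion D)
  rw [Completion.coe_sub, Completion.coe_smul, e, smul_smul, Complex.I_mul_I, neg_smul, one_smul,
    sub_neg_eq_add]
  refine (Calc.Psi_congr_ae (dom c 2 v) (o.add d).1
    ((Kin.cone (bc c) v).mono fun p => g2)).trans ?_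
  rw [Calc.Psi_add o d, Calc.Psi_bd (Bd.const 1), (bc c).one]
  rfl

theorem pn (k : ℕ) (v : D) : Pk c k (v - I • Dv c.Q o v) = Pk c (k + 2) v := by
  have e : (fun p => gk k p * gk 2 p) = gk (k + 2) := funext fun p => (pow_add _ _ _).symm
  show (bc c).Psi _ _ = (bc c).Psi _ _
  rw [← p2, ← e]
  exact Calc.Psi_Psi (dom c 2 v) (mrt.pow_const k) (e ▸ dom c _ v)

theorem sa (x y : Completion D) : inner ℂ ((bc c).Phi (fun p => (rt p : ℂ)⁻¹) x) y =
    inner ℂ x ((bc c).Phi (fun p => (rt p : ℂ)⁻¹) y) := by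
  simp only [(bc c).adj bi, map_inv₀, Complex.conj_ofReal]

theorem nl (x : Completion D) : ‖(bc c).Phi (fun p => (rt p : ℂ)⁻¹) x‖ ≤ ‖x‖ :=
  ((bc c).norm_le bi zero_le_one x (.of_forall fun p => by
    rw [norm_inv, Complex.norm_real]
    exact inv_le_one_of_one_le₀ ((rt1 p).trans (le_abs_self _)))).trans_eq (one_mul _)

theorem p1 (v : D) : ‖v‖ ≤ ‖Pk c 1 v‖ := by
  rw [← Completion.norm_coe, ← p0 c v, ← sp]
  exact nl c _

theorem qf (v : D) : ‖v‖ ^ 2 + ‖inner ℂ v (Dv c.Q o v)‖ = ‖Pk c 1 v‖ ^ 2 := by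
  have e : inner ℂ (Pk c 1 v) (Pk c 1 v) = inner ℂ v (v - I • Dv c.Q o v) := by
    rw [← Completion.inner_coe v, ← p2, ← p0 c v, ← sp c 0, sa, sp]
  have l := p1 c v
  rw [inner_sub_right, inner_smul_right, inner_self_eq_norm_sq_to_K,
    inner_self_eq_norm_sq_to_K] at e
  have e2 : I * inner ℂ v (Dv c.Q o v) = -((‖Pk c 1 v‖ ^ 2 - ‖v‖ ^ 2 : ℝ) : ℂ) := by
    push_cast
    linear_combination e
  have := congrArg norm e2
  rw [norm_mul, Complex.norm_I, one_mul, norm_neg, Complex.norm_real,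
    Real.norm_of_nonneg (sub_nonneg.2 (by gcongr))] at this
  linarith

theorem ip (v w : D) : inner ℂ (Pk c 0 v) (Pk c 0 w) = inner ℂ v w := by
  rw [p0, p0, Completion.inner_coe]

/-- form bounds for one field -/
def FB (Q : Theory D) (B : Fld D) : Prop := ∀ f, In Set.univ f → ∃ C : ℝ, ∀ v,
  ‖inner ℂ v (B f v)‖ ≤ C * (‖v‖ ^ 2 + ‖inner ℂ v (Dv Q o v)‖)

variable {c}

/-- **linear energy bounds give form bounds** -/
theorem fb {B : Fld D} (hB : c.Q.fld B) (ad : SubConf.IsAdj B B) (h : Sl.LB c.Q B) : FB c.Q B :=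
  fun f hf => by
  have k : ∀ {f} (hf : In Set.univ f), ∃ C, ∀ v, ‖Pk c 0 (Fss.fl hB hf.1 v)‖ ≤ C * ‖Pk c 2 v‖ :=
    fun {f} hf => by
    obtain ⟨C, h⟩ := h f hf
    refine ⟨|C| * 3, fun v => ?_⟩
    have n1 : ‖v‖ ≤ ‖Pk c 2 v‖ := (p1 c v).trans (by rw [← sp]; exact nl c _)
    have n2 := norm_sub_le v (v - I • Dv c.Q o v)
    rw [sub_sub_cancel, norm_smul, Complex.norm_I, one_mul, ← Completion.norm_coe (v - _),
      ← p2] at n2
    rw [p0, Completion.norm_coe, mul_assoc]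
    exact (h v).trans (mul_le_mul (le_abs_self C) (by change _ + ‖Dv c.Q o v‖ ≤ _; linarith)
      (by positivity) (abs_nonneg C))
  obtain ⟨C, h1⟩ := k hf
  obtain ⟨C', h2⟩ := k (Ap.in_bar hf)
  simp only [qf]
  exact frm (sa c) (sp c) (dn c) (ip c) (fun v w => by
    have := ad _ v w (Ap.in_bar hf).1
    rwa [bar_bar] at this) h1 h2

/-- **form bounds give linear energy bounds** -/
theorem lb {B : Fld D} (hB : c.Q.fld B) (h : FB c.Q B) : Sl.LB c.Q B := fun f hf => by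
  have q := qf c
  have hf' := Ap.in_pd o hf
  obtain ⟨C, h1⟩ := h f hf
  obtain ⟨C', h2⟩ := h _ hf'
  obtain ⟨a, k⟩ := lin (sa c) (nl c) (sp c) (dn c) (ip c) (pn c)
    (A := Fss.fl hB hf.1) (A' := I • Fss.fl hB hf'.1) (C := C) (C' := C') (fun v => by
      rw [map_sub, map_smul]
      simp only [LinearMap.smul_apply, Fss.fl_apply]
      rw [EG.Wb.Dv_fld (Wb.dr c) o hB hf.1, smul_add, smul_neg]
      abel) (fun v => q v ▸ h1 v) fun v => by
      rw [LinearMap.smul_apply, inner_smul_right, norm_mul, Complex.norm_I, one_mul]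
      exact q v ▸ h2 v
  refine ⟨|a|, fun v => ?_⟩
  have := k v
  rw [p0, p2, Completion.norm_coe, Completion.norm_coe] at this
  refine this.trans (mul_le_mul (le_abs_self a) ((norm_sub_le _ _).trans_eq ?_) (norm_nonneg _)
    (abs_nonneg a))
  rw [norm_smul, Complex.norm_I, one_mul]
  rfl

end

end Vale.Agent.N352.E.Fb
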