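import Vale.Agent.P352X.SN.Tool
import Vale.Agent.P352.Bdl.B1
import Mathlib.Analysis.Complex.Hadamard

/-!
# N352, block E, part G1: decay far away gives polynomial decay on smooth vectors
-/

set_option linter.all false

open MeasureTheory Filter Topology Complex
open scoped ComplexConjugate Real

namespace Vale.Agent.N352.E.Tl

open Vale.Agent.P352X.SN

noncomputable section

/-- the two constants theorem in the half plane -/
lemma tl {F : ℂ → ℂ} (h1 : ContinuousOn F {z | 0 ≤ z.im}) (h2 : DifferentiableOn ℂ F {z | 0 < z.im})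
    {M a b c : ℝ} (hM : ∀ z : ℂ, 0 ≤ z.im → ‖F z‖ ≤ M) (ha : ∀ t : ℝ, c < t → ‖F t‖ ≤ a)
    (hb : ∀ t : ℝ, t < c → ‖F t‖ ≤ b) {z : ℂ} (hz : 0 < z.im) :
    ‖F z‖ ≤ a ^ (1 - arg (z - c) / π) * b ^ (arg (z - c) / π) := by
  have him : ∀ w : ℂ, (c + cexp (π * I * w)).im = Real.exp (-(π * w.im)) * Real.sin (π * w.re) := by
    intro w
    simp [exp_im]
  have hcl : ∀ w : ℂ, w.re ∈ Set.Icc (0 : ℝ) 1 → 0 ≤ (c + cexp (π * I * w)).im := fun w hw => by
    rw [him]
    exact mul_nonneg (Real.exp_pos _).le (Real.sin_nonneg_of_nonneg_of_le_pi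
      (mul_nonneg Real.pi_pos.le hw.1) (mul_le_of_le_one_right Real.pi_pos.le hw.2))
  have z0 : z - c ≠ 0 := fun h => by
    have := congrArg im h
    simp at this
    exact hz.ne' this
  have p0 : (π * I : ℂ) ≠ 0 := mul_ne_zero (ofReal_ne_zero.2 Real.pi_pos.ne') I_ne_zero
  have hre : (log (z - c) / (π * I)).re = arg (z - c) / π := by
    rw [div_re]
    simp [log_im, normSq_apply]
    field_simp
  have ha0 : 0 ≤ arg (z - c) := arg_nonneg_iff.2 (by simpa using hz.le)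
  have key := HadamardThreeLines.norm_le_interp_of_mem_verticalClosedStrip₀₁'
    (fun w => F (c + cexp (π * I * w))) (z := log (z - c) / (π * I)) (a := a) (b := b)
    ⟨by rw [hre]; positivity, by rw [hre]; exact (div_le_one Real.pi_pos).2 (arg_le_pi _)⟩
    ⟨h2.comp (by fun_prop) fun w hw => ?_, h1.comp (by fun_prop) fun w hw => hcl w ?_⟩
    ⟨M, by rintro _ ⟨w, hw, rfl⟩; exact hM _ (hcl w hw)⟩ (fun w hw => ?_) fun w hw => ?_
  · rwa [mul_div_cancel₀ _ p0, exp_log z0, add_sub_cancel, hre] at key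
  · rw [Set.mem_setOf_eq, him]
    exact mul_pos (Real.exp_pos _) (Real.sin_pos_of_pos_of_lt_pi (mul_pos Real.pi_pos hw.1)
      (mul_lt_of_lt_one_right Real.pi_pos hw.2))
  · rwa [HadamardThreeLines.verticalStrip, closure_preimage_re, closure_Ioo zero_ne_one] at hw
  · have e : c + cexp (π * I * w) = ((c + Real.exp (-(π * w.im)) : ℝ) : ℂ) := by
      have : w.re = 0 := hw
      apply Complex.ext <;> simp [exp_re, exp_im, this]
    rw [e]
    exact ha _ (lt_add_of_pos_right _ (Real.exp_pos _))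
  · have e : c + cexp (π * I * w) = ((c - Real.exp (-(π * w.im)) : ℝ) : ℂ) := by
      have : w.re = 1 := hw
      apply Complex.ext <;> simp [exp_re, exp_im, this, sub_eq_add_neg]
    rw [e]
    exact hb _ (sub_lt_self _ (Real.exp_pos _))

lemma arg_ge {T δ c : ℝ} (hδ : 0 < δ) (hc : |c| ≤ T) :
    δ / (T + δ) / π ≤ arg (δ * I - c) / π ∧ δ / (T + δ) / π ≤ 1 - arg (δ * I - c) / π := by
  have h0 : 0 ≤ arg (δ * I - c) := arg_nonneg_iff.2 (by simpa using hδ.le)
  have h1 : δ / (T + δ) ≤ Real.sin (arg (δ * I - c)) := by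
    rw [sin_arg, show (δ * I - c : ℂ).im = δ by simp]
    refine div_le_div_of_nonneg_left hδ.le (norm_pos_iff.2 fun h => ?_) ((norm_sub_le _ _).trans ?_)
    · have := congrArg im h
      simp at this
      exact hδ.ne' this
    · simp only [norm_mul, norm_real, norm_I, mul_one, Real.norm_eq_abs, abs_of_pos hδ]
      linarith
  refine ⟨div_le_div_of_nonneg_right (h1.trans (Real.sin_le h0)) Real.pi_pos.le, ?_⟩
  rw [one_sub_div Real.pi_pos.ne']
  refine div_le_div_of_nonneg_right (h1.trans ?_) Real.pi_pos.le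
  rw [← Real.sin_pi_sub]
  exact Real.sin_le (sub_nonneg.2 (arg_le_pi _))

/-- smallness on a half line propagates into the half plane -/
lemma tl2 {F : ℂ → ℂ} (h1 : ContinuousOn F {z | 0 ≤ z.im})
    (h2 : DifferentiableOn ℂ F {z | 0 < z.im}) {M x T δ ε : ℝ} (hT : 0 ≤ T) (hδ : 0 < δ)
    (hx : 0 ≤ x) (hε : ε = 1 ∨ ε = -1) (hM : ∀ z : ℂ, 0 ≤ z.im → ‖F z‖ ≤ M)
    (ha : ∀ t : ℝ, T < t → ‖F (ε * t : ℝ)‖ ≤ M * Real.exp (-x)) :
    ‖F (δ * I)‖ ≤ M * Real.exp (-(x * (δ / (T + δ) / π))) := by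
  have M0 : 0 ≤ M := (norm_nonneg _).trans (hM 0 le_rfl)
  have k : ∀ θ σ : ℝ, σ ≤ θ → θ ≤ 1 → 0 ≤ θ →
      (M * Real.exp (-x)) ^ θ * M ^ (1 - θ) ≤ M * Real.exp (-(x * σ)) := fun θ σ a b c => by
    rw [Real.mul_rpow M0 (Real.exp_pos _).le, mul_right_comm, ← Real.rpow_add' M0 (by simp),
      add_sub_cancel, Real.rpow_one, ← Real.exp_mul, neg_mul]
    gcongr
  have p : 0 ≤ δ / (T + δ) / π := by positivity
  rcases hε with rfl | rfl
  · obtain ⟨a, b⟩ := arg_ge hδ (c := T) (abs_of_nonneg hT).le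
    refine (tl h1 h2 hM (c := T) (fun t ht => by simpa using ha t ht)
      (fun t _ => hM t (by simp)) (by simpa using hδ)).trans ?_
    simpa only [sub_sub_cancel] using k _ _ b (by linarith) (by linarith)
  · obtain ⟨a, b⟩ := arg_ge hδ (c := -T) (T := T) (by rw [abs_neg, abs_of_nonneg hT])
    refine (tl h1 h2 hM (c := -T) (fun t _ => hM t (by simp))
      (fun t ht => by simpa using ha (-t) (by linarith)) (by simpa using hδ)).trans ?_
    rw [mul_comm]
    exact k _ _ a (by linarith) (by linarith)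

variable {X H : Type*} [MeasurableSpace X] [NormedAddCommGroup H] [InnerProductSpace ℂ H]
  [CompleteSpace H] (C : Calc X H) {r : X → ℝ}

/-- the symbols of the holomorphic semigroup -/
def ex (r : X → ℝ) (z : ℂ) (p : X) : ℂ := cexp (I * z * r p)

lemma ex_le (h0 : ∀ p, 0 ≤ r p) {z : ℂ} (hz : 0 ≤ z.im) (p : X) : ‖ex r z p‖ ≤ 1 := by
  rw [ex, norm_exp, Real.exp_le_one_iff]
  simpa using mul_nonneg hz (h0 p)

lemma ex_bd (hr : Measurable r) (h0 : ∀ p, 0 ≤ r p) {z : ℂ} (hz : 0 ≤ z.im) : Bd (ex r z) :=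
  ⟨by unfold ex; fun_prop, 1, ex_le h0 hz⟩

lemma step (hr : Measurable r) (h0 : ∀ p, 0 ≤ r p) (A : H →L[ℂ] H) (w : H) {M x T δ ε : ℝ}
    (hT : 0 ≤ T) (hδ : 0 < δ) (hx : 0 ≤ x) (hε : ε = 1 ∨ ε = -1) (hM : ‖A‖ * ‖w‖ ≤ M)
    (ha : ∀ t : ℝ, T < t → ‖A (C.Phi (ex r (ε * t : ℝ)) w)‖ ≤ M * Real.exp (-x)) :
    ‖A (C.Phi (ex r (δ * I)) w)‖ ≤ M * Real.exp (-(x * (δ / (T + δ) / π))) := by
  set y := A (C.Phi (ex r (δ * I)) w) with hy
  obtain ⟨h, hd, -, hh⟩ := C.rep w (star A y)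
  have e : ∀ z : ℂ, 0 ≤ z.im → ∫ p, conj (h p) * ex r z p ∂C.nu w =
      inner ℂ y (A (C.Phi (ex r z) w)) := fun z hz => by
    rw [← hh _ (Calc.Dom.of_bd (ex_bd hr h0 hz) w), Calc.Psi_bd (ex_bd hr h0 hz),
      ContinuousLinearMap.star_eq_adjoint, ContinuousLinearMap.adjoint_inner_left]
  have hi := hd.integrable.norm
  have hm : ∀ z : ℂ, AEStronglyMeasurable (fun p => conj (h p) * ex r z p) (C.nu w) := fun z =>
    (hd.cj.1.mul (by unfold ex; fun_prop)).aestronglyMeasurable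
  have hb : ∀ p (z : ℂ), 0 ≤ z.im → ‖conj (h p) * ex r z p‖ ≤ ‖h p‖ := fun p z hz => by
    rw [norm_mul, RCLike.norm_conj]
    exact mul_le_of_le_one_right (norm_nonneg _) (ex_le h0 hz p)
  have key := tl2 (F := fun z => ∫ p, conj (h p) * ex r z p ∂C.nu w) (M := ‖y‖ * M)
    (fun z _ => continuousWithinAt_of_dominated (bound := fun p => ‖h p‖) (.of_forall hm)
      (eventually_mem_nhdsWithin.mono fun z hz => .of_forall fun p => hb p z hz) hi
      (.of_forall fun p => Continuous.continuousWithinAt (by unfold ex; fun_prop)))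
    (fun z hz => (P352.differentiableAt_integral (isOpen_lt continuous_const continuous_im)
      (F := fun z p => conj (h p) * ex r z p) (bound := fun p => ‖h p‖) (fun z _ => hm z)
      (.of_forall fun p => Differentiable.differentiableOn (by unfold ex; fun_prop))
      (.of_forall fun p z hz => hb p z (le_of_lt hz)) hi hz).differentiableWithinAt) hT hδ hx hε
    (fun z hz => ?_) fun t ht => ?_
  · rw [e _ (by simpa using hδ.le), ← hy, inner_self_eq_norm_sq_to_K, norm_pow, RCLike.norm_ofReal,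
      abs_norm, sq, mul_assoc] at key
    rcases (norm_nonneg y).eq_or_lt with h3 | h3
    · rw [← h3]
      exact mul_nonneg (le_trans (by positivity) hM) (Real.exp_pos _).le
    · exact le_of_mul_le_mul_left key h3
  · rw [e z hz]
    refine (norm_inner_le_norm _ _).trans (mul_le_mul_of_nonneg_left ((A.le_opNorm _).trans
      (le_trans (mul_le_mul_of_nonneg_left ?_ (norm_nonneg _)) hM)) (norm_nonneg _))
    simpa using C.norm_le (ex_bd hr h0 hz) zero_le_one w (.of_forall (ex_le h0 hz))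
  · rw [e _ (by simp), mul_assoc]
    exact (norm_inner_le_norm _ _).trans (mul_le_mul_of_nonneg_left (ha t ht) (norm_nonneg _))

lemma alg (d E : H →L[ℂ] H) (v : H) {η : ℝ} (h : ∀ j, ‖d ((E ^ (j + 1)) v)‖ ≤ η) (k : ℕ) :
    ‖d v - d (((1 - E) ^ k) v)‖ ≤ 2 ^ k * η := by
  have η0 : 0 ≤ η := (norm_nonneg _).trans (h 0)
  have h1 : ∀ k j : ℕ, ‖d ((E ^ (j + 1) * (1 - E) ^ k : H →L[ℂ] H) v)‖ ≤ 2 ^ k * η := fun k => by
    induction k with
    | zero => simpa using h
    | succ k ih =>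
      intro j
      rw [pow_succ' (1 - E), ← mul_assoc, mul_sub, mul_one, ← pow_succ, sub_mul,
        ContinuousLinearMap.sub_apply, map_sub, pow_succ (2 : ℝ)]
      exact (norm_sub_le _ _).trans (by linarith [ih j, ih (j + 1)])
  have h2 : ∀ k, ‖d v - d (((1 - E) ^ k) v)‖ ≤ (2 ^ k - 1) * η := fun k => by
    induction k with
    | zero => simp
    | succ k ih =>
      have := h1 k 0
      rw [zero_add, pow_one] at this
      rw [pow_succ' (1 - E), sub_mul, one_mul, ContinuousLinearMap.sub_apply, map_sub,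
        ← sub_add, pow_succ (2 : ℝ)]
      exact (norm_add_le _ _).trans (by linarith)
  linarith [h2 k]

variable {a b : X → ℝ}

/-- **decay far away gives decay on smooth vectors** -/
theorem far (ha : Measurable a) (hb : Measurable b) (a0 : ∀ p, 0 ≤ a p) (b0 : ∀ p, 0 ≤ b p)
    {v : H} {k : ℕ} (hv : C.Dom (fun p => ((a p + b p : ℝ) : ℂ) ^ k) v) {T : ℝ} (hT : 0 ≤ T) :
    ∃ K : ℝ, ∀ (d : H →L[ℂ] H) (M x δ : ℝ), ‖d‖ ≤ 1 → ‖v‖ ≤ M → 0 ≤ x → 0 < δ → δ ≤ 1 →
      (∀ s t : ℝ, T < s → T < t →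
        ‖d (C.Phi (ex a (-1 * s : ℝ)) (C.Phi (ex b (1 * t : ℝ)) v))‖ ≤ M * Real.exp (-x)) →
      ‖d v‖ ≤ 2 ^ k * (M * Real.exp (-(x * (δ / (T + 1) / π) ^ 2))) + K * δ ^ k := by
  refine ⟨‖C.Psi (fun p => ((a p + b p : ℝ) : ℂ) ^ k) v‖, fun d M x δ hd hM hx hδ h1 h => ?_⟩
  have M0 : 0 ≤ M := (norm_nonneg _).trans hM
  have hr : Measurable fun p => a p + b p := ha.add hb
  have r0 : ∀ p, 0 ≤ a p + b p := fun p => add_nonneg (a0 p) (b0 p)
  have im0 : ∀ ρ : ℝ, 0 < ρ → 0 ≤ (ρ * I : ℂ).im := fun ρ h => by simpa using h.le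
  have n1 : ∀ {r : X → ℝ}, Measurable r → (∀ p, 0 ≤ r p) → ∀ z : ℂ, 0 ≤ z.im →
      ‖C.Phi (ex r z)‖ ≤ 1 := fun hr h0 z hz => C.opNorm_le (ex_bd hr h0 hz) zero_le_one (ex_le h0 hz)
  have h2 : ∀ ρ : ℝ, δ ≤ ρ → ‖d (C.Phi (ex (fun p => a p + b p) (ρ * I)) v)‖ ≤
      M * Real.exp (-(x * (δ / (T + 1) / π) ^ 2)) := fun ρ hρ => by
    have ρ0 := hδ.trans_le hρ
    have s1 := step C ha a0 d (C.Phi (ex b (ρ * I)) v) (M := M) hT ρ0
      (x := x * (ρ / (T + ρ) / π)) (by positivity) (.inr rfl)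
      ((mul_le_of_le_one_left (norm_nonneg _) hd).trans (((C.Phi _).le_opNorm _).trans
        ((mul_le_of_le_one_left (norm_nonneg _) (n1 hb b0 _ (im0 _ ρ0))).trans hM))) fun s hs =>
      step C hb b0 (d * C.Phi (ex a (-1 * s : ℝ))) v hT ρ0 hx (.inl rfl)
        ((mul_le_of_le_one_left (norm_nonneg _) ((norm_mul_le _ _).trans
          (mul_le_one₀ hd (norm_nonneg _) (n1 ha a0 _ (by simp))))).trans hM) (h s · hs)
    rw [← C.mul_apply (ex_bd ha a0 (im0 _ ρ0)) (ex_bd hb b0 (im0 _ ρ0))] at s1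
    have e : (fun p => ex a (ρ * I) p * ex b (ρ * I) p) = ex (fun p => a p + b p) (ρ * I) := by
      funext p
      simp only [ex, ← exp_add, ofReal_add, mul_add]
    rw [e] at s1
    refine s1.trans ?_
    have : δ / (T + 1) / π ≤ ρ / (T + ρ) / π := by
      refine div_le_div_of_nonneg_right ?_ Real.pi_pos.le
      rw [div_le_div_iff₀ (by positivity) (by positivity)]
      nlinarith [mul_nonneg hT (sub_nonneg.2 hρ), mul_nonneg ρ0.le (sub_nonneg.2 h1)]
    rw [mul_assoc, ← sq]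
    gcongr
  set ψ := ex (fun p => a p + b p) (δ * I) with hψ
  have bψ : Bd ψ := ex_bd hr r0 (im0 _ hδ)
  have h3 : ∀ j : ℕ, C.Phi ψ ^ (j + 1) =
      C.Phi (ex (fun p => a p + b p) ((((j : ℝ) + 1) * δ : ℝ) * I)) := fun j => by
    induction j with
    | zero => simp [hψ]
    | succ j ih =>
      rw [pow_succ, ih, ← C.mul (ex_bd hr r0 (im0 _ (by positivity))) bψ]
      congr 1
      funext p
      simp only [hψ, ex, ← exp_add]
      congr 1
      push_cast
      ring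
  have h4 : ∀ j : ℕ, Bd (fun p => (1 - ψ p) ^ j) ∧
      (1 - C.Phi ψ) ^ j = C.Phi fun p => (1 - ψ p) ^ j := fun j => by
    have b1 : Bd fun p => 1 - ψ p := (Bd.const 1).sub bψ
    induction j with
    | zero => exact ⟨by simpa using Bd.const 1, by simp [C.one]⟩
    | succ j ih =>
      simp only [pow_succ]
      exact ⟨ih.1.mul b1, by rw [C.mul ih.1 b1, C.sub (Bd.const 1) bψ, C.one, ih.2]⟩
  have h5 := alg d (C.Phi ψ) v (fun j => h3 j ▸ h2 _
    (le_mul_of_one_le_left hδ.le (by simp))) k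
  have h6 : ‖d (((1 - C.Phi ψ) ^ k) v)‖ ≤
      ‖C.Psi (fun p => ((a p + b p : ℝ) : ℂ) ^ k) v‖ * δ ^ k := by
    refine (d.le_opNorm _).trans ((mul_le_of_le_one_left (norm_nonneg _) hd).trans ?_)
    rw [(h4 k).2, ← Calc.Psi_bd (h4 k).1, mul_comm]
    refine Calc.norm_Psi_le hv (h4 k).1.1 (by positivity) (.of_forall fun p => ?_)
    rw [norm_pow, norm_pow, ← mul_pow, norm_real, Real.norm_of_nonneg (r0 p)]
    refine pow_le_pow_left₀ (norm_nonneg _) ?_ k
    have e : 1 - ψ p = ((1 - Real.exp (-(δ * (a p + b p))) : ℝ) : ℂ) := by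
      rw [hψ, ex, ofReal_sub, ofReal_exp]
      push_cast
      congr 2
      linear_combination (δ * (a p + b p) : ℂ) * I_mul_I
    rw [e, norm_real, Real.norm_of_nonneg (sub_nonneg.2 (Real.exp_le_one_iff.2
      (neg_nonpos.2 (mul_nonneg hδ.le (r0 p)))))]
    linarith [Real.add_one_le_exp (-(δ * (a p + b p)))]
  linarith [norm_sub_norm_le (d v) (d (((1 - C.Phi ψ) ^ k) v))]

end

end Vale.Agent.N352.E.Tl
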