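import Vale.Agent.N352.E.Wd
import Vale.Agent.N352.E.G1
import Vale.Agent.P352X.R.LIE
import Vale.Agent.P352X.R.KD.D

/-!
# N352, block E, part G2: smooth vectors and the closures of the fields
-/

set_option linter.all false

open MeasureTheory Filter Topology
open scoped SchwartzMap ComplexConjugate

namespace Vale.Agent.N352.E

open Vale.Agent.P352 Vale.Agent.P352.GF Vale.Agent.P352.BW Vale.Agent.P352.H246
open Vale.Agent.P352.H496 Vale.Agent.P352.H755 Vale.Agent.P352.H15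
open Vale.Agent.P352.SubConf (IsAdj)
open Vale.Agent.P352X Vale.Agent.P352X.EB
open UniformSpace (Completion)
open Complex (I)
open KDa (dS barL)
open SN (isPair_mdot Calc)

noncomputable section

variable {D : Type*} [NormedAddCommGroup D] [InnerProductSpace ℂ D]

namespace Gx

variable (c : Cf D)

/-- derivatives along translations -/
def Dr (y : V) (u u' : Completion D) : Prop := HasDerivAt (fun t : ℝ => Ut c.Q (t • y) u) u' 0

/-- vectors with a derivative in `S` -/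
def Dd (S : Submodule ℂ (Completion D)) (y : V) : Submodule ℂ (Completion D) where
  carrier := {u | ∃ u' ∈ S, Dr c y u u'}
  add_mem' := fun ⟨_, a, b⟩ ⟨_, a', b'⟩ =>
    ⟨_, S.add_mem a a', by simpa only [Dr, map_add] using b.fun_add b'⟩
  zero_mem' := ⟨0, S.zero_mem, by simpa only [Dr, map_zero] using hasDerivAt_const _ _⟩
  smul_mem' := fun z _ ⟨_, a, b⟩ =>
    ⟨_, S.smul_mem z a, by simpa only [Dr, map_smul] using b.fun_const_smul z⟩

/-- vectors all of whose derivatives are in `P` -/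
def Co (P : Submodule ℂ (Completion D)) : Submodule ℂ (Completion D) :=
  sSup {S | S ≤ P ∧ ∀ y, S ≤ Dd c S y}

/-- smooth vectors -/
abbrev Sm : Submodule ℂ (Completion D) := Co c ⊤

/-- the calculus of the translations -/
def bc : Kin.TC c.Q := (SN.exists_BC isPair_mdot ((funext₂ fun y z =>
  Ug_apply c.Q one_pos H496.isLor_one y z : (fun y z => Ut c.Q y z) = _) ▸ EG.SGx.urep c.Q)).some

variable {c} {P S : Submodule ℂ (Completion D)} {u u' v w : Completion D} {y : V} {f : Fn}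

lemma ue (y : V) (z : Completion D) : Ue c.Q 1 GF.one y z = Ut c.Q y z :=
  (Ug_apply c.Q one_pos H496.isLor_one y z).symm

lemma utc (y : V) (v : D) : Ut c.Q y v = (c.Q.U 1 GF.one y v : D) :=
  Grp.coe one_pos H496.isLor_one y v

lemma ut_ut (a b : V) (z : Completion D) : Ut c.Q a (Ut c.Q b z) = Ut c.Q (a + b) z := by
  rw [(sg_row c).ut]; rfl

lemma ut0 (z : Completion D) : Ut c.Q 0 z = z := by rw [(sg_row c).ut0]; rfl

lemma ut_adj (a : V) (z w : Completion D) :
    inner ℂ z (Ut c.Q a w) = inner ℂ (Ut c.Q (-a) z) w := by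
  rw [← gr_inn (c := c) a (Ut c.Q (-a) z), ut_ut, add_neg_cancel, ut0]

lemma dd_mono (h : S ≤ P) : Dd c S y ≤ Dd c P y := fun _ ⟨a, b, d⟩ => ⟨a, h b, d⟩

lemma co_le : Co c P ≤ P := sSup_le fun _ h => h.1

lemma le_co (h : S ≤ P) (h' : ∀ y, S ≤ Dd c S y) : S ≤ Co c P := le_sSup ⟨h, h'⟩

lemma co_dd (y : V) : Co c P ≤ Dd c (Co c P) y :=
  sSup_le fun _ h => (h.2 y).trans (dd_mono (le_sSup h))

lemma co_sm : Co c P ≤ Sm c := le_co le_top co_dd

lemma co_span {A : Set (Completion D)} (h : A ⊆ P)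
    (h' : ∀ y, A ⊆ Dd c (Submodule.span ℂ A) y) : A ⊆ Co c P :=
  Submodule.subset_span.trans (le_co (Submodule.span_le.2 h) fun y => Submodule.span_le.2 (h' y))

lemma exD {x z : Completion D}
    (h : ∀ w : D, inner ℂ (w : Completion D) x = inner ℂ (w : Completion D) z) : x = z :=
  Completion.denseRange_coe.eq_of_inner_right ℂ h

lemma U_tr (g : Sh c) (y : V) (z : Completion D) :
    g.U c (Ut c.Q y z) = Ut c.Q (sim g.s g.L 0 y) (g.U c z) := by
  have h : ∀ z, Ug c.Q g.s g.L g.a (Ut c.Q y z) =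
      Ut c.Q (sim g.s g.L 0 y) (Ug c.Q g.s g.L g.a z) := fun z => by
    refine Completion.induction_on z (isClosed_eq (by fun_prop) (by fun_prop)) fun v => ?_
    rw [utc, Grp.coe g.hs g.hL, Grp.coe g.hs g.hL, utc,
      (sg_row c).mul1 _ _ _ _ _ _ v g.hs one_pos g.hL H496.isLor_one (.inr rfl),
      (sg_row c).mul1 _ _ _ _ _ _ v one_pos g.hs H496.isLor_one g.hL (.inl rfl)]
    simp only [Fss.sim_dil, zero_add, one_smul, mul_one, one_mul, sim_zero g.a y]
    simp only [GF.one, N86.c1_bas]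
  rcases SGx.cas g with e | e <;> rw [e]
  · exact h z
  · have := DFunLike.congr_fun (SGx.gU0 c ⟨1, GF.one, sim g.s g.L 0 y, one_pos, H496.isLor_one⟩)
    exact (congrArg c.Γ (h z)).trans (this _)

lemma co_U (g : Sh c) (h : ∀ u ∈ P, g.U c u ∈ P) (hu : u ∈ Co c P) : g.U c u ∈ Co c P := by
  refine le_co (S := (Co c P).map (g.U c : _ →ₗ[ℂ] _)) ?_ (fun y => ?_) ⟨u, hu, rfl⟩
  · rintro _ ⟨u, hu, rfl⟩
    exact h u (co_le hu)
  rintro _ ⟨u, hu, rfl⟩
  let e := (conf_sim g.hs g.hL).cle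
  obtain ⟨u', a, b⟩ := co_dd (e.symm y) hu
  refine ⟨_, ⟨u', a, rfl⟩, (((g.U c).restrictScalars ℝ).hasFDerivAt.comp_hasDerivAt
    (0 : ℝ) b).congr_of_eventuallyEq (.of_forall fun t => ?_)⟩
  show _ = g.U c (Ut c.Q _ u)
  rw [U_tr, show sim g.s g.L 0 (t • e.symm y) = e (t • e.symm y) from rfl, map_smul,
    e.apply_symm_apply]
  rfl

lemma sm_U (g : Sh c) (hu : u ∈ Sm c) : g.U c u ∈ Sm c := co_U g (fun _ _ => trivial) hu

lemma gm_U (z : Completion D) : (Sh.gm c true).U c z = c.Γ z := by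
  rw [((sg_row c).gm true).1]; rfl

lemma sm_G (hu : u ∈ Sm c) : c.Γ u ∈ Sm c := gm_U u ▸ sm_U (Sh.gm c true) hu

/-- the inclusion -/
abbrev io (D : Type*) [NormedAddCommGroup D] [InnerProductSpace ℂ D] : D →L[ℂ] Completion D :=
  Completion.toComplL

lemma sm_coe (v : D) : (v : Completion D) ∈ Sm c := by
  refine le_co (S := LinearMap.range (io D : D →ₗ[ℂ] Completion D)) le_top (fun y => ?_) ⟨v, rfl⟩
  rintro _ ⟨v, rfl⟩
  have h := c.hN.der (fun _ => 1) (fun _ => GF.one) (fun t => t • y) (fun _ => y) v rfl rfl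
    (zero_smul _ _) (fun _ => ⟨one_pos, H496.isLor_one⟩) fun n x => by
      simpa [Fss.sim_dil] using ((hasDerivAt_id' (0 : ℝ)).mul_const (y n)).add_const (x n)
  exact ⟨_, ⟨_, rfl⟩, (((io D).restrictScalars ℝ).hasFDerivAt.comp_hasDerivAt
    (0 : ℝ) h).congr_of_eventuallyEq (.of_forall fun t => utc _ _)⟩

lemma dr_psi (h : Dr c y u u') : (bc c).Dom (fun p => (GF.mdot p y : ℂ)) u ∧
    u' = I • (bc c).Psi (fun p => (GF.mdot p y : ℂ)) u :=
  (bc c).dom_of_hasDerivAt isPair_mdot (by simpa only [ue, Dr] using h)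

/-- the weights -/
def wt (y : V) (k : ℕ) (p : V) : ℂ := (1 + (GF.mdot p y : ℂ)) ^ k

lemma wt_meas (y : V) (k : ℕ) : Measurable (wt y k) :=
  (measurable_const.add (Complex.measurable_ofReal.comp (isPair_mdot.meas y))).pow_const k

lemma dom_wt (y : V) (k : ℕ) (hu : u ∈ Sm c) : (bc c).Dom (wt y k) u := by
  induction k generalizing u with
  | zero => exact Calc.Dom.of_bd (SN.Bd.const (1 : ℂ)) u
  | succ k ih =>
    obtain ⟨u', a, b⟩ := co_dd y hu
    obtain ⟨d, e⟩ := dr_psi b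
    have h := (ih a).smul_vec (-I)
    rw [e, smul_smul, neg_mul, Complex.I_mul_I, neg_neg, one_smul,
      Calc.dom_Psi d (wt_meas y k)] at h
    have : wt y (k + 1) = fun p => wt y k p + wt y k p * GF.mdot p y := funext fun p => by
      rw [wt, wt, pow_succ, mul_add, mul_one]
    rw [this]
    exact (ih hu).add h

lemma cone_le {p : V} (hp : p ∈ Kin.Cone) (m : Ix) :
    |GF.mdot p (bas m 1)| ≤ GF.mdot p (bas o 1) := by
  obtain ⟨h1, h2⟩ := hp
  rw [P352X.mdot_eq] at h2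
  change 0 ≤ p 0 at h1
  refine abs_le_of_sq_le_sq' ?_ ?_ |> abs_le.2 <;> fin_cases m <;> simp [P352X.mdot_eq, bas, o, h1] <;>
    nlinarith [sq_nonneg (p 1), sq_nonneg (p 2), sq_nonneg (p 3)]

lemma en_le (k : ℕ) (v : D) : en c.Q k v ≤ 5 ^ k * ‖(bc c).Psi (wt (bas o 1) k) v‖ := by
  induction k generalizing v with
  | zero =>
    rw [show wt (bas o 1) 0 = fun _ => 1 from funext fun _ => pow_zero _,
      Calc.Psi_bd (SN.Bd.const 1), (bc c).one]
    simp [en]
  | succ k ih =>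
    have hd := fun k => dom_wt (c := c) (bas o 1) k (sm_coe v)
    have h0 : ∀ {g : V → ℂ}, Measurable g → (∀ p ∈ Kin.Cone, ‖g p‖ ≤ 1 + GF.mdot p (bas o 1)) →
        ‖(bc c).Psi (fun p => wt (bas o 1) k p * g p) v‖ ≤
          ‖(bc c).Psi (wt (bas o 1) (k + 1)) v‖ := fun hg h => by
      refine (Calc.norm_Psi_le (hd _) ((wt_meas _ k).mul hg) zero_le_one
        ((Kin.cone (bc c) v).mono fun p hp => ?_)).trans_eq (one_mul _)
      show ‖wt _ k p * _‖ ≤ _
      rw [one_mul, wt, wt, pow_succ, norm_mul, norm_mul]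
      refine mul_le_mul_of_nonneg_left ((h p hp).trans ?_) (norm_nonneg _)
      exact (le_abs_self _).trans (by norm_cast)
    have h1 := h0 measurable_const (g := fun _ => 1) fun p hp => by
      simpa using (abs_nonneg _).trans (cone_le hp o)
    have h2 : ∀ m, en c.Q k (Dv c.Q m v) ≤ 5 ^ k * ‖(bc c).Psi (wt (bas o 1) (k + 1)) v‖ :=
      fun m => by
      have b : Dr c (bas m 1) v (Dv c.Q m v : D) := (((io D).restrictScalars ℝ).hasFDerivAt
        |>.comp_hasDerivAt (0 : ℝ) ((wb_row c).der m v)).congr_of_eventuallyEq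
          (.of_forall fun t => (utc _ _).trans (by congr 2; funext n; simp [bas]))
      obtain ⟨d, e⟩ := dr_psi b
      have h := (dom_wt (c := c) (bas o 1) k (sm_coe (Dv c.Q m v))).smul_vec (-I)
      rw [e, smul_smul, neg_mul, Complex.I_mul_I, neg_neg, one_smul] at h
      refine (ih _).trans (mul_le_mul_of_nonneg_left ?_ (by positivity))
      rw [e, Calc.Psi_smul_vec _ h, norm_smul, Complex.norm_I, one_mul,
        Calc.Psi_Psi d (wt_meas _ k) ((Calc.dom_Psi d (wt_meas _ k)).1 h)]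
      exact h0 d.1 fun p hp => by
        rw [Complex.norm_real]
        exact (cone_le hp m).trans (by linarith)
    have h3 := Finset.sum_le_sum fun m (_ : m ∈ Finset.univ) => h2 m
    simp only [mul_one] at h1
    simp only [Finset.sum_const, Finset.card_univ, Fintype.card_fin, nsmul_eq_mul] at h3
    rw [en, pow_succ]
    push_cast at h3
    nlinarith [ih v, mul_le_mul_of_nonneg_left h1 (show (0 : ℝ) ≤ 5 ^ k by positivity)]

/-- smooth vectors are in the domains of the closures -/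
lemma ex_cl (hE : EBd c.Q) (p : Lb c) (hf : In Set.univ f) (hu : u ∈ Sm c) :
    ∃ (s : ℕ → D) (ζ : Completion D), Tendsto (fun n => (s n : Completion D)) atTop (𝓝 u) ∧
      Tendsto (fun n => ((p.B f (s n) : D) : Completion D)) atTop (𝓝 ζ) := by
  obtain ⟨k, hk⟩ := hE p.B p.h
  obtain ⟨C, hC⟩ := hk f hf
  obtain ⟨x, h1, h2, h3⟩ := (bc c).core isPair_mdot
    (D := LinearMap.range (io D : D →ₗ[ℂ] Completion D))
    (by rintro y _ ⟨v, rfl⟩; exact ⟨_, ((ue _ _).trans (utc y v)).symm⟩)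
    (by rintro _ ⟨v, rfl⟩; exact dom_wt (bas o 1) k (sm_coe v)) (dom_wt (bas o 1) k hu)
    (Completion.denseRange_coe u)
  choose s hs using h1
  obtain rfl : (fun n => (s n : Completion D)) = x := funext hs
  have h4 := (cauchySeq_iff_tendsto_dist_atTop_0.1 h3.cauchySeq).const_mul (|C| * 5 ^ k)
  rw [mul_zero] at h4
  refine (cauchySeq_tendsto_of_complete (cauchySeq_iff_tendsto_dist_atTop_0.2
    (squeeze_zero (fun _ => dist_nonneg) (fun n => ?_) h4))).elim fun ζ h => ⟨s, ζ, h2, h⟩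
  rw [Completion.dist_eq, dist_eq_norm, dist_eq_norm, ← Calc.Psi_sub_vec (dom_wt _ k (sm_coe _))
    (dom_wt _ k (sm_coe _)), ← Completion.coe_sub, ← Fss.fl_apply p.h hf.1,
    ← Fss.fl_apply p.h hf.1, ← map_sub, mul_assoc]
  exact (hC _).trans (mul_le_mul (le_abs_self C) (en_le k _)
    ((norm_nonneg _).trans ((wb_row c).le k _)) (abs_nonneg C))

open Classical in
/-- the closure of a field on smooth vectors -/
def Bs (p : Lb c) (f : Fn) : Completion D →ₗ[ℂ] Completion D :=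
  if h : ∃ L : Completion D →ₗ[ℂ] Completion D, ∀ u ∈ Sm c, ∀ w : D,
    inner ℂ (w : Completion D) (L u) = inner ℂ ((p.B' (bar f) w : D) : Completion D) u
  then h.choose else 0

lemma adj' (p : Lb c) (hf : IsTest f) (v w : D) :
    inner ℂ (w : Completion D) (p.B f v : D) = inner ℂ ((p.B' (bar f) w : D) : Completion D) v := by
  rw [Completion.inner_coe, Completion.inner_coe, ← inner_conj_symm, p.a _ _ _ hf, inner_conj_symm]

/-- weak derivatives are derivatives -/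
lemma wd {S : Set (Completion D)} (hS : Dense S) (hi : ∀ a, ∀ w ∈ S, Ut c.Q a w ∈ S)
    (h : ∀ w ∈ S, HasDerivAt (fun t : ℝ => inner ℂ w (Ut c.Q (t • y) u)) (inner ℂ w u') 0) :
    Dr c y u u' := by
  have hc : Continuous fun r : ℝ => Ut c.Q (r • y) u' :=
    ((sg_row c).utc u').comp (continuous_id.smul continuous_const)
  have h1 := (hc.integral_hasStrictDerivAt 0 0).hasDerivAt.add_const u
  rw [zero_smul, ut0] at h1
  refine h1.congr_of_eventuallyEq (.of_forall fun t => eq_add_of_sub_eq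
    (hS.eq_of_inner_right ℂ fun w hw => ?_))
  rw [← innerSL_apply_apply (𝕜 := ℂ) w (∫ r in (0 : ℝ)..t, _),
    ← (innerSL ℂ w).intervalIntegral_comp_comm (hc.intervalIntegrable _ _),
    intervalIntegral.integral_eq_sub_of_hasDerivAt (f := fun r => inner ℂ w (Ut c.Q (r • y) u))
      (f' := fun r => innerSL ℂ w (Ut c.Q (r • y) u')) (fun r _ => ?_)
      (((innerSL ℂ w).continuous.comp hc).intervalIntegrable _ _), zero_smul, ut0, inner_sub_right]
  have := (h _ (hi (-(r • y)) w hw))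
  rw [← sub_self r] at this
  simpa only [← ut_adj, ut_ut, ← add_smul, add_sub_cancel, innerSL_apply_apply] using
    this.comp_sub_const r r

lemma der_tsl (Λ : Sch →L[ℂ] Completion D) (a : V) (F : Sch) :
    HasDerivAt (fun t : ℝ => Λ (ST.tsl (t • a) F)) (-Λ (dS a F)) 0 := by
  have d := (Λ.continuous.tendsto _).comp (Lie.der (F := F) (F' := -dS a F)
    (Ft := fun t => ST.tsl (t • a) F) (g := fun _ => 1) (a := fun t => -(t • a))
    (hasDerivAt_const _ _) ((hasDerivAt_id' (0 : ℝ)).smul_const a).fun_neg rfl (by simp)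
    (.of_forall fun t x => by simp [ST.tsl_apply, sub_eq_add_neg]) fun x => by
      simp only [zero_apply, zero_add, one_smul, map_neg]; rfl)
  have e : ST.tsl 0 F = F := SchwartzMap.ext fun x => by simp [ST.tsl_apply]
  rw [hasDerivAt_iff_tendsto_slope_zero, ← map_neg]
  refine d.congr fun t => ?_
  simp [e]

lemma dr_gen {S : Set (Completion D)} (hS : Dense S) (hi : ∀ a, ∀ w ∈ S, Ut c.Q a w ∈ S)
    {ζ ζ1 ζ2 : Completion D} (G : Sch) (hu : Dr c y u u')
    (h : ∀ w ∈ S, ∃ Λ : Sch →L[ℂ] Completion D, (∀ᶠ t : ℝ in 𝓝 0, inner ℂ w (Ut c.Q (t • y) ζ) =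
      inner ℂ (Λ (ST.tsl (t • y) G)) (Ut c.Q (t • y) u)) ∧ inner ℂ w ζ1 = inner ℂ (Λ G) u' ∧
      inner ℂ w ζ2 = inner ℂ (Λ (dS y G)) u) : Dr c y ζ (ζ1 - ζ2) := by
  refine wd hS hi fun w hw => ?_
  obtain ⟨Λ, h1, h2, h3⟩ := h w hw
  have e : ST.tsl 0 G = G := SchwartzMap.ext fun x => by simp [ST.tsl_apply]
  have := ((der_tsl Λ y G).inner ℂ hu).congr_of_eventuallyEq h1
  rwa [zero_smul, e, ut0, inner_neg_left, ← sub_eq_add_neg, ← h2, ← h3, ← inner_sub_right] at this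

/-- covariance for single similitudes -/
def Rel (g : Sh c) (p : Lb c) {n : ℕ} (κ : Fin n → ℂ) (q : Fin n → Lb c) : Prop :=
  ∀ f (v w : D), IsTest f → g.U c v = w →
    ((p.B' f w : D) : Completion D) = ∑ i, conj (κ i) • g.U c ((q i).B' (g.pull f) v : D)

lemma U_inn (g : Sh c) (x z : Completion D) : inner ℂ (g.U c x) (g.U c z) = inner ℂ x z :=
  ContinuousLinearMap.inner_map_map_of_mem_unitary (SGx.uni g) x z

lemma U_inv (g : Sh c) (z : Completion D) : g.U c (g.inv.U c z) = z := by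
  rw [SGx.U_inv]; exact DFunLike.congr_fun (SGx.uni g).2 z

lemma inv_U (g : Sh c) (z : Completion D) : g.inv.U c (g.U c z) = z := by
  rw [SGx.U_inv]; exact DFunLike.congr_fun (SGx.uni g).1 z

lemma U_mul (g h : Sh c) (z : Completion D) : (g.mul h).U c z = g.U c (h.U c z) := by
  rw [SGx.U_mul]; rfl

lemma U_nrm (g : Sh c) (z : Completion D) : ‖g.U c z‖ = ‖z‖ :=
  ContinuousLinearMap.norm_map_of_mem_unitary (SGx.uni g) z

variable (hE : EBd c.Q) (p : Lb c)
include hE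

lemma bs_adj (hf : In Set.univ f) (hu : u ∈ Sm c) (w : D) : inner ℂ (w : Completion D) (Bs p f u) =
    inner ℂ ((p.B' (bar f) w : D) : Completion D) u := by
  have e : ∀ u : Sm c, ∃ ζ, ∀ w : D, inner ℂ (w : Completion D) ζ =
      inner ℂ ((p.B' (bar f) w : D) : Completion D) (u : Completion D) := fun u => by
    obtain ⟨s, ζ, h1, h2⟩ := ex_cl hE p hf u.2
    exact ⟨ζ, fun w => tendsto_nhds_unique (tendsto_const_nhds.inner h2)
      ((tendsto_const_nhds.inner h1).congr fun n => (adj' p hf.1 _ _).symm)⟩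
  choose ζ hζ using e
  obtain ⟨L, hL⟩ := LinearMap.exists_extend (K := ℂ) (p := Sm c) ⟨⟨ζ, fun a b => exD fun w => by
    rw [inner_add_right, hζ, hζ, hζ, Submodule.coe_add, inner_add_right]⟩,
    fun z a => exD fun w => by
      rw [inner_smul_right, hζ, hζ, Submodule.coe_smul, inner_smul_right]; rfl⟩
  have h : ∃ L : Completion D →ₗ[ℂ] Completion D, ∀ u ∈ Sm c, ∀ w : D,
      inner ℂ (w : Completion D) (L u) = inner ℂ ((p.B' (bar f) w : D) : Completion D) u :=
    ⟨L, fun u hu w => (congrArg _ (DFunLike.congr_fun hL ⟨u, hu⟩)).trans (hζ ⟨u, hu⟩ w)⟩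
  rw [Bs, dif_pos h]
  exact h.choose_spec u hu w

lemma bs_coe (hf : In Set.univ f) (v : D) : Bs p f v = (p.B f v : D) :=
  exD fun w => by rw [bs_adj hE p hf (sm_coe v), adj' p hf.1]

lemma bs_apx (hf : In Set.univ f) (hu : u ∈ Sm c) :
    ∃ s : ℕ → D, Tendsto (fun n => (s n : Completion D)) atTop (𝓝 u) ∧
      Tendsto (fun n => ((p.B f (s n) : D) : Completion D)) atTop (𝓝 (Bs p f u)) := by
  obtain ⟨s, ζ, h1, h2⟩ := ex_cl hE p hf hu
  refine ⟨s, h1, (exD fun w => ?_ : ζ = Bs p f u) ▸ h2⟩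
  rw [bs_adj hE p hf hu]
  exact tendsto_nhds_unique (tendsto_const_nhds.inner h2)
    ((tendsto_const_nhds.inner h1).congr fun n => (adj' p hf.1 _ _).symm)

/-- weak commutation passes to the closures -/
lemma bs_wk (hf : In Set.univ f) {X : Completion D →L[ℂ] Completion D} (h : ∀ v w : D,
    inner ℂ ((p.B' (bar f) w : D) : Completion D) (X v) =
      inner ℂ (w : Completion D) (X (p.B f v : D)))
    (hu : u ∈ Sm c) (hw : w ∈ Sm c) :
    inner ℂ (Bs p.dag (bar f) w) (X u) = inner ℂ w (X (Bs p f u)) := by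
  obtain ⟨s, h1, h2⟩ := bs_apx hE p hf hu
  obtain ⟨r, h3, h4⟩ := bs_apx hE p.dag (Ap.in_bar hf) hw
  exact tendsto_nhds_unique (h4.inner ((X.continuous.tendsto _).comp h1))
    ((h3.inner ((X.continuous.tendsto _).comp h2)).congr fun n => (h _ _).symm)

lemma bs_herm (hf : In Set.univ f) (hu : u ∈ Sm c) (hw : w ∈ Sm c) :
    inner ℂ (Bs p.dag (bar f) w) u = inner ℂ w (Bs p f u) :=
  bs_wk hE p hf (X := 1) (fun v w => (adj' p hf.1 v w).symm) hu hw

lemma bs_dr (hf : In Set.univ f) (hu : u ∈ Sm c) (hu' : u' ∈ Sm c) (h : Dr c y u u') :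
    Dr c y (Bs p f u) (Bs p f u' - Bs p (dv y f) u) := by
  obtain ⟨F, rfl⟩ := hf.1
  refine dr_gen Completion.denseRange_coe (by rintro a _ ⟨v, rfl⟩; exact ⟨_, (utc a v).symm⟩)
    (barL F) h ?_
  rintro _ ⟨w, rfl⟩
  refine ⟨⟨EG.H.JBp.mkL (fun g => ((p.B' (ev g) w : D) : Completion D)) fun f g z => by
    rw [← Completion.coe_smul, ← Completion.coe_add, ← c.Q.lin _ _ _ z w p.h' ⟨f, rfl⟩ ⟨g, rfl⟩]
    rfl, (Completion.continuous_coe D).comp (c.Q.cont _ w p.h')⟩, .of_forall fun t => ?_,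
    bs_adj hE p hf hu' w, (bs_adj hE p (Ap.in_dv y hf) hu w).trans ?_⟩
  · rw [ut_adj, utc, bs_adj hE p hf hu, c.Q.transl _ _ _ _ p.h' (Ap.test_bar hf.1), ← utc, ← ut_adj]
    congr 3
    funext x
    simp only [Fss.sim_dil, ev, one_smul, neg_add_eq_sub]
    rfl
  · congr 3
    rw [KDa.ev_dS]
    exact funext fun x => (Ap.dv_bar F.differentiableAt y).symm

lemma bs_co (h : ∀ f, In Set.univ f → ∀ u ∈ Co c P, Bs p f u ∈ P) (hf : In Set.univ f)
    (hu : u ∈ Co c P) : Bs p f u ∈ Co c P := by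
  refine co_span (A := {z | ∃ f, In Set.univ f ∧ ∃ u ∈ Co c P, z = Bs p f u}) ?_ (fun y => ?_)
    ⟨f, hf, u, hu, rfl⟩
  · rintro _ ⟨f, hf, u, hu, rfl⟩
    exact h f hf u hu
  rintro _ ⟨f, hf, u, hu, rfl⟩
  obtain ⟨u', a, b⟩ := co_dd y hu
  exact ⟨_, Submodule.sub_mem _ (Submodule.subset_span ⟨f, hf, u', a, rfl⟩)
    (Submodule.subset_span ⟨_, Ap.in_dv y hf, u, hu, rfl⟩), bs_dr hE p hf (co_sm hu) (co_sm a) b⟩

lemma bs_sm (hf : In Set.univ f) (hu : u ∈ Sm c) : Bs p f u ∈ Sm c :=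
  bs_co hE p (fun _ _ _ _ => trivial) hf hu

lemma bs_loc (q : Lb c) {g : Fn} (hf : In Set.univ f) (hg : In Set.univ g) (hs : GF.Sep f g)
    (hu : u ∈ Sm c) : Bs p f (Bs q g u) = sg (p.e && q.e) • Bs q g (Bs p f u) := exD fun w => by
  rw [inner_smul_right, bs_adj hE p hf (bs_sm hE q hg hu), bs_adj hE q hg hu,
    bs_adj hE q hg (bs_sm hE p hf hu), bs_adj hE p hf hu,
    Bas.comm _ _ _ _ _ _ w q.h' p.h' q.dag.par p.dag.par (Ap.test_bar hg.1) (Ap.test_bar hf.1)
      (by rw [GF.Sep, H246.tsupport_bar, H246.tsupport_bar]; exact EG.Bas.sep_symm hs),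
    Completion.coe_smul, inner_smul_left, conj_sg, Bool.and_comm]
  rfl

lemma bs_cov {g : Sh c} {n : ℕ} {κ : Fin n → ℂ} {q : Fin n → Lb c} (h : Rel g p κ q)
    (hf : In Set.univ f) (hu : u ∈ Sm c) :
    Bs p f (g.U c u) = ∑ i, κ i • g.U c (Bs (q i) (g.pull f) u) := exD fun w => by
  obtain ⟨v, hv⟩ := (sg_row c).sur g.inv w
  have e : g.U c v = w := by rw [← hv, U_inv]
  rw [bs_adj hE p hf (sm_U g hu), h _ v w (Ap.test_bar hf.1) e, ← e, sum_inner, inner_sum]
  refine Finset.sum_congr rfl fun i _ => ?_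
  rw [inner_smul_left, inner_smul_right, U_inn, U_inn, Complex.conj_conj,
    bs_adj hE _ (Ap.in_univ' ((sg_row c).inn g _ f hf)) hu]
  rfl

lemma bs_par (hf : In Set.univ f) (hu : u ∈ Sm c) :
    Bs p f (c.Γ u) = sg p.e • c.Γ (Bs p f u) := exD fun w => by
  rw [bs_adj hE p hf (sm_G hu), inner_smul_right, ← (gd c).gi, ← (gd c).gi, c.hN.ext, c.hN.ext,
    bs_adj hE p hf hu]
  erw [Bas.pa' p.dag.par (Ap.test_bar hf.1)]
  rw [Completion.coe_smul, inner_smul_left, conj_sg]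
  rfl

end Gx

end

end Vale.Agent.N352.E
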