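import Vale.Agent.N352.E.G2

/-!
# N352, block E, part G3: the domain of good vectors
-/

set_option linter.all false

open MeasureTheory Filter Topology
open scoped SchwartzMap ComplexConjugate

namespace Vale.Agent.N352.E

open Vale.Agent.P352 Vale.Agent.P352.GF Vale.Agent.P352.BW Vale.Agent.P352.H246
open Vale.Agent.P352.H496 Vale.Agent.P352.H755 Vale.Agent.P352.H15
open Vale.Agent.P352.SubConf (IsAdj)
open Vale.Agent.P352X Vale.Agent.P352X.EB
open UniformSpace (Completion)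
open Complex (I)
open SN (isPair_mdot Calc)
open Bornology (IsBounded)

noncomputable section

variable {D : Type*} [NormedAddCommGroup D] [InnerProductSpace ℂ D]

/-- **The hypotheses of block G**: energy bounds, and local algebras for the potential -/
structure Nx (D : Type*) [NormedAddCommGroup D] [InnerProductSpace ℂ D] extends Cf D where
  T : Ix → Ix → Fld D
  l : Fn → Completion D
  N : Set V → VonNeumannAlgebra (Completion D)
  hT : Q.IsStress T
  hl : IsPot Q T l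
  hE : EBd Q
  cv : COV0 toCf
  mono : ∀ O O', O ⊆ O' → ∀ X ∈ N O, X ∈ N O'
  cov : ∀ (g : Sh toCf) O, ∀ X ∈ N O, g.U toCf * X * star (g.U toCf) ∈ N (g.act '' O)
  gam : ∀ O, ∀ X ∈ N O, Γ * X = X * Γ
  wk : ∀ X ∈ N W0, ∀ B B' f, Q.fld B → IsAdj B B' → In W1 f → ∀ v w : D,
    inner ℂ ((B' (bar f) w : D) : Completion D) (X v) = inner ℂ (w : Completion D) (X (B f v : D))
  loc : ∀ X ∈ N W0, ∀ Y ∈ N W1, X * Y = Y * X
  tm : ∃ k, ∀ f, In W0 f → Tm (N W0) (om Q) k (l f) (l (bar f))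

namespace Gx

section geo

open Geo

/-- directions of recession -/
def Rec (O : Set V) (d : V) : Prop :=
  ∀ K, IsBounded K → ∀ᶠ t : ℝ in atTop, ∀ z ∈ K, z + t • d ∈ O

lemma rec_of {a b d : V} (α β : ℝ) (h1 : GF.mdot b d < 0) (h2 : 0 < GF.mdot a d) :
    Rec {z | GF.mdot b z < β ∧ α < GF.mdot a z} d := fun K hK => by
  obtain ⟨R, hR⟩ := ((mdL a).lipschitz.isBounded_image hK).subset_ball 0
  obtain ⟨R', hR'⟩ := ((mdL b).lipschitz.isBounded_image hK).subset_ball 0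
  filter_upwards [ev_gt h2 (-R) α, ev_lt (neg_pos.2 h1) R' β] with t k1 k2 z hz
  have e1 : -R < GF.mdot a z := (abs_lt.1 (mem_ball_zero_iff.1 (hR ⟨z, hz, rfl⟩))).1
  have e2 : GF.mdot b z < R' := (abs_lt.1 (mem_ball_zero_iff.1 (hR' ⟨z, hz, rfl⟩))).2
  constructor <;> rw [md_add, md_smul] <;> linarith

lemma big2 {g g' : Sg} {a b a' b' d : V} {α β α' β' : ℝ} (r : Rp g a b α β) (r' : Rp g' a' b' α' β')
    (h1 : GF.mdot b d < 0) (h2 : 0 < GF.mdot a d) (h3 : GF.mdot b' d < 0) (h4 : 0 < GF.mdot a' d) :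
    Big (MW (g.Op ∩ g'.Op)) := fun ρ => by
  obtain ⟨t, k1, k2⟩ := ((rec_of α β h1 h2 _ (Metric.isBounded_closedBall (x := 0) (r := ρ))).and
    (rec_of α' β' h3 h4 _ (Metric.isBounded_closedBall (x := 0) (r := ρ)))).exists
  refine ⟨WithLp.toLp 2 (t • d), fun x hx => ?_⟩
  have h : x.ofLp - t • d ∈ Metric.closedBall 0 ρ :=
    mem_closedBall_zero_iff.2 ((pi_norm_le_iff_of_nonempty _).2 hx)
  exact ⟨(r _).2.2 (by simpa using k1 _ h), (r' _).2.2 (by simpa using k2 _ h)⟩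

lemma big_a {g g' : Sg} {a b b' : V} {α β α' β' : ℝ} (ha : IsNull a) (h : 0 < GF.mdot a b)
    (h' : 0 < GF.mdot a b') (r : Rp g a b α β) (r' : Rp g' a b' α' β') :
    Big (MW (g.Op ∩ g'.Op)) := by
  obtain ⟨μ, h3, h4⟩ := ((ev_lt h (b o) 0).and (ev_lt h' (b' o) 0)).exists
  refine big2 (d := bas o 1 - μ • a) r r' ?_ ?_ ?_ ?_ <;>
    simp only [md_sub, md_smul, md_time, ha.1, md_comm _ a] <;> linarith [ha.2]

lemma big_b {g g' : Sg} {a a' b : V} {α β α' β' : ℝ} (hb : IsNull b) (h : 0 < GF.mdot a b)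
    (h' : 0 < GF.mdot a' b) (r : Rp g a b α β) (r' : Rp g' a' b α' β') :
    Big (MW (g.Op ∩ g'.Op)) := by
  obtain ⟨μ, h3, h4⟩ := ((ev_gt h (-a o) 0).and (ev_gt h' (-a' o) 0)).exists
  refine big2 (d := μ • b - bas o 1) r r' ?_ ?_ ?_ ?_ <;>
    simp only [md_sub, md_smul, md_time, hb.1] <;> linarith [hb.2]

lemma big1 (g : Sg) : Big (MW (g.Op ∩ g.Op)) :=
  let ⟨_, _, _, _, h1, _, h3, r⟩ := of_g g
  big_a h1 h3 h3 r r

lemma chain {K : Set V} (hK : IsBounded K) (g1 g2 : Sg) : ∃ g3 g4 : Sg, g3.Adm K ∧ g4.Adm K ∧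
    Big (MW (g1.Op ∩ g3.Op)) ∧ Big (MW (g3.Op ∩ g4.Op)) ∧ Big (MW (g4.Op ∩ g2.Op)) := by
  obtain ⟨a1, b1, α1, β1, n1, n2, n3, r1⟩ := of_g g1
  obtain ⟨a2, b2, α2, β2, m1, m2, m3, r2⟩ := of_g g2
  obtain ⟨c, h1, h2, h3⟩ := ex_null n1 n2 n3 m1
  obtain ⟨g3, _, _, r3, k3⟩ := ex_adm n1 h1 h2 hK
  obtain ⟨g4, _, _, r4, k4⟩ := ex_adm m1 h1 h3 hK
  exact ⟨g3, g4, k3, k4, big_a n1 n3 h2 r1 r3, big_b h1 h2 h3 r3 r4, big_a m1 h3 m3 r4 r2⟩

lemma sep_g (g : Sg) {f h : Fn} (hf : In (g.act ⁻¹' W0) f) (hh : In g.Op h) : GF.Sep f h :=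
  Ap.sep_of (fun x hx z hz => by
    obtain ⟨a, b, α, β, ha, hb, -, r⟩ := of_g g
    have h1 := (r x).1.1 hx
    have h2 := (r z).2.1 hz
    refine not_le.1 fun h => (Ap.Cc_or h).elim (fun k => ?_) fun k => ?_
    · linarith [Ap.md_nonneg (Ap.null_Cc ha) k, md_sub a x z, h1.1, h2.2]
    · linarith [Ap.md_nonneg (Ap.null_Cc hb) k, md_neg b (x - z), md_sub b x z, h1.2, h2.1])
    hf.2.2 hh.2.2

/-- a similitude that exchanges the wedges -/
lemma ex_flip : ∃ r : Sg, ∀ z, r.act z ∈ W0 ↔ z ∈ W1 :=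
  let ⟨r, h⟩ := ex_g null_vb null_va (by rw [md_comm, md_ab]; exact one_pos) 0 0
  ⟨r, fun z => (h z).1.trans (by simp [Wdg])⟩

end geo

variable (x : Nx D)

/-- vectors that are dominated by the vacuum -/
def Fd : Submodule ℂ (Completion D) where
  carrier := {u | ∃ (m : ℕ) (C : ℝ), ∀ d ∈ x.N W0, ∀ j : ℕ, ‖d‖ ≤ 1 →
    ‖d x.Om‖ ≤ (1 / 2) ^ (m * j) → ‖d u‖ ≤ C * (1 / 2) ^ j}
  add_mem' := fun ⟨m, C, h⟩ ⟨m', C', h'⟩ => ⟨m + m', C + C', fun d a j b e => by
    rw [map_add, add_mul]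
    exact (norm_add_le _ _).trans (add_le_add
      (h d a j b (e.trans (pow_le_pow_of_le_one (by norm_num) (by norm_num) (by nlinarith))))
      (h' d a j b (e.trans (pow_le_pow_of_le_one (by norm_num) (by norm_num) (by nlinarith)))))⟩
  zero_mem' := ⟨0, 0, by simp⟩
  smul_mem' := fun z _ ⟨m, C, h⟩ => ⟨m, ‖z‖ * C, fun d a j b e => by
    rw [map_smul, norm_smul, mul_assoc]
    exact mul_le_mul_of_nonneg_left (h d a j b e) (norm_nonneg _)⟩

/-- vectors that are dominated by the vacuum away from a bounded set -/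
def Fg : Submodule ℂ (Completion D) where
  carrier := {v | ∃ K, IsBounded K ∧ ∀ g : Sh x.toCf, K ⊆ g.Op → g.U x.toCf v ∈ Fd x}
  add_mem' := fun ⟨K, a, h⟩ ⟨K', a', h'⟩ => ⟨K ∪ K', a.union a', fun g e => by
    rw [map_add]
    exact add_mem (h g (Set.subset_union_left.trans e)) (h' g (Set.subset_union_right.trans e))⟩
  zero_mem' := ⟨∅, Bornology.isBounded_empty, fun g _ => by rw [map_zero]; exact zero_mem _⟩
  smul_mem' := fun z _ ⟨K, a, h⟩ => ⟨K, a, fun g e => by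
    rw [map_smul]; exact Submodule.smul_mem _ z (h g e)⟩

/-- **good vectors** -/
abbrev Dg : Submodule ℂ (Completion D) := Co x.toCf (Fg x)

variable {x} {u v w ζ ζ' ξ ξ' : Completion D} {f : Fn}

lemma dg_U (g : Sh x.toCf) (hv : v ∈ Dg x) : g.U x.toCf v ∈ Dg x :=
  co_U g (fun u ⟨K, a, h⟩ => ⟨_, (sg_row _).bdd g K a, fun k e => by
    rw [← U_mul]
    exact h _ fun z hz => by
      show (k.mul g).act z ∈ W1
      rw [(sg_row _).act_mul]
      exact e ⟨z, hz, rfl⟩⟩) hv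

lemma dg_vac : x.Om ∈ Dg x := by
  refine co_span (A := {x.Om}) ?_ (fun y => ?_) rfl <;> rintro _ rfl
  · exact ⟨∅, Bornology.isBounded_empty, fun g _ => by
      rw [SGx.vac]; exact ⟨1, 1, fun d _ j _ e => by simpa using e⟩⟩
  · refine ⟨0, zero_mem _, (hasDerivAt_const (0 : ℝ) x.Om).congr_of_eventuallyEq
      (.of_forall fun t => ?_)⟩
    exact SGx.vac (c := x.toCf) ⟨⟨1, GF.one, t • y, one_pos, H496.isLor_one⟩, false⟩

lemma fd_of (h : ∀ X ∈ x.N W0, inner ℂ ζ' (X u) = inner ℂ ζ (X ζ)) (hu : u ∈ Fd x) : ζ ∈ Fd x := by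
  obtain ⟨m, C, k⟩ := hu
  refine ⟨m * 2, Real.sqrt (‖ζ'‖ * C), fun d a j b e => ?_⟩
  have h1 := h _ (mul_mem (star_mem a) a)
  rw [mul_apply_eq_comp, mul_apply_eq_comp, ContinuousLinearMap.star_eq_adjoint,
    ContinuousLinearMap.adjoint_inner_right, ContinuousLinearMap.adjoint_inner_right,
    inner_self_eq_norm_sq_to_K] at h1
  have h2 : ‖d ζ‖ ^ 2 ≤ ‖ζ'‖ * C * ((1 / 2) ^ j) ^ 2 := by
    have := norm_inner_le_norm (𝕜 := ℂ) (d ζ') (d u)
    rw [h1, norm_pow, RCLike.norm_ofReal, abs_norm] at this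
    rw [← pow_mul', mul_assoc]
    exact this.trans (mul_le_mul ((d.le_opNorm _).trans (mul_le_of_le_one_left (norm_nonneg _) b))
      (k d a _ b (by rwa [← mul_assoc])) (norm_nonneg _) (norm_nonneg _))
  refine (Real.le_sqrt_of_sq_le h2).trans_eq ?_
  rw [Real.sqrt_mul' _ (by positivity), Real.sqrt_sq (by positivity)]

lemma fd_lim {b : ℕ → Completion D →L[ℂ] Completion D} {C : ℝ} {p : ℕ} (hb : ∀ j, b j ∈ x.N W1 ∧
    ‖b j u - ζ‖ ≤ C * (1 / 2) ^ j ∧ ‖b j‖ ≤ C * 2 ^ (p * j)) (hu : u ∈ Fd x) : ζ ∈ Fd x := by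
  obtain ⟨m, C', k⟩ := hu
  refine ⟨m * (p + 1), C + C * C', fun d a j h e => ?_⟩
  obtain ⟨h1, h2, h3⟩ := hb j
  have h4 : d ζ = b j (d u) - d (b j u - ζ) := by
    rw [map_sub, ← mul_apply_eq_comp (b j), ← x.loc d a _ h1, mul_apply_eq_comp, sub_sub_cancel]
  have h5 := mul_le_mul h3 (k d a ((p + 1) * j) h (by rwa [← mul_assoc])) (norm_nonneg _)
    ((norm_nonneg _).trans h3)
  have h6 : (2 : ℝ) ^ (p * j) * (1 / 2) ^ ((p + 1) * j) = (1 / 2) ^ j := by
    rw [add_mul, one_mul, pow_add, ← mul_assoc, ← mul_pow]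
    simp
  rw [mul_mul_mul_comm, h6] at h5
  rw [h4, add_mul]
  linarith [norm_sub_le (b j (d u)) (d (b j u - ζ)), (b j).le_opNorm (d u), (d.le_opNorm _).trans
    ((mul_le_of_le_one_left (norm_nonneg _) h).trans h2)]

lemma phi_ut {c : Cf D} {a : V} (ha : IsNull a) (s : ℝ) (w : Completion D) :
    (bc c).Phi (Tl.ex (fun p => max (GF.mdot p a) 0) s) w = Ut c.Q (s • a) w := by
  rw [← ue, ← (bc c).Phi_ch]
  refine (bc c).congr_ae (Tl.ex_bd ((isPair_mdot.meas a).max measurable_const)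
    (fun _ => le_max_right _ _) (by simp)) (isPair_mdot.bd _)
    ((Kin.cone (bc c) w).mono fun p hp => ?_)
  rw [Tl.ex, SN.ch, max_eq_left (md_comm a p ▸ Kin.Cone.md_nonneg ha hp), md_smul,
    Complex.ofReal_mul, mul_assoc]

/-- translations -/
def tr (c : Cf D) (y : V) : Sh c := ⟨⟨1, GF.one, y, one_pos, H496.isLor_one⟩, false⟩

lemma tr_act {c : Cf D} (y z : V) : (tr c y).act z = z + y := by
  show sim 1 GF.one y z = _
  rw [Fss.sim_dil, one_smul, add_comm]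

/-- **polynomial decay on good vectors** -/
lemma pd (hv : v ∈ Dg x) : ∃ m : ℕ, ∀ k : ℕ, ∃ C : ℝ, ∀ d ∈ x.N W0, ∀ j : ℕ, ‖d‖ ≤ 1 →
    ‖d x.Om‖ ≤ (1 / 2) ^ (m * 8 ^ j) → ‖d v‖ ≤ C * (1 / 2) ^ (k * j) := by
  obtain ⟨K, hK, h⟩ := co_le hv
  obtain ⟨T, hT, T0⟩ := ((rec_of (a := va) (b := vb) (d := vb - va) 0 0
    (by simp [md_sub, null_vb.1, md_comm vb va, md_ab]) (by simp [md_sub, null_va.1, md_ab])
    K hK).and (eventually_ge_atTop 0)).exists
  obtain ⟨m, C, hu⟩ := h (tr _ (T • (vb - va))) fun z hz => by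
    show (tr _ _).act z ∈ W1
    rw [tr_act]
    simpa [Wdg] using hT z hz
  refine ⟨m, fun k => ?_⟩
  have ma := fun a => (isPair_mdot.meas a).max (measurable_const (a := (0 : ℝ)))
  obtain ⟨A, hA⟩ := Tl.far (bc x.toCf).toCalc (ma va) (ma vb) (fun _ => le_max_right _ _)
    (fun _ => le_max_right _ _) (k := k) ((dom_wt (va + vb) k (co_sm hv)).of_le
      ((Complex.measurable_ofReal.comp ((ma va).add (ma vb))).pow_const k) (K := 1)
      ((Kin.cone (bc x.toCf) v).mono fun p hp => by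
        have a1 := md_comm va p ▸ Kin.Cone.md_nonneg null_va hp
        have a2 := md_comm vb p ▸ Kin.Cone.md_nonneg null_vb hp
        rw [max_eq_left a1, max_eq_left a2, one_mul, wt, md_add, norm_pow, norm_pow]
        norm_cast
        rw [Real.norm_of_nonneg (by linarith), Real.norm_of_nonneg (by linarith)]
        exact pow_le_pow_left₀ (by linarith) (by linarith) k)) T0
  set M := max C ‖v‖
  set γ := Real.log 2 * (1 / (T + 1) / Real.pi) ^ 2 with hγ
  have γ0 : 0 < γ := mul_pos (Real.log_pos one_lt_two) (by have := Real.pi_pos; positivity)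
  refine ⟨2 ^ k * (M * (k.factorial / γ ^ k)) + A, fun d a j b e => ?_⟩
  refine (hA d M (8 ^ j * Real.log 2) ((1 / 2) ^ j) b (le_max_right _ _)
    (mul_nonneg (by positivity) (Real.log_pos one_lt_two).le) (by positivity)
    (pow_le_one₀ (by norm_num) (by norm_num)) fun s t hs ht => ?_).trans ?_
  · let g := tr x.toCf ((s - T) • va - (t - T) • vb)
    have h1 := hu _ (x.mono _ W0 ?_ _ (x.cov g _ d a)) (8 ^ j) ?_ ?_
    · rw [mul_apply_eq_comp, mul_apply_eq_comp, U_nrm, ← SGx.U_inv] at h1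
      rw [phi_ut null_va, phi_ut null_vb, ut_ut, ← inv_U g (Ut _ _ v)]
      refine le_trans (le_of_eq ?_) (h1.trans ?_)
      · refine congrArg (fun z => ‖d (g.inv.U _ z)‖) ((ut_ut ((s - T) • va - (t - T) • vb) _ v).trans
          (congrArg (Ut _ · v) (?_ : _ = T • (vb - va))))
        module
      · rw [Real.exp_neg, show (8 : ℝ) ^ j = (8 ^ j : ℕ) by simp, Real.exp_nat_mul,
          Real.exp_log two_pos, ← inv_pow, one_div]
        exact mul_le_mul_of_nonneg_right (le_max_left _ _) (by positivity)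
    · rintro _ ⟨z, hz, rfl⟩
      rw [tr_act]
      rw [Ap.mem_W] at hz ⊢
      simp at hz ⊢
      constructor <;> linarith [hz.1, hz.2]
    · rw [CStarRing.norm_mul_mem_unitary _ (Unitary.star_mem (SGx.uni g)),
        CStarRing.norm_mem_unitary_mul _ (SGx.uni g)]
      exact b
    · rwa [mul_apply_eq_comp, mul_apply_eq_comp, U_nrm, ((sg_row _).vac g).2]
  · have M0 : 0 ≤ M := (norm_nonneg _).trans (le_max_right _ _)
    have e1 : 8 ^ j * Real.log 2 * ((1 / 2) ^ j / (T + 1) / Real.pi) ^ 2 = γ * 2 ^ j := by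
      rw [hγ, show (8 : ℝ) = 2 * 2 * 2 by norm_num, mul_pow, mul_pow, one_div_pow]
      field_simp
    have e2 : Real.exp (-(γ * 2 ^ j)) ≤ k.factorial / γ ^ k * (1 / 2) ^ (k * j) := by
      have := Real.pow_div_factorial_le_exp (γ * 2 ^ j) (by positivity) k
      rw [Real.exp_neg, inv_le_comm₀ (Real.exp_pos _) (by positivity)]
      refine le_trans (le_of_eq ?_) this
      rw [mul_pow γ, ← pow_mul', one_div_pow]
      field_simp
    rw [e1, ← pow_mul', add_mul, mul_assoc (2 ^ k), mul_assoc M]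
    gcongr

/-- **tame sequences converge on good vectors** -/
lemma lim (hv : v ∈ Dg x) {a : ℕ → Completion D →L[ℂ] Completion D} {C : ℝ} {N : ℕ}
    (ha : ∀ n, a n ∈ x.N W0 ∧ ‖a n‖ ≤ C * ((n : ℝ) + 1) ^ N) (hs : SE fun n => ‖ξ - a n x.Om‖) :
    ∃ (ζ : Completion D) (C' : ℝ), ∀ j, ‖a (8 ^ j) v - ζ‖ ≤ C' * (1 / 2) ^ j ∧
      ‖a (8 ^ j)‖ ≤ C' * 2 ^ (3 * N * j) := by
  obtain ⟨m, h⟩ := pd hv
  obtain ⟨A, hA⟩ := h (3 * N + 1)
  obtain ⟨B, hB⟩ := hs ((1 / 2) ^ m) (by positivity)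
  have C0 : 0 ≤ C := by simpa using (norm_nonneg _).trans (ha 0).2
  have B0 : 0 ≤ B := by simpa using (norm_nonneg _).trans (hB 0)
  have h1 : ∀ j, ‖a (8 ^ j)‖ ≤ C * 2 ^ N * 2 ^ (3 * N * j) := fun j => by
    refine (ha _).2.trans ?_
    rw [mul_assoc, mul_right_comm 3, pow_mul, ← mul_pow, pow_mul]
    push_cast
    gcongr
    norm_num
    linarith [one_le_pow₀ (n := j) (show (1 : ℝ) ≤ 8 by norm_num)]
  set E := C * 2 ^ N * (2 ^ (3 * N) + 1) + 2 * B + 1 with hE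
  have h2 : ∀ j, dist (a (8 ^ j) v) (a (8 ^ (j + 1)) v) ≤ E * A * (1 / 2) ^ j := fun j => by
    have p1 : (1 : ℝ) ≤ 2 ^ (3 * N * j) := one_le_pow₀ one_le_two
    have κ0 : 0 < E * 2 ^ (3 * N * j) := by positivity
    have p2 : 0 ≤ C * 2 ^ N * (2 ^ (3 * N) + 1) := by positivity
    have := hA ((((E * 2 ^ (3 * N * j))⁻¹ : ℝ) : ℂ) • (a (8 ^ j) - a (8 ^ (j + 1))))
      ((x.N W0).toStarSubalgebra.smul_mem (sub_mem (ha _).1 (ha _).1) _) j ?_ ?_
    · rw [ContinuousLinearMap.smul_apply, norm_smul, Complex.norm_of_nonneg (by positivity),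
        inv_mul_le_iff₀ κ0, ContinuousLinearMap.sub_apply] at this
      rw [dist_eq_norm]
      refine this.trans_eq ?_
      rw [add_mul (3 * N), one_mul, pow_add, one_div_pow]
      field_simp
    · rw [norm_smul, Complex.norm_of_nonneg (by positivity), inv_mul_le_iff₀ κ0]
      have := h1 (j + 1)
      rw [mul_add (3 * N), mul_one, pow_add 2] at this
      nlinarith [norm_sub_le (a (8 ^ j)) (a (8 ^ (j + 1))), h1 j]
    · rw [ContinuousLinearMap.smul_apply, norm_smul, Complex.norm_of_nonneg (by positivity),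
        inv_mul_le_iff₀ κ0, ContinuousLinearMap.sub_apply, pow_mul _ m]
      have k1 := hB (8 ^ j)
      have k2 := (hB (8 ^ (j + 1))).trans (mul_le_mul_of_nonneg_left (pow_le_pow_of_le_one
        (by positivity) (pow_le_one₀ (by norm_num) (by norm_num))
        (Nat.pow_le_pow_right (by norm_num) j.le_succ)) B0)
      have k3 := norm_sub_le_norm_sub_add_norm_sub (a (8 ^ j) x.Om) ξ (a (8 ^ (j + 1)) x.Om)
      rw [norm_sub_rev _ ξ] at k3
      refine (k3.trans (add_le_add k1 k2)).trans ?_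
      rw [← add_mul]
      gcongr
      nlinarith
  obtain ⟨ζ, hζ⟩ := cauchySeq_tendsto_of_complete (cauchySeq_of_le_geometric _ _ (by norm_num) h2)
  refine ⟨ζ, max (2 * (E * A)) (C * 2 ^ N), fun j => ⟨?_, (h1 j).trans (by gcongr; simp)⟩⟩
  have := dist_le_of_le_geometric_of_tendsto _ _ (by norm_num) h2 hζ j
  rw [dist_eq_norm] at this
  refine this.trans (le_trans (le_of_eq (by ring)) (mul_le_mul_of_nonneg_right (le_max_left _ _)
    (by positivity)))

end Gx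

end

end Vale.Agent.N352.E
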