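import Vale.Agent.N352.E.Gt
import Vale.Agent.N352.E.G4

/-!
# N352, block E: the rows GO and GT
-/

namespace Vale.Agent.N352.E

variable {D : Type*} [NormedAddCommGroup D] [InnerProductSpace ℂ D]

theorem go_row : GO D := fun x =>
  ⟨Gx.ml x, ops_row x, fun p _ _ hf hv => Gx.op_some p hf (Gx.co_sm hv)⟩

theorem gt_row : Tp.GT D := gt_of go_row

end Vale.Agent.N352.E
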