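import Vale.Agent.N352.E.Fb
import Vale.Agent.N352.E.Cv
import Vale.Agent.N352.Brg
import Vale.Agent.N352.Def4

/-!
# N352, block E: the theorem in the public definitions, from the row GT
-/

set_option linter.all false

open Filter Topology

namespace Vale.Agent.N352.E.Tp

open P352.GF P352R
open UniformSpace (Completion)

noncomputable section

universe u v

variable {D : Type u} {D' : Type v} [NormedAddCommGroup D] [InnerProductSpace ℂ D]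
  [NormedAddCommGroup D'] [InnerProductSpace ℂ D']
  {Q : Theory D} {G : D → D} {T : Ix → Ix → Fld D} {A : (V → V) → D → D}

variable (D) in
/-- row GT: the letters act on a domain, with tempered bounds -/
def GT : Prop := ∀ (c : Cf D) (T : Ix → Ix → Fld D) N l (hT : c.Q.IsStress T) (hl : Pot c T N l),
  AW c N → P352X.EBd c.Q → ∀ h0 : COV0 c, ∃ ml d1,
    OPS (lx (c := ⟨c, T, l, hT, hl.pot, ml, d1⟩) (cov_row h0)) ∧
      TMP (lx (c := ⟨c, T, l, hT, hl.pot, ml, d1⟩) (cov_row h0))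

theorem core_of (gt : GT D) (c : Cf D) {N l} (hT : c.Q.IsStress T) (hl : Pot c T N l) (a : AW c N)
    (e : P352X.EBd c.Q) (h0 : COV0 c) : Mn.Core c T :=
  have ⟨ml, d1, o, t⟩ := gt c T N l hT hl a e h0
  ⟨⟨c, T, l, hT, hl.pot, ml, d1⟩, rfl, rfl, fin_of (e0_thm c) _ h0 o t, hl.mix⟩

/-- the grading as an isometry -/
def gi (g : Df.Gr Q G) : D →ₗᵢ[ℂ] D :=
  (gm (Bg.gr.1 g)).isometryOfInner fun v w => (g.herm _ _).trans (congrArg _ (g.inv w))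

/-- the context -/
def cf (h : Df.Ge Q G A) : Cf D :=
  ⟨Q, G, A, jc (gi h.toGr), Br.gr.1 (Bg.gr.1 h.toGr), h.vac, h.add, h.der, fun v => jc_coe v⟩

theorem sl : Df.SL Q T ↔ SL Q T := ⟨fun h => h.1, fun h => ⟨h⟩⟩

theorem ex (h : Df.Ge Q G A) {E : Submodule ℂ (Completion D)} {P : Theory E} {G' e} :
    Df.Ex Q G P G' e ↔ N352.Ext Q (cf h).Γ (Mn.N1 D) P G' e :=
  ⟨fun k => ⟨Bg.gr.1 k.1, k.2, k.3, k.4, k.5, k.6, k.7, k.8, Mn.afw1 P⟩,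
    fun k => ⟨Bg.gr.2 k.1, k.2, k.3, k.4, k.5, k.6, k.7, k.8⟩⟩

theorem mx (h : Df.Ge Q G A) {R : Theory D'} {i} :
    Df.Mx Q G R i ↔ N352.Max Q (cf h).Γ (Mn.N1 D) R i :=
  ⟨fun k E P G' e L a => k.1 E P G' e L ((ex h).2 a),
    fun k => ⟨fun E P G' e L a => k E P G' e L ((ex h).1 a)⟩⟩

theorem sec (gt : GT D) (h : Df.Hy Q G T A) :
    ∃ (F : Ix → Ix → Finset (ℂ × ℕ)) (C : Ix → Ix → ℂ × ℕ → Fld D),
      (∀ m n, P352X.Scl Q (T m n) (F m n) (C m n)) ∧ (∀ m n j, ((4 : ℂ), j) ∈ F m n ↔ j = 0) ∧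
      Q.IsStress (fun m n => C m n (4, 0)) ∧ Df.PCh Q (fun m n => C m n (4, 0)) A ∧
      Mn.Core (cf h.toGe) fun m n => C m n (4, 0) := by
  have hT := Br.stress0.1 (Bg.stress0.1 h.stress)
  have e := Br.ebd.1 (Bg.ebd.1 h.bound)
  have cd : Cw.Cd Q := fun s hs => h.cov s _ 0 hs lor1
  obtain ⟨F, C, a, b, c, d, -, N, l, p, q⟩ := sector (c := cf h.toGe) hT h.charges cd
    (fun m n => (h.scl m n).imp fun _ => Exists.imp fun _ k => ⟨k.1, k.2⟩) h.unique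
    (fun m n => e _ (Q.bose_fld _ (hT.bose m n))) (sl1_of hT cd e (sl.1 h.loc))
  exact ⟨F, C, a, b, c, d, core_of gt _ c q p e (cov0_of h.cov)⟩

theorem cnt (h : Df.Ge Q G A) (k : Df.Flds Q) : Df.MfA Q ∧ Df.FSL Q ∧ Df.CovA Q := by
  have k : P352X.MfAll Q ∧ P352X.FSL Q := (Bg.flds.1 k).elim (Mn.cfg (cf h))
    (And.imp_left Br.mfa.1)
  exact ⟨Bg.mfa.2 (Br.mfa.2 k.1), Bg.fsl.2 k.2, Pf.cova (cf h).hN.toGr k.1 k.2⟩

theorem loc (h : Df.Ge Q G A) (s : Df.Stress0 Q T) (e : Df.EBd Q)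
    (k : Df.FBT Q T ∨ Df.LBT Q T ∨ Df.AnT Q T ∨ ∃ Γ N, Df.LNg Q G A Γ N) : Df.SL Q T := by
  have hT := Br.stress0.1 (Bg.stress0.1 s)
  have e := Br.ebd.1 (Bg.ebd.1 e)
  rcases k with k | k | k | ⟨Γ, N, k⟩
  exacts [sl.2 (En.sl_leb (c := cf h) hT e fun m n =>
      Fb.lb (c := cf h) (Q.bose_fld _ (hT.bose m n)) (k m n)), sl.2 (En.sl_leb (c := cf h) hT e k), sl.2 (En.sl_ana (c := cf h) hT e k),
    sl.2 (En.sl_net (Bg.lng.1 k) hT)]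

variable (D') in
/-- **the theorem** -/
theorem thm (gt : GT D) : Df.Thm4 D D' where
  ext Q G T A h := by
    obtain ⟨F, C, -, -, a, b, k⟩ := sec gt h
    obtain ⟨E, P, G', e, t, c, d, k⟩ := Mn.exten _ (cov0_of (c := cf h.toGe) h.cov) k
    exact ⟨_, a, b, E, P, G', e, t, (ex h.toGe).2 c, fun p q =>
      Bg.desc (d (Br.mfa.1 (Bg.mfa.1 p)) (Bg.fsl.1 q)),
      fun R p q => Bg.conf (k R (Bg.enl.1 p) (Bg.gr.1 q))⟩
  self Q G T A h := ⟨⟨rfl, fun _ _ _ _ _ _ => rfl, h.cov, fun B C p q =>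
    ⟨B, C, p, q, fun _ _ _ => rfl, fun _ _ _ => rfl⟩⟩, h.toGr, h.toGnr, h.stress, h.charges,
    fun _ _ _ _ _ => rfl⟩
  max Q G T A R i G' T' A' h a b := by
    obtain ⟨F, C, p, q, -, -, k⟩ := sec gt h
    exact (Mn.key (cf h.toGe) (Br.stress0.1 (Bg.stress0.1 h.stress)) p q k (Bg.ovr.1 a)
      ((mx h.toGe).1 b)).imp fun _ => Bg.conf
  loc _ _ _ _ := loc
  cnt _ _ _ := cnt

open P352 P352L.StA in
/-- **the witness** -/
theorem wit : ∃ (E : Type) (_ : NormedAddCommGroup E) (_ : InnerProductSpace ℂ E), Df.Wit4 E := by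
  obtain ⟨A, N, ⟨a, b, -, -, n, u, x⟩, -, -, ⟨-, g, d⟩, ⟨B, k1, k2⟩, k⟩ := fr.topQ rec_fr
  have r := (Br.lnm.1 n).toRep
  have ge : Df.Ge fr.tq id A := ⟨Bg.gr.2 g, ⟨d⟩, rfl, r.add⟩
  have fl : Df.Flds fr.tq := .inl (Bg.cntf.2 cntF_tq)
  have s := Bg.stress0.2 a
  have e := Bg.ebd.2 (H72.ebd r)
  have l : Df.LBT fr.tq _ := fun m n => Sl.lb_wit r m n
  obtain ⟨-, c1, c2⟩ := cnt ge fl
  exact ⟨_, _, _, fr.tq, _, A, B, ⟨ge, s, b, u, c2, fun m n => c1 _ (fr.tq.bose_fld _ (s.bose m n)),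
    e, loc ge s e (.inr (.inl l))⟩, (mx ge).2 (max_of_rec x _ _), fun m n =>
      Fb.fb (c := cf ge) (fr.tq.bose_fld _ (s.bose m n)) (s.herm m n) (l m n), l, fl, k1, k2, k⟩

end

end Vale.Agent.N352.E.Tp
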