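import Vale.Agent.N352.E.Sm
import Vale.Agent.N352.E.G3
import Vale.Agent.N352.E.Top

/-!
# N352, block E: tempered bounds on good vectors
-/

set_option linter.all false

open MeasureTheory Filter Topology Metric
open scoped SchwartzMap ComplexConjugate

namespace Vale.Agent.N352.E

open Vale.Agent.P352 Vale.Agent.P352.GF Vale.Agent.P352.BW Vale.Agent.P352.H246
open Vale.Agent.P352.H496 Vale.Agent.P352.H755 Vale.Agent.P352.H15
open Vale.Agent.P352.SubConf (IsAdj)
open Vale.Agent.P352X Vale.Agent.P352X.EB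
open UniformSpace (Completion)
open KDa (barL)

noncomputable section

variable {D : Type*} [NormedAddCommGroup D] [InnerProductSpace ℂ D]

namespace Sd

open Gx
open EG.H.Tmp (inn)

lemma rel1 {c : Cf D} (g : Sh c) (p : Lb c) {n : ℕ} {κ : Fin n → ℂ} {q : Fin n → Lb c}
    (h : ∀ f v, IsTest f → p.B f (c.Q.U g.s g.L g.a v) =
      ∑ i, κ i • c.Q.U g.s g.L g.a ((q i).B (g.pull f) v)) {f : Fn} (hf : IsTest f) {v w : D}
    (e : g.U c v = w) : ((p.B f w : D) : Completion D) =
      ∑ i, (κ i * sg (g.e && p.e)) • g.U c ((q i).B (g.pull f) v : D) := by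
  have h1 : ((p.B f (c.Q.U g.s g.L g.a v) : D) : Completion D) =
      ∑ i, κ i • Ug c.Q g.s g.L g.a ((q i).B (g.pull f) v : D) := by
    rw [h f v hf, ← Completion.coe_toComplL (𝕜 := ℂ), map_sum]
    exact Finset.sum_congr rfl fun i _ => by
      rw [map_smul, Completion.coe_toComplL, ← Grp.coe g.hs g.hL]
  obtain ⟨g, _ | _⟩ := g
  · obtain rfl : c.Q.U g.s g.L g.a v = w :=
      Completion.coe_injective D ((Grp.coe g.hs g.hL _ v).symm.trans e)
    simp only [Bool.false_and, sg_false, mul_one]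
    exact h1
  · obtain rfl : c.G (c.Q.U g.s g.L g.a v) = w := Completion.coe_injective D (by
      rw [← e, ← c.hN.ext, ← Grp.coe g.hs g.hL]
      rfl)
    rw [p.par _ _ hf, Completion.coe_smul, ← c.hN.ext, h1, map_sum, Finset.smul_sum]
    exact Finset.sum_congr rfl fun i _ => by
      rw [map_smul, smul_smul, mul_comm, Bool.true_and]
      rfl

variable {x : Nx D} {u w : Completion D}

/-- weak commutation in a frame -/
lemma wk_fr (p : Lb x.toCf) (g : Sh x.toCf) {f : Fn} (hf : In g.Op f)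
    {d : Completion D →L[ℂ] Completion D} (hd : d ∈ x.N W0) (hu : u ∈ Sm x.toCf)
    (hw : w ∈ Sm x.toCf) : inner ℂ (Bs p.dag (bar f) w) (g.inv.U x.toCf (d (g.U x.toCf u))) =
      inner ℂ w (g.inv.U x.toCf (d (g.U x.toCf (Bs p f u)))) := by
  refine bs_wk x.hE p (Ap.in_univ' hf) (X := g.inv.U x.toCf * d * g.U x.toCf) (fun v w => ?_) hu hw
  obtain ⟨n, q, κ, h⟩ := x.cv _ _ p.h p.h' p.a g.inv.toSg
  obtain ⟨v', hv⟩ := (sg_row x.toCf).sur g v
  obtain ⟨w', hw⟩ := (sg_row x.toCf).sur g w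
  have h1 := rel1 g.inv p (fun f v hf => (h f v hf).1) hf.1 (v := v') (w := v) (by rw [← hv, inv_U])
  have h2 := rel1 g.inv p.dag (q := fun i => (q i).dag) (fun f v hf => (h f v hf).2)
    (Ap.test_bar hf.1) (v := w') (w := w) (by rw [← hw, inv_U])
  have h3 : In W1 (g.inv.pull f) := by
    have := (sg_row x.toCf).inn g.inv _ f hf
    refine Ap.in_mono this fun z hz => ?_
    rw [← (sg_row x.toCf).act_inv g z]
    exact hz
  simp only [ContinuousLinearMap.mul_apply]
  erw [h2]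
  rw [h1, hv, ← inv_U g (w : Completion D), hw, U_inn, sum_inner, map_sum, map_sum, inner_sum]
  refine Finset.sum_congr rfl fun i _ => ?_
  rw [inner_smul_left, U_inn, map_smul, map_smul, inner_smul_right, U_inv, map_mul,
    Complex.conj_conj, conj_sg]
  exact congrArg _ (x.wk d hd _ _ _ (q i).h (q i).a h3 v' w')

lemma bop (p : Lb x.toCf) (G : ℕ → Sch) (h : Adm G) (u : Completion D) (hu : u ∈ Dg x) :
    Su p G u ∈ Fg x := by
  obtain ⟨K, hK, k⟩ := co_le hu
  refine ⟨K ∪ closedBall 0 2, hK.union isBounded_closedBall, fun g e => ?_⟩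
  have s1 := su_sm x.hE p h (co_sm hu)
  refine fd_of (ζ' := g.U x.toCf (Su p.dag (fun k => barL (G k)) (Su p G u))) (fun X hX => ?_)
    (k g (Set.subset_union_left.trans e))
  have := su_wk x.hE p h (X := g.inv.U x.toCf * X * g.U x.toCf) (fun k u hu w hw => ?_)
    (co_sm hu) s1
  · simp only [ContinuousLinearMap.mul_apply] at this
    rwa [← U_inn g, U_inv, ← U_inn g (Su p G u), U_inv] at this
  have t := sg_row x.toCf
  have a := wk_fr p (g.mul (d2k x.toCf k).inv) (f := ev (G k))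
    ⟨⟨_, rfl⟩, h.cpt k, fun z hz => ?_⟩ hX hu hw
  · simp only [ContinuousLinearMap.mul_apply]
    simpa only [t.U_inv, t.U_mul, star_mul, star_star, ContinuousLinearMap.mul_apply] using a
  · show (g.mul _).act z ∈ W1
    rw [t.act_mul]
    refine e (.inr ?_)
    have h1 := mem_closedBall_zero_iff.1 (h.supp k hz)
    have h2 := t.act_inv (d2k x.toCf k) z
    rw [d2k, dl0_act] at h2
    rw [← h2, norm_smul, Real.norm_of_nonneg (by positivity), mul_comm] at h1
    exact mem_closedBall_zero_iff.2 (le_of_mul_le_mul_right h1 (by positivity))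

end Sd

/-- **row TMP** on good vectors -/
theorem tmp_good (x : Nx D) (ml : Completion D → Completion D → Completion D)
    (o : OPS (lx (c := ⟨x.toCf, x.T, x.l, x.hT, x.hl, ml, (· ∈ Gx.Dg x)⟩) (cov_row x.cv)))
    (op : ∀ (p : Lb x.toCf) f v, In Set.univ f → v ∈ Gx.Dg x →
      ml (p.B' (bar f) x.Q.vac : D) v = Gx.Bs p f v) :
    TMP (lx (c := ⟨x.toCf, x.T, x.l, x.hT, x.hl, ml, (· ∈ Gx.Dg x)⟩) (cov_row x.cv)) :=
  tmp_sum ⟨e0_thm _, o⟩ fun a => by
    cases a with
    | none => exact sum1_none _ ⟨e0_thm _, o⟩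
    | some p => exact sum1_some ⟨e0_thm _, o⟩ x.hE (fun _ => Iff.rfl) Sd.bop _ p (op p)

variable (D) in
/-- row GO: the letters act on the good vectors, fields by their closures -/
def GO : Prop := ∀ x : Nx D, ∃ ml : Completion D → Completion D → Completion D,
  OPS (lx (c := ⟨x.toCf, x.T, x.l, x.hT, x.hl, ml, (· ∈ Gx.Dg x)⟩) (cov_row x.cv)) ∧
    ∀ (p : Lb x.toCf) f v, In Set.univ f → v ∈ Gx.Dg x →
      ml (p.B' (bar f) x.Q.vac : D) v = Gx.Bs p f v

theorem gt_of (h : GO D) : Tp.GT D := fun c T N l hT hl a e h0 =>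
  let x : Nx D := ⟨c, T, l, N, hT, hl.pot, e, h0, a.mono, a.cov, a.gam, a.wk, a.loc, hl.tm⟩
  let ⟨m, o, op⟩ := h x
  ⟨m, _, o, tmp_good x m o op⟩

end

end Vale.Agent.N352.E
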