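import Vale.Agent.P352X.EB.TML
import Vale.Agent.P352X.EB.JL
import Vale.Agent.P352X.EB.CHN
import Vale.Agent.P352X.EB.TMB
import Vale.Agent.P352X.EB.CH0
import Vale.Agent.P352X.R.JC.B

/-!
# N352, block E: the potential is tame, without uniqueness of the vacuum (helper21)
-/

set_option linter.all false

noncomputable section

open MeasureTheory Filter Topology Set
open scoped SchwartzMap ComplexConjugate ContDiff

namespace Vale.Agent.N352.E.Jb

open Vale.Agent.P352 Vale.Agent.P352.GF Vale.Agent.P352.BW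
open Vale.Agent.P352.H246 Vale.Agent.P352.H496 Vale.Agent.P352.H755 Vale.Agent.P352.H15
open Vale.Agent.P352.BW.T (Ten op tp cp rq cm Afs)
open Vale.Agent.P352.BW.H49 (Adj)
open Vale.Agent.P132 (ModData jconj)
open UniformSpace (Completion)
open Vale.Agent.P352X
open Vale.Agent.P352X.JCa (sim_jL isLor_jL jr_zero jL_one rj sim_rj cp_rj tp_rj in_sim anti op_cov jo
  test_jr jo_cov)

/-- a bosonic theory with a net and a potential -/
structure Bx (D : Type*) [NormedAddCommGroup D] [InnerProductSpace ℂ D] where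
  Q : Theory D
  T : Ix → Ix → Fld D
  A : (V → V) → D → D
  N : Set V → VonNeumannAlgebra (Completion D)
  l : Fn → Completion D
  E : ModData (N (Wdg va vb 0)) (om Q)
  hT : Q.IsStress T
  hG : TfGen Q
  hN : LNm Q A N
  hl : IsPot Q T l

variable {D : Type*} [NormedAddCommGroup D] [InnerProductSpace ℂ D]

abbrev Bx.Om (c : Bx D) : Completion D := om c.Q
abbrev Bx.J (c : Bx D) : Completion D ≃ₗᵢ⋆[ℂ] Completion D := c.E.J

variable {k : ℕ} {Φ Ψ : (Fin k → Ix) → Fld D} {a : (Fin k → Ix) → ℂ} {f : Fn} {L : Ix → V}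

variable (c : Bx D)

/-- the formula for `J X J` holds for the test functions in `O` -/
def Key (O : Set V) : Prop := ∀ (k : ℕ) (Φ Ψ : (Fin k → Ix) → Fld D) a f (v v' : D),
  Ten c.Q k Φ → Ten c.Q k Ψ → Adj Φ Ψ → In O f → c.J v = v' →
    c.J (op Φ a f v : D) = (jo Ψ a f v' : D)

lemma key0 : Key c (Wdg va vb 0) := by
  intro k Φ Ψ a f v v' hΦ hΨ ad hf hv
  have w := c.hN.wal null_va null_vb md_ab
  have t := T.t1 _ _ c.hN.toRep
  have h1 := t.wr _ _ _ null_va null_vb md_ab (t.ib _ _ hf)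
  refine anti c.E (T.afs_of (fun v w => ad a f v w hf.1) (w.aff k Φ _ _ hΦ hf))
    (T.afs_of (fun v w => ad.symm _ _ v w h1.1) (w.aff' k Ψ _ _ hΨ h1)) ?_ hv
  rw [← H49.jw c.hN null_va null_vb md_ab c.E hΦ hΨ ad a hf, (t.cj k _ _ (bar f)).1,
    T.bar_cp, T.bar_bar']
  simp only [Complex.conj_conj]

/-- Reeh and Schlieder -/
lemma rs {O : Set V} (hO : Big (MW O)) (S : Submodule ℂ D) (h0 : c.Q.vac ∈ S)
    (hS : ∀ k Φ a f v, Ten c.Q k Φ → In O f → v ∈ S → op Φ a f v ∈ S) : Dense (S : Set D) := by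
  refine (dense_big (Q := T.tT1 (T.t1 _ _ c.hN.toRep) c.hG) hO).mono fun v hv => ?_
  have hv' : P352.PW (T.tT1 (T.t1 _ _ c.hN.toRep) c.hG) (MW O) v := hv
  induction hv' with
  | vac => exact h0
  | add _ _ h1 h2 => exact S.add_mem (h1 ‹_›) (h2 ‹_›)
  | smul c _ h1 => exact S.smul_mem c (h1 ‹_›)
  | @fld B g v hB hg hw ih =>
    obtain ⟨k, Φ, μ, hΦ, rfl⟩ : T.TF c.Q B := hB
    have := hS k Φ (Pi.single μ 1) (fl g) v hΦ (In_fl.2 hg) (ih hw)
    rwa [T.op_single] at this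

variable {c}

lemma inter {O O' : Set V} (K : Key c O) (hO : Big (MW O')) (hL : IsLor L) (y : V) (h1 : O' ⊆ O)
    (h2 : ∀ x, sim 1 L y x ∈ O' → x ∈ O) (z : Completion D) :
    c.J (Ug c.Q 1 L y z) = Ug c.Q 1 (jL L) (jr y) (c.J z) := by
  have R := c.hN.toRep
  have hJ := isLor_jL hL
  let S : Submodule ℂ D :=
    { carrier := {w | ∃ v v' : D, w = c.Q.U 1 L y v ∧ c.J v = v' ∧
        c.J w = (c.Q.U 1 (jL L) (jr y) v' : D)}
      add_mem' := by
        rintro _ _ ⟨v, v', rfl, a1, a2⟩ ⟨w, w', rfl, b1, b2⟩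
        exact ⟨v + w, v' + w', (U_add one_pos hL y v w).symm,
          by rw [Completion.coe_add, Completion.coe_add, map_add, a1, b1],
          by rw [U_add one_pos hJ, Completion.coe_add, Completion.coe_add, map_add, a2, b2]⟩
      zero_mem' := by
        have e : ∀ {L}, IsLor L → ∀ y, c.Q.U 1 L y 0 = 0 := fun h y => by
          simpa using U_smul (Q := c.Q) one_pos h y 0 0
        exact ⟨0, 0, (e hL y).symm, by rw [Completion.coe_zero, map_zero],
          by rw [e hJ, Completion.coe_zero, map_zero]⟩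
      smul_mem' := by
        rintro t _ ⟨v, v', rfl, a1, a2⟩
        exact ⟨t • v, conj t • v', (U_smul one_pos hL y t v).symm,
          by rw [Completion.coe_smul, Completion.coe_smul, map_smulₛₗ, a1],
          by rw [U_smul one_pos hJ, Completion.coe_smul, Completion.coe_smul, map_smulₛₗ, a2]⟩ }
  have hd : Dense (S : Set D) := by
    refine rs c hO S ⟨_, _, (c.Q.U_vac 1 L y one_pos hL).symm, c.E.J_xi, ?_⟩ ?_
    · rw [c.Q.U_vac _ _ _ one_pos hJ]
      exact c.E.J_xi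
    · rintro k Φ a f _ hΦ hf ⟨v, v', rfl, a1, a2⟩
      obtain ⟨Ψ, hΨ, ad⟩ := T.adj_of R hΦ
      exact ⟨_, _, op_cov R hΦ a hL y hf.1 v, K k Φ Ψ _ _ v v' hΦ hΨ ad (in_sim one_pos hL y hf h2) a1,
        by rw [K k Φ Ψ a f _ _ hΦ hΨ ad ⟨hf.1, hf.2.1, hf.2.2.trans h1⟩ a2, jo_cov R hΨ a hL y hf.1]⟩
  have u : ∀ z, star (Ug c.Q 1 L y) (Ug c.Q 1 L y z) = z := fun z =>
    congrArg (fun T : Completion D →L[ℂ] Completion D => T z) (Grp.uni R 1 L y).1
  have h3 := Continuous.ext_on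
    (Completion.denseRange_coe.dense_image (Completion.continuous_coe D) hd) c.J.continuous
    (g := fun w => Ug c.Q 1 (jL L) (jr y) (c.J (star (Ug c.Q 1 L y) w))) (by fun_prop) ?_
  · rw [congrFun h3, u]
  · rintro _ ⟨_, ⟨v, v', rfl, a1, a2⟩, rfl⟩
    refine a2.trans ?_
    show _ = Ug c.Q 1 (jL L) (jr y) (c.J (star (Ug c.Q 1 L y) (c.Q.U 1 L y v : D)))
    rw [← Grp.coe one_pos hL, u, a1, Grp.coe one_pos hJ]

/-- translations -/
theorem ut1 (y : V) (z : Completion D) :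
    c.J (Ug c.Q 1 GF.one y z) = Ug c.Q 1 GF.one (jr y) (c.J z) := by
  have h := inter (key0 c) (big_two (a := vb) (b := va) (c := va - vb) (M := |al y|)
    (M' := -|be y|) one_pos one_pos (by simp [md_vb]) (by simp [md_va])) H496.isLor_one y ?_ ?_ z
  · rwa [jL_one] at h
  · intro x ⟨a, b⟩
    refine ⟨?_, ?_⟩ <;> rw [sub_zero]
    · linarith [abs_nonneg (be y)]
    · linarith [abs_nonneg (al y)]
  · intro x ⟨a, b⟩
    rw [sim_one'] at a b
    simp only [md_va, md_vb, al_add, be_add] at a b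
    refine ⟨?_, ?_⟩ <;> simp only [md_va, md_vb, sub_zero]
    · linarith [neg_abs_le (be y)]
    · linarith [le_abs_self (al y)]

lemma u_inj {s : ℝ} {y : V} {z w : Completion D} (h : Ug c.Q s L y z = Ug c.Q s L y w) : z = w := by
  have u : ∀ z, star (Ug c.Q s L y) (Ug c.Q s L y z) = z := fun z =>
    congrArg (fun T : Completion D →L[ℂ] Completion D => T z) (Grp.uni c.hN.toRep s L y).1
  rw [← u z, h, u]

lemma key1 : Key c univ := by
  intro k Φ Ψ a f v v' hΦ hΨ ad hf hv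
  have R := c.hN.toRep
  have h1 := H496.isLor_one
  obtain ⟨y, hy⟩ := H49.ex_tr hf.2.1
  have hg := H49.in_tr hf.1 hf.2.1 hy
  have e1 := op_cov R hΦ a h1 y hg.1 v
  have e2 := jo_cov R hΨ a h1 y hg.1 v'
  rw [T.tp_one, H49.tr_sim] at e1 e2
  rw [jL_one] at e2
  refine u_inj (c := c) (s := 1) (L := GF.one) (y := jr y) ?_
  rw [← ut1, Grp.coe one_pos h1, Grp.coe one_pos h1, ← e1, ← e2]
  refine key0 c k Φ Ψ a _ _ _ hΦ hΨ ad hg ?_
  rw [← Grp.coe one_pos h1, ← Grp.coe one_pos h1, ut1, hv]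

lemma dil {s : ℝ} (hs : 0 < s) (z : Completion D) :
    c.J (Ug c.Q s GF.one 0 z) = Ug c.Q s GF.one 0 (c.J z) := by
  have h1 := H496.isLor_one
  have hU := ublock c.hN.toRep
  obtain ⟨W, hW⟩ := hU.lin s GF.one 0 hs h1
  have e : ∀ x, sim s GF.one 0 x = s • x := fun x => by
    rw [Grp.sim_eq, sim_one', add_zero, zero_add]
  have p : ∀ {t : ℝ} {x}, 0 < t → x ∈ Wdg va vb 0 → t • x ∈ Wdg va vb 0 := fun ht ⟨a, b⟩ => by
    rw [sub_zero] at a b
    exact ⟨by rw [sub_zero, md_smul]; exact mul_neg_of_pos_of_neg ht a,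
      by rw [sub_zero, md_smul]; exact mul_pos ht b⟩
  have h := c.hN.img_alg (y := 0) hs h1 (O := Wdg va vb 0) (O' := Wdg va vb 0) (subset_antisymm
    (by rintro _ ⟨x, hx, rfl⟩; exact e x ▸ p hs hx) fun x hx =>
      ⟨_, p (inv_pos.2 hs) hx, by rw [e, smul_inv_smul₀ hs.ne']⟩)
  rw [Ug_apply _ hs h1, Ug_apply _ hs h1, ← hW, ← hW]
  simp only [← hW] at h
  exact ((T.n _ _ c.E W (by rw [hW, hU.vac _ _ _ hs h1]) h.1 h.2).2 z).symm

/-- **`J U(g) = U(j g j) J`** -/
theorem ug (c : Bx D) (s : ℝ) (L : Ix → V) (a : V) (z : Completion D) (hs : 0 < s)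
    (hL : IsLor L) : c.J (Ug c.Q s L a z) = Ug c.Q s (jL L) (jr a) (c.J z) := by
  have e : ∀ {L}, IsLor L → ∀ a z, Ug c.Q s L a z = Ug c.Q 1 L a (Ug c.Q s GF.one 0 z) := by
    intro L hL a z
    rw [← ContinuousLinearMap.mul_apply, Grp.ug_mul c.hN.toRep _ _ one_pos hs hL H496.isLor_one,
      one_mul, Grp.sim_zero]
    congr 2
    funext m n
    simp [sim, GF.one, bas]
  rw [e hL, e (isLor_jL hL), ← dil hs]
  exact inter (O' := univ) key1 (fun _ => ⟨0, fun _ _ => trivial⟩) hL a subset_rfl (fun _ _ => trivial) _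

variable (c)

lemma ten_T : Ten c.Q 2 fun μ => c.T (μ 0) (μ 1) := by
  refine ⟨fun μ => Grp.T_fld c.hT _ _, fun μ L f v hL hf => ?_⟩
  rw [c.hT.cov _ _ 1 L 0 f v one_pos hL hf, ← (finTwoArrowEquiv Ix).symm.sum_comp,
    Fintype.sum_prod_type]
  simp [finTwoArrowEquiv, Fin.prod_univ_two]

lemma adj_T : Adj (fun μ : Fin 2 → Ix => c.T (μ 0) (μ 1)) fun μ => c.T (μ 0) (μ 1) := by
  intro a f v w hf
  rw [op, op, sum_inner, inner_sum]
  exact Finset.sum_congr rfl fun μ _ => by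
    rw [inner_smul_left, inner_smul_right, c.hT.herm _ _ f v w hf]

/-- **`J T(f) J`** on the domain -/
theorem jt (m n : Ix) {f : Fn} (hf : GF.IsTest f) {v v' : D} (hv : c.J v = v') :
    c.J (c.T m n f v : D) =
      (((sj m * sj n : ℝ) : ℂ) • c.T m n (bar fun z => f (jr z)) v' : D) := by
  classical
  obtain ⟨g, rfl⟩ := hf
  obtain ⟨-, u, -, -, h1, -, h2⟩ := ST.exists_cut g
  let e := T.eqv rj rj (fun x => by rw [sim_rj, sim_rj, jr_jr]) fun x => by
    rw [sim_rj, sim_rj, jr_jr]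
  let B : Sch → Sch := fun g => SchwartzMap.postcompCLM (𝕜 := ℝ) (Complex.conjCLE : ℂ →L[ℝ] ℂ)
    (SchwartzMap.compCLMOfContinuousLinearEquiv ℂ e g)
  have hB : ∀ g, ev (B g) = bar fun z => ev g (jr z) := fun g =>
    funext fun z => congrArg (fun x => star (g x)) (sim_rj z)
  have cT := fun v => c.Q.cont _ v (Grp.T_fld c.hT m n)
  have cc := Completion.continuous_coe D
  refine tendsto_nhds_unique ((c.J.continuous.comp (cc.comp (cT v))).tendsto g |>.comp h2) ?_
  rw [← hB]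
  refine ((cc.comp (((cT v').comp (show Continuous B by fun_prop)).const_smul
    ((sj m * sj n : ℝ) : ℂ))).tendsto g |>.comp h2).congr fun i => ?_
  have k := key1 2 _ _ (Pi.single ![m, n] 1) (ev (u i)) v v' (ten_T c) (ten_T c) (adj_T c)
    ⟨⟨_, rfl⟩, h1 i, subset_univ _⟩ hv
  rw [T.op_single, jo, op, Finset.sum_eq_single ![m, n], tp_rj, cp_rj] at k
  · refine Eq.trans ?_ k.symm
    simp [hB]
    rfl
  · intro ν _ h
    simp [tp_rj, Pi.single_eq_of_ne h]
  · simp

theorem one (m n : Ix) (f : Fn) (hf : GF.IsTest f) : c.J (c.T m n f c.Q.vac : D) =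
    ((sj m * sj n : ℝ) : ℂ) • ((c.T m n (bar fun z => f (jr z)) c.Q.vac : D) : Completion D) := by
  rw [jt c m n hf c.E.J_xi, Completion.coe_smul]

/-! ### the potential -/

open EB EB.Jl EB.Tml Ap

lemma pd_jr (m : Ix) {f : Fn} (hf : ContDiff ℝ ∞ f) :
    (pd m fun z => f (jr z)) = fun z => (sj m : ℂ) * pd m f (jr z) := funext fun z => by
  have := dv_aff jrL 0 (hf.differentiable (by simp) (jrL z + 0)) (bas m 1)
  simp only [add_zero, jrL_apply] at this
  rw [← dv_bas, this, show jr (bas m 1) = sj m • bas m 1 from funext fun n => by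
    rw [jr_apply, Pi.smul_apply, bas]
    split_ifs with e
    · rw [e, smul_eq_mul]
    · simp, dv_smul_l, dv_bas]

lemma box_jr {f : Fn} (hf : ContDiff ℝ ∞ f) :
    (box fun z => f (jr z)) = fun z => box f (jr z) := funext fun z => by
  refine Finset.sum_congr rfl fun m _ => ?_
  have h : ContDiff ℝ ∞ (pd m f) := dv_bas m f ▸ smooth_dv hf _
  rw [pd_jr m hf, ← dv_bas, dv_cmul, dv_bas, pd_jr m h, ← mul_assoc (sj m : ℂ),
    ← Complex.ofReal_mul, sj_sq]
  simp

lemma sg_sg (f : Fn) : Jl.sg (Jl.sg f) = f := funext fun z => by simp [Jl.sg, bar]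

lemma J_th {g : Fn} (hg : GF.IsTest g) : c.J (tr c.T g c.Q.vac : D) =
    (tr c.T (Jl.sg g) c.Q.vac : D) := by
  simp only [GF.tr, ← Completion.coe_toComplL (𝕜 := ℂ), map_sum, map_smul]
  simp only [Completion.coe_toComplL]
  refine Finset.sum_congr rfl fun m _ => ?_
  rw [map_smulₛₗ, one c m m g hg, sj_sq]
  simp [Jl.sg]

/-- **`J` acts on the potential** -/
theorem jl (f : Fn) (hf : GF.IsTest f) : c.J (c.l f) = c.l (bar fun z => f (jr z)) := by
  have R := c.hN.toRep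
  have h : IsPot c.Q c.T fun f => c.J (c.l (Jl.sg f)) := by
    refine ⟨fun f g z a b => ?_, ?_, fun f a => ?_, fun s L y f v hs hL a => ?_⟩
    · rw [show (Jl.sg fun x => f x + z * g x) = fun x => Jl.sg f x + conj z * Jl.sg g x from
        funext fun x => by simp [Jl.sg, bar], c.hl.lin _ _ _ (test_sg a) (test_sg b), map_add,
        map_smulₛₗ, Complex.conj_conj]
    · let e := T.eqv rj rj (fun x => by rw [sim_rj, sim_rj, jr_jr]) fun x => by
        rw [sim_rj, sim_rj, jr_jr]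
      let B : Sch → Sch := fun g => SchwartzMap.postcompCLM (𝕜 := ℝ) (Complex.conjCLE : ℂ →L[ℝ] ℂ)
        (SchwartzMap.compCLMOfContinuousLinearEquiv ℂ e g)
      have hB : ∀ g, Jl.sg (ev g) = ev (B g) := fun g =>
        funext fun z => congrArg (fun x => star (g x)) (sim_rj z).symm
      simp only [hB]
      exact c.J.continuous.comp (c.hl.cont.comp (show Continuous B by fun_prop))
    · have d := sw_smooth a
      rw [show Jl.sg (box f) = box (Jl.sg f) by
        rw [Jl.sg, Jl.sg, ← box_jr d]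
        exact box_bar (d.comp jrL.contDiff), ← sg_sg f, ← J_th c (test_sg a),
        ← c.hl.trace _ (test_sg a), map_smulₛₗ, map_ofNat, sg_sg]
    · have e : Jl.sg (fun x => f (sim s L y x)) = fun x => Jl.sg f (sim s (jL L) (jr y) x) :=
        funext fun x => by
          rw [← jr_jr x, sim_jL]
          simp [Jl.sg, bar]
      have k := Grp.pot R c.hl (jr y) hs (isLor_jL hL) (test_sg a)
      have h3 : ((s ^ 2 : ℝ) : ℂ) ≠ 0 := Complex.ofReal_ne_zero.2 (by positivity)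
      rw [← Grp.coe hs hL, ← Grp.ug_inner hs hL y (v : Completion D), e,
        ← c.E.J_J (Ug c.Q s L y (c.J _)), ug c _ _ _ _ hs hL, c.E.J_J, k, ← Complex.coe_smul,
        map_smulₛₗ, Complex.conj_ofReal, inner_smul_right, Complex.ofReal_inv,
        mul_inv_cancel_left₀ h3]
  rw [h.unique c.hl f hf]
  exact c.E.J_J _

/-! ### tameness -/

variable {c} {N : ℕ} {g : Fn}

/-- the potential is tame on `f` -/
def TT (c : Bx D) (N : ℕ) (f : Fn) : Prop :=
  GF.IsTest f ∧ Tm (c.N W0) c.Om N (c.l f) (c.l (bar f))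

lemma TT.cast (h : TT c N f) (e : ∀ x, g x = f x) : TT c N g := funext e ▸ h

lemma lin (z : ℂ) (h : TT c N f) (h' : TT c N g) : TT c N fun x => f x + z * g x := by
  refine ⟨sw_lin z h.1 h'.1, ?_⟩
  rw [show (bar fun x => f x + z * g x) = fun x => bar f x + conj z * bar g x from
    funext fun x => by simp [bar], c.hl.lin _ _ _ h.1 h'.1,
    c.hl.lin _ _ _ (test_bar h.1) (test_bar h'.1)]
  exact (tmb_row (H := Completion D)).add _ _ _ _ _ _ _ h.2 ((tmb_row (H := Completion D)).smul _ _ _ _ _ _ h'.2)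

lemma zero : TT c N fun _ => 0 := by
  have : c.l (fun _ => 0) = 0 := by simpa using c.hl.lin _ _ 1 sw_zero sw_zero
  refine ⟨sw_zero, ?_⟩
  rw [show (bar fun _ => 0) = fun _ => 0 from funext fun _ => star_zero _, this]
  exact (tmb_row (H := Completion D)).zero _ _ _

lemma comb (a b : ℂ) (h : TT c N f) (h' : TT c N g) : TT c N fun x => a * f x + b * g x :=
  (lin b (lin a zero h) h').cast fun x => by rw [zero_add]

lemma tbox (m : ∀ k, ∃ n, ∀ g, In W0 g →
    Tm (c.N W0) c.Om n (c.T k k g c.Q.vac : D) (c.T k k (bar g) c.Q.vac : D)) :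
    ∃ N, ∀ g, In W0 g → TT c N (box g) := by
  choose n hn using m
  refine ⟨Finset.univ.sup n, fun g hg => ⟨test_box hg.1, ?_⟩⟩
  have e : ∀ f, GF.IsTest f → c.l (box f) = ∑ k, (3⁻¹ * eta k : ℂ) •
      ((c.T k k f c.Q.vac : D) : Completion D) := fun f hf => by
    rw [← inv_smul_smul₀ (three_ne_zero (α := ℂ)) (c.l _), c.hl.trace f hf, GF.tr,
      ← Completion.coe_toComplL (𝕜 := ℂ)]
    simp only [map_sum, map_smul, Finset.smul_sum, smul_smul]
  rw [box_bar (in_dc hg).1, e _ hg.1, e _ (test_bar hg.1)]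
  refine (tmb_row (H := Completion D)).sum _ _ _ _ _ _ _ fun k _ => ?_
  simpa [map_ofNat] using (tmb_row (H := Completion D)).smul _ _ _ (3⁻¹ * eta k) _ _ ((tmb_row (H := Completion D)).mono _ _ _ _ _ _
    (Finset.le_sup (Finset.mem_univ k)) (hn k g hg))

/-- the special conformal transformations -/
structure Sk (c : Bx D) (S : ℝ → Completion D →L[ℂ] Completion D) : Prop where
  uni : ∀ s, S s ∈ unitary (Completion D →L[ℂ] Completion D)
  vac : ∀ s, S s c.Om = c.Om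
  mem : ∀ s, 0 ≤ s → ∀ X ∈ c.N W0, S s * X * star (S s) ∈ c.N W0
  flow : ∀ f t, In {z | be z < 0} f → 0 ≤ t → S t (c.l f) = c.l (pb 2 t f)

lemma flow {S} (F : Sk c S) (hf : In W0 f) (h : TT c N f) {s : ℝ} (hs : 0 ≤ s) :
    TT c N (pb 2 s f) := by
  have k : W0 ⊆ {z | be z < 0} := fun z hz => (mem_W.1 hz).1
  obtain ⟨U, -, u, -, v⟩ := ch0_row.fam f (in_mono hf k)
  refine ⟨(v s (u hs)).1.1, ?_⟩
  rw [show bar (pb 2 s f) = pb 2 s (bar f) from funext fun z => by
    simp only [bar, pb]; split_ifs <;> simp, ← F.flow f s (in_mono hf k) hs,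
    ← F.flow _ s (in_mono (in_bar hf) k) hs]
  exact (tmb_row (H := Completion D)).ucj _ _ _ _ _ _ _ (F.uni s) (F.vac s) (F.mem s hs) h.2

lemma tug {a : V} {O : Set V} (hL : IsLor L) (e : ∀ z ∈ O, sim 1 L a z ∈ W0)
    (hf : GF.IsTest f) (h : Tm (c.N O) c.Om N (c.l fun x => f (sim 1 L a x))
      (c.l fun x => bar f (sim 1 L a x))) : TT c N f := by
  have R := c.hN.toRep
  have := (tmb_row (H := Completion D)).ucj _ (c.N W0) _ _ _ _ _ (Grp.uni R 1 L a) (Grp.vac R 1 L a) (fun X hX =>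
    c.hN.mono _ W0 (Set.image_subset_iff.2 e) _ (Grp.alg1 c.hN one_pos hL a hX)) h
  rw [Grp.pot R c.hl _ one_pos hL hf, Grp.pot R c.hl _ one_pos hL (test_bar hf)] at this
  exact ⟨hf, by simpa using this⟩

lemma refl (h : TT c N f) : TT c N (bar fun z => f (ta z)) := by
  have := (tmb_row (H := Completion D)).anti _ (c.N W1) _ _ _ _ c.J c.E.J_J c.E.J_xi (fun X hX =>
    ((H268.s0 c.hG c.hN).vnet.dual va vb _ null_va null_vb md_ab).2 (c.E.J_mem X hX)) h.2
  rw [jl c f h.1, jl c _ (test_bar h.1)] at this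
  refine tug (a := 0) (O := W1) TPD.ten3_row.sw.1 (fun z hz => ?_)
    (test_bar (test_conf0 conf_ta h.1)) ?_
  · simpa [sw_eq, Wdg, md_va, md_vb] using hz
  · simp only [bar, ta, sw_sw]
    exact this

lemma tra (y : R2) (h : TT c N f) : TT c N fun z => f (z + tv y) :=
  tug (a := -tv y) (O := W0) H496.isLor_one (fun z hz => by simpa [sim_ut, mem_W] using hz)
    (sw_tr _ h.1) (by
      simp only [sim_ut, bar, neg_add_cancel_right]
      exact h.2)

/-- **the potential is tame** -/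
theorem tml {S} (F : Sk c S) (m : ∀ k, ∃ n, ∀ g, In W0 g →
    Tm (c.N W0) c.Om n (c.T k k g c.Q.vac : D) (c.T k k (bar g) c.Q.vac : D)) :
    ∃ n, ∀ f, In W0 f → Tm (c.N W0) c.Om n (c.l f) (c.l (bar f)) := by
  obtain ⟨N, hb⟩ := tbox m
  have h1 : ∀ h, In W0 h → TT c N (dv va h) := fun h hh => by
    obtain ⟨s, g, G, hs, hg, hG, e⟩ := (chn_row ch0_row).s1 h hh
    refine (comb ((4 * s : ℝ) : ℂ)⁻¹ (-((4 * s : ℝ) : ℂ)⁻¹) (hb G hG)
      (flow F (in_box hg) (hb g hg) hs.le)).cast fun x => ?_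
    have : ((4 * s : ℝ) : ℂ) ≠ 0 := Complex.ofReal_ne_zero.2 (by positivity)
    rw [e]
    field_simp
    ring
  have h2 : ∀ h, In W0 h → TT c N (dv vb h) := fun h hh => by
    refine (comb (-1) 0 (refl (h1 _ (in_bar (in_mono (in_conf0 conf_ta hh) fun z hz => by
      simpa [mem_W, ta, sw_eq, and_comm] using hz)))) zero).cast fun x => ?_
    have d := sw_diff hh.1
    have := dv_aff (conf_ta.cle : V →L[ℝ] V) 0 (d (conf_ta.cle (ta x) + 0)) va
    simp only [add_zero, ContinuousLinearEquiv.coe_coe, Conf.cle_apply, ta_ta, ta_va,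
      dv_neg_l] at this
    simp [bar, dv_bar (sw_diff (test_conf0 conf_ta hh.1) (ta x)) va, this]
  have h3 : ∀ k, In W0 k → TT c N (Eu k) := fun k hk => by
    obtain ⟨s, g, G, G', hs, hg, hG, hG', e⟩ := (chn_row ch0_row).s2 k hk
    refine (comb ((2 * s : ℝ) : ℂ)⁻¹ (-((2 * s : ℝ) : ℂ)⁻¹)
      (flow F (in_dv _ hg) (h2 g hg) hs.le)
      (lin ((2 * s ^ 2 : ℝ) : ℂ) (h2 G hG) (h1 G' hG'))).cast fun x => ?_
    have : ((2 * s : ℝ) : ℂ) ≠ 0 := Complex.ofReal_ne_zero.2 (by positivity)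
    rw [e]
    field_simp
    ring
  have h4 : ∀ i k, In W0 k → TT c N (dv (ex i) k) := fun i k hk => by
    refine (comb 1 (-1) (h3 k hk) (tra (-e2 i) (h3 _ (in_mono (in_tr (ex i) hk)
      fun z hz => by simpa [mem_W] using hz)))).cast fun x => ?_
    have : x + tv (-e2 i) + ex i = x := null_ext (by simp) (by simp) (by simp)
    simp only [EB.Eu, dv_tr, this, tx_add, tx_tv]
    fin_cases i <;> simp [e2, -tx_0, -tx_1] <;> ring
  refine ⟨N, fun k hk => ?_⟩
  have u : ∀ i, In W0 fun z => (tx z i : ℂ) * k z := fun i =>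
    in_rmul (contDiff_pi.1 txL.contDiff i) hk
  refine ((comb 2⁻¹ (-2⁻¹) (lin 1 (h4 0 _ (u 0)) (h4 1 _ (u 1))) (h3 k hk)).cast
    fun x => ?_).2
  have d : ∀ i, DifferentiableAt ℝ (fun z => (tx z i : ℂ)) x := fun i =>
    ((smooth_cx (contDiff_pi.1 txL.contDiff i)).differentiable (by simp)) x
  simp only [dv_mul (d _) (sw_diff hk.1 x), dv_tx, tx_ex, e2_self, EB.Eu, Fin.sum_univ_two]
  push_cast
  ring

end Vale.Agent.N352.E.Jb
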