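import Vale.Agent.N352.E.Jb
import Vale.Agent.N352.U.As1
import Vale.Agent.N352.U.Gx
import Vale.Agent.N352.SlB
import Vale.Agent.P352X.EG.MB
import Vale.Agent.P352X.EG.LIFT

/-!
# N352, block E: the potential is tame and local, for degenerate vacua (helper21)
-/

set_option linter.all false

open Filter Topology Set
open scoped SchwartzMap

namespace Vale.Agent.N352.E

open Vale.Agent.P352 Vale.Agent.P352.GF Vale.Agent.P352.BW Vale.Agent.P352.H246
open Vale.Agent.P352.H496 Vale.Agent.P352.H755 Vale.Agent.P352.H15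
open Vale.Agent.P352X Vale.Agent.P352X.EB
open Vale.Agent.P352X.EG (Cg)
open UniformSpace (Completion)
open U (Rows IVac Ctr Fib Lnk Fb)
open Sl (Opp)
open Nt (Nd mem_Nd)

noncomputable section

universe u

variable {D : Type u} [NormedAddCommGroup D] [InnerProductSpace ℂ D] {T : Ix → Ix → Fld D}
  {l : Fn → Completion D} {O : Set V} {f : Fn} {Y : Completion D →L[ℂ] Completion D}

theorem lnm_of {c : Cg D} (h1 : c.Γ = 1) (hR : Rep c.Q c.A) : LNm c.Q c.A c.N :=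
  ⟨hR, c.hN.fld, c.hN.mono, c.hN.cov, fun a b X ha hb ab hX => by
    have := smul_mem_vn 2⁻¹ (c.hN.loc a b X ha hb ab hX).1
    rwa [h1, one_mul, mul_one, ← two_smul ℂ, inv_smul_smul₀ two_ne_zero] at this⟩

/-- **wedge duality** -/
theorem dual_of {Q : Theory D} {A N} (hG : TfGen Q) (hN : LNm Q A N) {a b : V} (y : V)
    (ha : IsNull a) (hb : IsNull b) (hab : 0 < GF.mdot a b) :
    (N (Wdg a b y)).commutant = N (Wdg b a y) := by
  obtain ⟨b, hb, hab, e⟩ := JCb.norm_ab hb hab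
  rw [(e y).1, (e y).2]
  have hu := Grp.uni hN.toRep 1 GF.one y
  have g := fun O => Grp.alg hN one_pos H496.isLor_one y O
  ext X
  have s : Ug Q 1 GF.one y * (star (Ug Q 1 GF.one y) * X * Ug Q 1 GF.one y) *
      star (Ug Q 1 GF.one y) = X := by
    simp only [← mul_assoc]
    rw [hu.2, one_mul, mul_assoc, hu.2, mul_one]
  rw [← s, ← JCb.wdg_tr a b, ← JCb.wdg_tr b a, ← g, ← JCb.comm_conj hu (g _)]
  exact ((H268.s0 hG hN).vnet.dual a b _ ha hb hab).symm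

/-- **the potential is tame** -/
theorem tmlI (R : Rows D) (c : Cg D) (h1 : c.Γ = 1) (hR : Rep c.Q c.A) (hG : TfGen c.Q)
    (hI : IVac c.Q) (hM : MfAll c.Q) (hF : FSL c.Q) (hE : EBd c.Q) (hT : c.Q.IsStress T)
    (hA : ND.PCh c.Q T c.A) (hl : IsPot c.Q T l) :
    ∃ n, ∀ f, In W0 f → Tm (c.N W0) c.Om n (l f) (l (bar f)) := by
  obtain ⟨N, h, Z, z, b⟩ := R.ctr c hI
  obtain ⟨g, e1, rfl, x⟩ := R.gxi ⟨_, _, _, _, N, h⟩ Z hI hM hF z (R.pack _ Z z hI hM hF) T hT hA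
  obtain ⟨c', T, SK, l', bt, hT', hl'⟩ := g
  obtain rfl : c' = _ := e1
  have hN := lnm_of (c := ⟨_, _, _, _, N, h⟩) h1 hR
  obtain ⟨E⟩ := hN.modW Grp.na Grp.nb Grp.nab
  have t := U.As.e0 (R.e0 _) x
  refine (Jb.tml (c := ⟨c.Q, T, c.A, N, l, E, hT, hG, hN, hl⟩) (S := SK)
    ⟨x.ugK.uni, x.K_vac, fun s hs X hX => mem_cc.1 (VonNeumannAlgebra.mem_commutant_iff.2
      fun Y hY => ?_), fun f s hf hs => ?_⟩ fun k => ?_).imp fun n k f hf =>
    have ⟨C, a, p, q⟩ := k f hf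
    ⟨C, a, fun i => ⟨b _ _ _ Grp.na Grp.nb Grp.nab _ (p i).1, (p i).2⟩, q⟩
  · have u : SK s * star (SK s) = 1 := (x.ugK.uni s).2
    have e : X * (star (SK s) * Y * SK s) = star (SK s) * Y * SK s * X :=
      comm_mul hX (t.skc s hs Y hY)
    calc _ = SK s * (star (SK s) * Y * SK s * X) * star (SK s) := by
          simp only [← mul_assoc, u, one_mul]
      _ = _ := by rw [← e]; simp only [mul_assoc, u, mul_one]
  · obtain ⟨U, -, p, -, q⟩ := ch0_row.fam f hf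
    exact ((congrArg _ (hl'.unique hl f hf.1)).trans (x.flow f s hf hs)).trans
      (hl'.unique hl _ (q s (p hs)).1.1).symm
  · have hb := c.Q.bose_fld _ (hT.bose k k)
    exact (EG.mb_row (R.e0 ⟨_, _, _, _, N, h⟩) hE _ _ hb hb (hT.herm k k)).imp fun n m g =>
      m _ g (wdg_open _ _ _)

theorem opp_fin {c : Cg D} {Z} (hZ : Ctr c Z) (h : Opp c.N O Y) :
    ∃ ops : Set (Completion D →L[ℂ] Completion D), ops.Finite ∧ (∀ X ∈ ops, X ∈ Z.commutant) ∧
      (∀ S : Submodule ℂ (Completion D), (∀ X ∈ ops, ∀ v ∈ S, X v ∈ S ∧ star X v ∈ S) →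
        ∀ v ∈ S, Y v ∈ S ∧ star Y v ∈ S) ∧ ∀ (y : Fib c Z) F0 R k e, Lnk y F0 R k e →
        (∀ X ∈ ops, X ∈ y.b.P) → ∃ Y', y.b.Rl Y Y' ∧ Opp k.N O Y' := by
  induction h with
  | one => exact ⟨∅, finite_empty, by simp, fun S _ v hv => ⟨hv, by rwa [star_one]⟩,
      fun y _ _ k _ _ _ => ⟨1, ⟨one_mem _, Fb.π_one⟩, .one⟩⟩
  | mul a b y X W ha hb hab hO hX _ ih =>
    obtain ⟨s, p1, p2, p3, p4⟩ := ih
    refine ⟨insert X s, p1.insert X, forall_mem_insert.2 ⟨?_, p2⟩, fun S h v hv => ?_,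
      fun y F0 R k e L h => ?_⟩
    · exact VonNeumannAlgebra.mem_commutant_iff.2 fun z hz => (comm_mul hX (hZ.sub _ z hz).2).symm
    · obtain ⟨q1, q2⟩ := forall_mem_insert.1 h
      rw [star_mul]
      exact ⟨(q1 _ (p3 S q2 v hv).1).1, (p3 S q2 _ (q1 v hv).2).2⟩
    · obtain ⟨q1, q2⟩ := forall_mem_insert.1 h
      obtain ⟨W', r, o⟩ := p4 y F0 R k e L q2
      exact ⟨_, Fb.Rl.mul ⟨q1, rfl⟩ r, .mul a b _ _ _ ha hb hab hO (L.net _ X hX q1) o⟩

/-- **the potential is local relative to the net** -/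
theorem locI (R : Rows D) (c : Cg D) {Z} (hZ : Ctr c Z) (hI : IVac c.Q) (hM : MfAll c.Q)
    (hF : FSL c.Q) (hT : c.Q.IsStress T) (hA : ND.PCh c.Q T c.A) (hl : IsPot c.Q T l)
    (hf : In O f) (hY : Opp c.N O Y) :
    inner ℂ (star Y c.Om) (l f) = inner ℂ (l (bar f)) (Y c.Om) := by
  obtain ⟨ops, o1, o2, o3, o4⟩ := opp_fin hZ hY
  obtain ⟨κ, hκ⟩ := hl.exists_clm
  let Λ : Sch →L[ℂ] Completion D := κ ∘L SchwartzMap.compCLMOfContinuousLinearEquiv ℂ
    (EuclideanSpace.equiv (Fin 4) ℝ)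
  have hΛ : ∀ f, Λ f = l (ev f) := fun f => hκ _
  obtain ⟨X, F, y, S, s, a1, a2, a3, a4, -, a6⟩ := R.pack c Z hZ hI hM hF
    (range fun q : Ix × Ix => T q.1 q.2) ops (range fun j => Λ (U.tot V j)) ∅ (countable_range _)
    o1.countable (countable_range _) countable_empty
    (by rintro _ ⟨q, rfl⟩; exact c.Q.bose_fld _ (hT.bose _ _)) o2 (by simp)
  have m : ∀ f, Λ f ∈ S := fun f => a1.closure_subset
    (U.tot_mem Λ S (fun j => S.le_topologicalClosure (a3 _ ⟨j, rfl⟩)) f)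
  have m1 : ∀ f, IsTest f → l f ∈ S := by
    rintro _ ⟨f, rfl⟩
    exact hΛ f ▸ m f
  have a5 := o3 S a4 _ a2
  refine s.glue _ a5.2 _ (m1 _ hf.1) _ (m1 _ hf.bar.1) _ a5.1 ?_
  filter_upwards [a6, s.temp V Λ m, (eventually_all_finite o1).2 fun W hW => s.top W (o2 W hW)
    (fun v h => (a4 W hW v h).1) fun v h => (a4 W hW v h).2] with x ⟨k, e, L⟩ q p
  obtain ⟨Y', r, o⟩ := o4 _ _ _ k e L p
  have h0 : ∀ m n, T m n ∈ range fun q : Ix × Ix => T q.1 q.2 := fun m n => ⟨(m, n), rfl⟩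
  have m' : ∀ f, IsTest f → l f ∈ (y x).b.L := by
    rintro _ ⟨f, rfl⟩
    exact hΛ f ▸ q.1 f
  rw [r.ap (y x).b.om, r.star.ap (y x).b.om, L.om]
  exact Sl.loc_net k L.uv L.mf L.fs (L.str T h0 hT hA)
    (L.st0 T h0 ⟨hT.bose, hT.symm, hT.herm, fun m n L a f v => hT.cov m n 1 L a f v one_pos,
      hT.conserved, hT.charge⟩ hA).2 (L.pot h0 hl m' (by simpa only [hΛ] using q.2)) hf o

section opp

variable {H : Type*} [NormedAddCommGroup H] [InnerProductSpace ℂ H] [CompleteSpace H]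
  {N : Set V → VonNeumannAlgebra H} {X Y : H →L[ℂ] H}

theorem opp_mul (h : Opp N O X) (k : Opp N O Y) : Opp N O (X * Y) := by
  induction h with
  | one => rwa [one_mul]
  | mul a b y X W ha hb hab hO hX _ ih => exact mul_assoc X W Y ▸ .mul a b y X _ ha hb hab hO hX ih

theorem opp_star (h : Opp N O X) : Opp N O (star X) := by
  induction h with
  | one => rw [star_one]; exact .one
  | mul a b y X W ha hb hab hO hX _ ih =>
    exact star_mul X W ▸ opp_mul ih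
      (mul_one (star X) ▸ .mul a b y _ _ ha hb hab hO (star_mem hX) .one)

end opp

/-- **the potential is local relative to the dual net** -/
theorem locN (R : Rows D) (c : Cg D) (h1 : c.Γ = 1) (hR : Rep c.Q c.A) (hG : TfGen c.Q)
    (hI : IVac c.Q) (hM : MfAll c.Q) (hF : FSL c.Q) (hT : c.Q.IsStress T)
    (hA : ND.PCh c.Q T c.A) (hl : IsPot c.Q T l) (hf : In O f) :
    Pr (Nd c.N O) c.Om (l f) (l (bar f)) := fun W hW => by
  obtain ⟨N, h, Z, z, b⟩ := R.ctr c hI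
  have hN := lnm_of (c := ⟨_, _, _, _, N, h⟩) h1 hR
  rw [ContinuousLinearMap.star_eq_adjoint, ContinuousLinearMap.adjoint_inner_left]
  refine EG.LiftAux.dns2 {Y | Opp N O Y} .one (fun _ p _ => opp_mul p) (fun _ => opp_star) W
    (fun x hx => comm_mul (mem_Nd.2 fun a a' y ha ha' hab hO => ?_) hW) _ _ _ _ fun Y hY => ?_
  · obtain ⟨a', ha', hab, e⟩ := JCb.norm_ab ha' hab
    rw [(e y).1] at hO ⊢
    have p : 0 < GF.mdot a' a := by rw [H755.mdot_comm, hab]; exact one_pos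
    refine b a a' y ha ha' hab x ((dual_of hG hN y ha' ha p).le
      (VonNeumannAlgebra.mem_commutant_iff.2 fun Y hY => hx Y ?_))
    exact mul_one Y ▸ .mul a a' y _ _ ha ha' (hab ▸ one_pos) hO hY .one
  · rw [← ContinuousLinearMap.adjoint_inner_left, ← ContinuousLinearMap.star_eq_adjoint]
    exact locI R ⟨_, _, _, _, N, h⟩ z hI hM hF hT hA hl hf hY

end

end Vale.Agent.N352.E
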