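import Vale.Agent.N352.E.Cf
import Vale.Agent.P352L.Gd.Main

/-!
# N352, block E: the sector of a family of hermitian Bose fields and its net
-/

set_option linter.all false

open MeasureTheory Filter Topology
open scoped SchwartzMap ComplexConjugate ContDiff

namespace Vale.Agent.N352.E

export Vale.Agent.P352X.EG.Lg (Wc Cs Nn)

open Vale.Agent.P352 Vale.Agent.P352.GF Vale.Agent.P352.BW Vale.Agent.P352.H246
open Vale.Agent.P352.H496 Vale.Agent.P352.H755 Vale.Agent.P352.H15
open Vale.Agent.P352.SubConf (IsAdj)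
open Vale.Agent.P352X Vale.Agent.P352X.EB
open UniformSpace (Completion)
open Complex (I)
open ContinuousLinearMap (adjoint)
open EG.Sct (ev_sch der_iso der_mem)
open EG.NBa (rd rd_in rd_star)
open EG (LIFT BIC)

noncomputable section

variable {D : Type*} [NormedAddCommGroup D] [InnerProductSpace ℂ D] {ι : Type*}

section defs

variable (c : Cf D) (T : ι → Fld D)

/-- a covariant family of hermitian Bose fields -/
structure HF : Prop where
  bose : ∀ i, c.Q.bose (T i)
  herm : ∀ i, IsAdj (T i) (T i)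
  cov : ∀ i s L a, 0 < s → IsLor L → ∃ (κ : Ix × Ix → ℝ) (b : Ix × Ix → ι), ∀ f v, IsTest f →
    T i f (c.Q.U s L a v) =
      ∑ p, (κ p : ℂ) • c.Q.U s L a (T (b p) (fun x => f (sim s L a x)) v)

/-- the polynomials in `T` applied to the vacuum -/
def S0 : Submodule ℂ D := sInf {S | c.Q.vac ∈ S ∧ ∀ i f v, IsTest f → v ∈ S → T i f v ∈ S}

/-- their closure -/
def HB : Submodule ℂ (Completion D) :=
  ((S0 c T).map (Completion.toComplL : D →L[ℂ] Completion D).toLinearMap).topologicalClosure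

instance : (HB c T).HasOrthogonalProjection :=
  haveI : CompleteSpace (HB c T) := (Submodule.isClosed_topologicalClosure _).completeSpace_coe
  inferInstance

/-- the projection on the sector -/
def Pj : Completion D →L[ℂ] Completion D := (HB c T).starProjection

/-- the properties of the weak commutant -/
structure WC0 : Prop where
  one : ∀ O, 1 ∈ Wc T O
  add : ∀ O, ∀ Y ∈ Wc T O, ∀ Y' ∈ Wc T O, Y + Y' ∈ Wc T O
  smul : ∀ O (s : ℂ), ∀ Y ∈ Wc T O, s • Y ∈ Wc T O
  star : ∀ O, ∀ Y ∈ Wc T O, star Y ∈ Wc T O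
  mul : ∀ O, IsOpen O → ∀ Y ∈ Wc T O, ∀ Y' ∈ Wc T O, Y * Y' ∈ Wc T O
  anti : ∀ O O', O ⊆ O' → ∀ Y ∈ Wc T O', Y ∈ Wc T O
  gam : ∀ O, c.Γ ∈ Wc T O
  pj : ∀ O, Pj c T ∈ Wc T O
  cov : ∀ (g : Sh c) O, ∀ Y ∈ Wc T O, Star.star (g.U c) * Y * g.U c ∈ Wc T (g.act ⁻¹' O)

end defs

variable {c : Cf D} {T : ι → Fld D}

theorem HF.fld (hT : HF c T) (i : ι) : c.Q.fld (T i) := c.Q.bose_fld _ (hT.bose i)

theorem herm' (hT : HF c T) (i : ι) {f : Fn} (hf : IsTest f) (v w : D) :
    inner ℂ ((T i (bar f) w : D) : Completion D) (v : Completion D) =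
      inner ℂ (w : Completion D) ((T i f v : D) : Completion D) := by
  rw [Completion.inner_coe, Completion.inner_coe, hT.herm i _ w v (isTest_bar hf), bar_bar]

theorem s0_T {i : ι} {f : Fn} (hf : IsTest f) {s : D} (hs : s ∈ S0 c T) : T i f s ∈ S0 c T :=
  Submodule.mem_sInf.2 fun S hS => hS.2 i f s hf (Submodule.mem_sInf.1 hs S hS)

theorem s0_U (t : E0 c) (hT : HF c T) (a : V) {s : D} (hs : s ∈ S0 c T) :
    c.Q.U 1 GF.one a s ∈ S0 c T := by
  have k := fun v => t.sg.coe 1 GF.one a v one_pos H496.isLor_one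
  let l : D →ₗ[ℂ] D :=
    { toFun := c.Q.U 1 GF.one a
      map_add' := fun v w => Completion.coe_injective D (by
        simp only [Completion.coe_add, ← k, map_add])
      map_smul' := fun z v => Completion.coe_injective D (by
        simp only [Completion.coe_smul, ← k, map_smul, RingHom.id_apply]) }
  refine Submodule.mem_sInf.1 hs ((S0 c T).comap l) ⟨?_, fun i f v hf hv => ?_⟩
  · show c.Q.U 1 GF.one a c.Q.vac ∈ S0 c T
    rw [c.Q.U_vac 1 _ a one_pos H496.isLor_one]
    exact Submodule.mem_sInf.2 fun S hS => hS.1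
  · have h1 := c.Q.transl (T i) a _ v (hT.fld i) (EG.WCp.test_tr hf (-a))
    have h2 : (fun x => f (sim 1 GF.one (-a) (sim 1 GF.one a x))) = f := by
      funext x; rw [HM.sim_tr, HM.sim_tr, add_neg_cancel_right]
    rw [h2] at h1
    show c.Q.U 1 GF.one a (T i f v) ∈ S0 c T
    rw [← h1]
    exact s0_T (EG.WCp.test_tr hf (-a)) hv

theorem pj_mem (u : Completion D) :
    Pj c T u ∈ closure ((fun s : D => (s : Completion D)) '' S0 c T) :=
  (HB c T).starProjection_apply_mem u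

theorem pj_fix {s : D} (hs : s ∈ S0 c T) (u : Completion D) :
    inner ℂ (s : Completion D) (Pj c T u) = inner ℂ (s : Completion D) u := by
  have : (s : Completion D) ∈ HB c T := subset_closure ⟨s, hs, rfl⟩
  rw [Pj, ← Submodule.inner_starProjection_left_eq_right,
    Submodule.starProjection_eq_self_iff.2 this]

theorem cov (t : E0 c) (hT : HF c T) (h : Sh c) (i : ι) : ∃ (κ : Ix × Ix → ℝ) (b : Ix × Ix → ι),
    ∀ f, IsTest f → ∀ v v' : D, (v : Completion D) = h.U c v' →
      ((T i f v : D) : Completion D) =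
        h.U c (∑ p, (κ p : ℂ) • ((T (b p) (h.pull f) v' : D) : Completion D)) := by
  obtain ⟨κ, b, hc⟩ := hT.cov i h.s h.L h.a h.hs h.hL
  refine ⟨κ, b, fun f hf v v' e => ?_⟩
  have k := fun v => t.sg.coe h.s h.L h.a v h.hs h.hL
  have h1 : ((T i f (c.Q.U h.s h.L h.a v') : D) : Completion D) = Ug c.Q h.s h.L h.a
      (∑ p, (κ p : ℂ) • ((T (b p) (h.pull f) v' : D) : Completion D)) := by
    rw [hc f v' hf]
    simp only [map_sum, map_smul, k]
    change Completion.toComplL (𝕜 := ℂ) _ = _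
    simp only [map_sum, map_smul]
    rfl
  unfold Sh.U at e ⊢
  cases he : h.e
  · rw [he, cond_false, k] at e
    rw [cond_false, ← h1, Completion.coe_injective D e]
  · rw [he, cond_true, ContinuousLinearMap.mul_apply, k, c.hN.ext] at e
    rw [cond_true, ContinuousLinearMap.mul_apply, ← h1, Completion.coe_injective D e, c.hN.ext,
      c.hN.bose _ _ _ (hT.bose i) hf]

theorem cont_tr {B : Fld D} (hB : c.Q.fld B) {f : Fn} (hf : IsTest f) (v : D) :
    Continuous fun a : V => ((B (fun x => f (sim 1 GF.one a x)) v : D) : Completion D) := by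
  obtain ⟨g, rfl⟩ := hf
  refine (Completion.continuous_coe D).comp
    (((c.Q.cont B v hB).comp ((continuous_shift g).comp continuous_neg)).congr fun a => ?_)
  refine congrArg (fun h => B h v) (funext fun x => ?_)
  rw [HM.sim_tr]
  exact congrArg g (sub_neg_eq_add x a)

open EG.WCp (in_tr tr0 of_cl test_tr) in
theorem wc_thm (t : E0 c) (eb : ∀ i, EB1 c.Q (T i)) (hT : HF c T) : WC0 c T := by
  have fl := hT.fld
  refine ⟨fun O i f hf v w => herm' hT i hf.1 v w, fun O Y hY Y' hY' i f hf v w => ?_,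
    fun O s Y hY i f hf v w => ?_, fun O Y hY i f hf v w => ?_,
    fun O hO Y hY Y' hY' i f hf v w => ?_,
    fun O O' h Y hY i f hf => hY i f ⟨hf.1, hf.2.1, hf.2.2.trans h⟩,
    fun O i f hf v w => ?_, fun O i f hf v w => ?_,
    fun g O Y hY i f hf v w => ?_⟩
  · simp only [ContinuousLinearMap.add_apply, inner_add_right, hY i f hf, hY' i f hf]
  · simp only [ContinuousLinearMap.smul_apply, inner_smul_right, hY i f hf]
  · have := hY i _ hf.bar w v
    rw [bar_bar] at this
    rw [ContinuousLinearMap.star_eq_adjoint, ContinuousLinearMap.adjoint_inner_right,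
      ContinuousLinearMap.adjoint_inner_right, ← inner_conj_symm, ← this, inner_conj_symm]
  · obtain ⟨ε, hε, h⟩ := in_tr hO hf
    have := gr1 t ⊤ (T i) (T i) f (Y' v)
      (fun a => Y' (T i (fun x => f (sim 1 GF.one a x)) v : D)) ε hε (eb i) (fl i)
      (hT.herm i) ⟨hf.1, hf.2.1, Set.subset_univ _⟩ (fun _ _ _ => trivial) (fun _ _ => trivial)
      (by simpa using Completion.denseRange_coe _) (Y'.continuous.comp (cont_tr (fl i) hf.1 v))
      fun a ha => ⟨by simpa using Completion.denseRange_coe _, fun s _ => hY' i _ (h a ha) v s⟩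
    simp only [tr0] at this
    exact of_cl (φ := innerSL ℂ ((T i (bar f) w : D) : Completion D) ∘L Y)
      (ψ := innerSL ℂ (w : Completion D) ∘L Y) this fun s => hY i f hf s w
  · rw [c.hN.ext, c.hN.ext, herm' hT i hf.1, c.hN.bose _ _ _ (hT.bose i) hf.1]
  · have := gr1 t (S0 c T) (T i) (T i) f (Pj c T v)
      (fun a => Pj c T (T i (fun x => f (sim 1 GF.one a x)) v : D)) 1 one_pos (eb i) (fl i)
      (hT.herm i) ⟨hf.1, hf.2.1, Set.subset_univ _⟩ (fun a _ => s0_U t hT a)
      (fun _ => s0_T hf.1) (pj_mem _) ((Pj c T).continuous.comp (cont_tr (fl i) hf.1 v))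
      fun a _ => ⟨pj_mem _, fun s hs => by
        rw [pj_fix hs, pj_fix (s0_T (isTest_bar (test_tr hf.1 a)) hs), herm' hT i (test_tr hf.1 a)]⟩
    simp only [tr0] at this
    exact of_cl (φ := innerSL ℂ ((T i (bar f) w : D) : Completion D))
      (ψ := innerSL ℂ (w : Completion D)) this fun s => herm' hT i hf.1 s w
  · have u1 : ∀ z, g.inv.U c (g.U c z) = z := fun z => by
      rw [t.sg.U_inv, ← ContinuousLinearMap.mul_apply, (t.sg.uni g).1]; rfl
    have u2 : ∀ z, g.U c (g.inv.U c z) = z := fun z => by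
      rw [t.sg.U_inv, ← ContinuousLinearMap.mul_apply, (t.sg.uni g).2]; rfl
    obtain ⟨v', hv⟩ := t.sg.sur g v
    obtain ⟨w', hw⟩ := t.sg.sur g w
    have hi : In O (g.inv.pull f) := by
      obtain ⟨h1, h2, h3⟩ := t.sg.inn g.inv _ f hf
      exact ⟨h1, h2, fun x hx => t.sg.act_inv g x ▸ h3 hx⟩
    obtain ⟨κ, b, hc⟩ := cov t hT g.inv i
    have e1 := hc f hf.1 v v' (by rw [← hv, u1])
    have e2 := hc _ (isTest_bar hf.1) w w' (by rw [← hw, u1])
    simp only [ContinuousLinearMap.mul_apply, ContinuousLinearMap.star_eq_adjoint,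
      ContinuousLinearMap.adjoint_inner_right]
    rw [e1, e2, u2, u2, hv, hw]
    simp only [sum_inner, inner_sum, map_sum, map_smul, inner_smul_left, inner_smul_right,
      Complex.conj_ofReal]
    exact Finset.sum_congr rfl fun p _ => congrArg _ (hY (b p) _ hi v' w')

variable (c T) in
/-- the sector: a theory `q` of Bose fields `t` on `E`, embedded by `j` -/
structure Sec (E : Submodule ℂ D) (q : Theory E) (t : ι → Fld E) (a : (V → V) → E → E)
    (j : Completion E →L[ℂ] Completion D) : Prop where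
  coe : ∀ v : E, j v = ((v : D) : Completion D)
  iso : ∀ z, ContinuousLinearMap.adjoint j (j z) = z
  pj : ∀ z, j (ContinuousLinearMap.adjoint j z) = Pj c T z
  vac : (q.vac : D) = c.Q.vac
  U : ∀ s L y z, 0 < s → IsLor L → j (Ug q s L y z) = Ug c.Q s L y (j z)
  qU : ∀ s L y v, 0 < s → IsLor L → (q.U s L y v : D) = c.Q.U s L y v
  qA : ∀ r X v, IsSim r X → (a X v : D) = c.A X v
  eq : ∀ i f v, IsTest f → (t i f v : D) = T i f v
  fld : ∀ B, q.fld B → ∃ i, B = t i
  bose : ∀ i, q.bose (t i)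
  rep : Rep q a
  cyc : ∀ S : Submodule ℂ E, q.vac ∈ S → (∀ i f v, IsTest f → v ∈ S → t i f v ∈ S) →
    Dense (S : Set E)
  uv : UVac c.Q → UVac q
  gam : ∀ z, c.Γ (j z) = j z
  eb : (∀ i, EB1 c.Q (T i)) → EBd q

/-! ## the domain -/

variable (c T) in
/-- the vectors of `D` in the sector -/
def ES : Submodule ℂ D := (HB c T).comap (Completion.toComplL : D →L[ℂ] Completion D).toLinearMap

lemma mem_EE {v : D} : v ∈ ES c T ↔ (v : Completion D) ∈ HB c T := Iff.rfl

lemma S0_le {S : Submodule ℂ D} (h0 : c.Q.vac ∈ S)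
    (h : ∀ i f v, IsTest f → v ∈ S → T i f v ∈ S) : S0 c T ≤ S := sInf_le ⟨h0, h⟩

lemma vac_S0 : c.Q.vac ∈ S0 c T := Submodule.mem_sInf.2 fun _ h => h.1

lemma S0_EE : S0 c T ≤ ES c T := fun v hv =>
  Submodule.le_topologicalClosure _ (Submodule.mem_map_of_mem hv)

lemma HB_ind {A : Set (Completion D)} (hA : IsClosed A)
    (h : ∀ v ∈ S0 c T, (v : Completion D) ∈ A) : ∀ z ∈ HB c T, z ∈ A := fun z hz =>
  closure_minimal (by rintro _ ⟨v, hv, rfl⟩; exact h v hv) hA hz

lemma HB_closed : IsClosed (HB c T : Set (Completion D)) := Submodule.isClosed_topologicalClosure _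

/-- the hypotheses -/
structure Hy (c : Cf D) (T : ι → Fld D) : Prop where
  t : E0 c
  st : HF c T
  pj : Pj c T ∈ Wc T Set.univ

variable (h : Hy c T)
include h

lemma Hy.T0 (i : ι) {f : Fn} (hf : In Set.univ f) {v : D} (hv : v ∈ ES c T) :
    T i f v ∈ ES c T := by
  refine mem_EE.2 (Submodule.starProjection_eq_self_iff.1 (ext_inner_left ℂ fun z => ?_))
  refine Completion.induction_on z (isClosed_eq (by fun_prop) (by fun_prop)) fun w => ?_
  have h1 := h.pj i f hf v w
  rw [Pj, Submodule.starProjection_eq_self_iff.2 (mem_EE.1 hv), Completion.inner_coe,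
    h.st.herm i _ _ _ (isTest_bar hf.1), bar_bar] at h1
  exact h1.symm.trans (Completion.inner_coe _ _).symm

lemma Hy.Tm (i : ι) {f : Fn} (hf : IsTest f) {v : D} (hv : v ∈ ES c T) :
    T i f v ∈ ES c T := by
  obtain ⟨g, rfl⟩ := hf
  have h1 := ((Completion.continuous_coe D).comp
    (c.Q.cont _ v (h.st.fld i))).continuousAt.tendsto.comp (h.t.ana.lim g)
  refine HB_closed.mem_of_tendsto h1 (Eventually.of_forall fun R => ?_)
  have h2 := h.t.ana.inn R (ev g) ⟨g, rfl⟩
  change ((T i (ev (sch (cutf R (ev g)))) v : D) : Completion D) ∈ HB c T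
  rw [ev_sch h2.1]
  exact h.T0 i ⟨h2.1, h2.2.1, Set.subset_univ _⟩ hv

lemma Hy.gam : ∀ z ∈ HB c T, c.Γ z = z := by
  let S : Submodule ℂ D :=
    { carrier := {v | c.G v = v}
      add_mem' := fun {a b} ha hb => by
        change c.G _ = _ at ha hb ⊢
        rw [h.t.bas.gadd, ha, hb]
      zero_mem' := by simpa using h.t.bas.gsmul 0 0
      smul_mem' := fun z a ha => by
        change c.G _ = _ at ha ⊢
        rw [h.t.bas.gsmul, ha] }
  have h1 : S0 c T ≤ S := S0_le c.hN.vac fun i f v hf hv => by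
    change c.G _ = _ at hv ⊢
    rw [← c.hN.bose _ f v (h.st.bose i) hf, hv]
  refine HB_ind (A := {z | c.Γ z = z}) (isClosed_eq c.Γ.continuous continuous_id) fun v hv => ?_
  change c.Γ _ = _
  rw [c.hN.ext, show c.G v = v from h1 hv]

lemma Hy.gamv {v : D} (hv : v ∈ ES c T) : c.G v = v :=
  Completion.coe_injective D ((c.hN.ext v).symm.trans (h.gam _ hv))

lemma Hy.star0 (g : Sg) : ∀ z ∈ HB c T, star (Ug c.Q g.s g.L g.a) z ∈ HB c T := by
  let g0 : Sh c := ⟨g, false⟩
  have hu : ∀ z, star (g0.U c) (g0.U c z) = z := fun z =>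
    congrArg (fun X : Completion D →L[ℂ] Completion D => X z) (h.t.sg.uni g0).1
  have hu' : ∀ z, g0.U c (star (g0.U c) z) = z := fun z =>
    congrArg (fun X : Completion D →L[ℂ] Completion D => X z) (h.t.sg.uni g0).2
  have hc : ∀ v : D, g0.U c v = (c.Q.U g.s g.L g.a v : D) := fun v =>
    h.t.sg.coe _ _ _ v g.hs g.hL
  let S : Submodule ℂ D :=
    (HB c T).comap (star (g0.U c) ∘L (Completion.toComplL : D →L[ℂ] Completion D)).toLinearMap
  have hS : ∀ v : D, v ∈ S ↔ star (g0.U c) (v : Completion D) ∈ HB c T := fun v => Iff.rfl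
  have h1 : S0 c T ≤ S := by
    refine S0_le ((hS _).2 ?_) fun i f v hf hv => (hS _).2 ?_
    · rw [show star (g0.U c) (c.Q.vac : Completion D) = c.Om from (h.t.sg.vac g0).2]
      exact S0_EE vac_S0
    · obtain ⟨w, hw⟩ := h.t.sg.sur g0.inv v
      rw [h.t.sg.U_inv] at hw
      have hw' : w ∈ ES c T := by
        rw [mem_EE, ← hw]
        exact (hS _).1 hv
      have hv' : v = c.Q.U g.s g.L g.a w := Completion.coe_injective D (by rw [← hc, ← hw, hu'])
      obtain ⟨κ, b, e⟩ := h.st.cov i g.s g.L g.a g.hs g.hL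
      rw [hv', e f w hf]
      change star (g0.U c) ((Completion.toComplL : D →L[ℂ] Completion D) _) ∈ _
      simp only [map_sum, map_smul]
      refine Submodule.sum_mem _ fun p _ => Submodule.smul_mem _ _ ?_
      rw [Completion.coe_toComplL, ← hc, hu]
      exact h.Tm (b p) (Grp.test_sim g.hs g.hL g.a hf) hw'
  exact HB_ind (A := {z | star (g0.U c) z ∈ HB c T})
    (HB_closed.preimage (star (g0.U c)).continuous) fun v hv => (hS v).1 (h1 hv)

lemma Hy.star1 (g : Sh c) : ∀ z ∈ HB c T, star (g.U c) z ∈ HB c T := by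
  obtain ⟨g, e⟩ := g
  cases e
  · exact h.star0 g
  · intro z hz
    change star (c.Γ * Ug c.Q g.s g.L g.a) z ∈ _
    rw [star_mul, h.t.sg.gs, ContinuousLinearMap.mul_apply, h.gam z hz]
    exact h.star0 g z hz

lemma Hy.Um {s : ℝ} {L : Ix → V} (hs : 0 < s) (hL : IsLor L) (a : V) {v : D} (hv : v ∈ ES c T) :
    c.Q.U s L a v ∈ ES c T := by
  have h1 := h.star1 (Sh.inv ⟨⟨s, L, a, hs, hL⟩, false⟩) _ hv
  rw [h.t.sg.U_inv, star_star] at h1
  rw [mem_EE, ← h.t.sg.coe s L a v hs hL]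
  exact h1

lemma Hy.Ad {s : ℝ → ℝ} {L : ℝ → Ix → V} {a : ℝ → V} {X : V → V} {v : D} (hv : v ∈ ES c T)
    (h1 : ∀ e, 0 < s e ∧ IsLor (L e))
    (h2 : HasDerivAt (fun e => c.Q.U (s e) (L e) (a e) v) (I • c.A X v) 0) :
    c.A X v ∈ ES c T :=
  ((ES c T).smul_mem_iff Complex.I_ne_zero).1
    (der_mem (HB c T) h2 fun e => h.Um (h1 e).1 (h1 e).2 _ hv)

lemma Hy.Am {r : ℝ} {X : V → V} (hX : IsSim r X) {v : D} (hv : v ∈ ES c T) :
    c.A X v ∈ ES c T := by
  obtain ⟨b, w, hw, hX⟩ := hX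
  obtain ⟨s, L, a, K⟩ := H746.exists_crv hw r b
  exact h.Ad hv (fun e => ⟨K.sp e, K.lor e⟩) (c.hN.der s L a X v K.s0 K.L0 K.a0
    (fun e => ⟨K.sp e, K.lor e⟩) fun n x => K.dX hX n x)

omit h

/-! ## the theory -/

open Classical in
variable (c T) in
/-- restriction to the sector -/
def rs (v : D) : ES c T := if hv : v ∈ ES c T then ⟨v, hv⟩ else 0

lemma rs_coe {v : D} (hv : v ∈ ES c T) : (rs c T v : D) = v := by rw [rs, dif_pos hv]

variable (c T) in
/-- the fields -/
def tt (i : ι) : Fld (ES c T) := fun f v => rs c T (T i f v)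

variable (c T) in
/-- the similitudes -/
def uu (s : ℝ) (L : Ix → V) (a : V) (v : ES c T) : ES c T := rs c T (c.Q.U s L a v)

variable (c T) in
/-- the generators -/
def aa (X : V → V) (v : ES c T) : ES c T := rs c T (c.A X v)

include h

lemma Hy.tc (i : ι) {f : Fn} (hf : IsTest f) (v : ES c T) :
    (tt c T i f v : D) = T i f v := rs_coe (h.Tm i hf v.2)

lemma Hy.uc {s : ℝ} {L : Ix → V} (hs : 0 < s) (hL : IsLor L) (a : V) (v : ES c T) :
    (uu c T s L a v : D) = c.Q.U s L a v := rs_coe (h.Um hs hL a v.2)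

lemma Hy.ac {r : ℝ} {X : V → V} (hX : IsSim r X) (v : ES c T) :
    (aa c T X v : D) = c.A X v := rs_coe (h.Am hX v.2)

lemma Hy.cyc (S : Submodule ℂ (ES c T)) (h0 : ⟨c.Q.vac, S0_EE vac_S0⟩ ∈ S)
    (h1 : ∀ i f v, IsTest f → v ∈ S → tt c T i f v ∈ S) : Dense (S : Set (ES c T)) := by
  have h2 : S0 c T ≤ S.map (ES c T).subtype := by
    refine S0_le ⟨_, h0, rfl⟩ ?_
    rintro i f _ hf ⟨v, hv, rfl⟩
    exact ⟨_, h1 i f v hf hv, h.tc i hf v⟩
  intro v
  refine Metric.mem_closure_iff.2 fun ε hε => ?_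
  obtain ⟨_, ⟨w, hw, rfl⟩, hd⟩ := Metric.mem_closure_iff.1 (mem_EE.1 v.2) ε hε
  obtain ⟨u, hu, rfl⟩ := h2 hw
  exact ⟨u, hu, (Completion.dist_eq (v : D) (u : D)).symm.trans_lt hd⟩

/-- the theory of the sector -/
def Hy.q : Theory (ES c T) where
  vac := ⟨c.Q.vac, S0_EE vac_S0⟩
  fld B := ∃ i, B = tt c T i
  bose B := ∃ i, B = tt c T i
  U := uu c T
  norm_vac := c.Q.norm_vac
  cyclic S h0 h1 := h.cyc S h0 fun i f v hf hv => h1 _ f v ⟨i, rfl⟩ hf hv
  lin := by
    rintro _ f g z v ⟨i, rfl⟩ hf hg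
    refine Subtype.ext ?_
    have h1 := c.Q.lin _ f g z v (h.st.fld i) hf hg
    rw [Submodule.coe_add, Submodule.coe_smul, h.tc i hf, h.tc i hg, ← h1]
    refine rs_coe ?_
    rw [h1]
    exact add_mem (h.Tm i hf v.2) (Submodule.smul_mem _ _ (h.Tm i hg v.2))
  cont := by
    rintro _ v ⟨i, rfl⟩
    refine continuous_induced_rng.2 ((c.Q.cont _ v (h.st.fld i)).congr fun g => ?_)
    exact (h.tc i ⟨g, rfl⟩ v).symm
  adj := by
    rintro _ ⟨i, rfl⟩
    refine ⟨_, ⟨i, rfl⟩, fun f v w hf => ?_⟩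
    rw [Submodule.coe_inner, Submodule.coe_inner, h.tc i hf, h.tc i (isTest_bar hf)]
    exact h.st.herm i f v w hf
  bose_fld _ h := h
  loc := by
    rintro _ _ f g v ⟨i, rfl⟩ ⟨k, rfl⟩ hf hg hs
    refine Subtype.ext ?_
    rw [h.tc i hf, h.tc k hg, h.tc k hg, h.tc i hf]
    exact c.Q.loc _ _ f g v (h.st.bose i) (h.st.fld k) hf hg hs
  U_inner s L a v w hs hL := by
    rw [Submodule.coe_inner, Submodule.coe_inner, h.uc hs hL, h.uc hs hL]
    exact c.Q.U_inner s L a v w hs hL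
  U_vac s L a hs hL := Subtype.ext ((h.uc hs hL a _).trans (c.Q.U_vac s L a hs hL))
  transl := by
    rintro _ a f v ⟨i, rfl⟩ hf
    refine Subtype.ext ?_
    rw [h.tc i hf, h.uc one_pos H496.isLor_one, h.uc one_pos H496.isLor_one,
      h.tc i (Grp.test_sim one_pos H496.isLor_one a hf)]
    exact c.Q.transl _ a f v (h.st.fld i) hf
  spectrum v := by
    obtain ⟨ν, h1, h2, h3⟩ := c.Q.spectrum v
    exact ⟨ν, h1, h2, fun a => by rw [Submodule.coe_inner, h.uc one_pos H496.isLor_one, h3]⟩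

lemma Hy.qU {s : ℝ} {L : Ix → V} (hs : 0 < s) (hL : IsLor L) (a : V) (v : ES c T) :
    (h.q.U s L a v : D) = c.Q.U s L a v := h.uc hs hL a v

lemma Hy.rep : Rep h.q (aa c T) where
  mul s L a s' L' a' v hs hs' hL hL' := by
    refine Subtype.ext ?_
    rw [h.qU hs hL, h.qU hs' hL', h.qU (mul_pos hs hs') (ue_lor hL hL')]
    rcases c.hN.mul s L a s' L' a' hs hs' hL hL' with h1 | h1
    · exact h1 v
    · rw [h1.2.2 v]
      exact h.gamv (h.Um (mul_pos hs hs') (ue_lor hL hL') _ v.2)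
  add r r' z X X' v hX hX' := by
    refine Subtype.ext ?_
    have h1 := c.hN.add r r' z X X' v hX hX'
    rw [Submodule.coe_add, Submodule.coe_smul, h.ac hX, h.ac hX', ← h1]
    refine rs_coe ?_
    rw [h1]
    exact add_mem (h.Am hX v.2) (Submodule.smul_mem _ _ (h.Am hX' v.2))
  der s L a X v h0 h1 h2 h3 h4 := by
    have h5 := c.hN.der s L a X v h0 h1 h2 h3 h4
    refine der_iso (ES c T).subtypeₗᵢ ?_
    have h6 : ((I • aa c T X v : ES c T) : D) = I • c.A X v := by
      rw [Submodule.coe_smul, aa, rs_coe (h.Ad v.2 h3 h5)]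
    simp only [Submodule.coe_subtypeₗᵢ, Submodule.coe_subtype, h6, fun e =>
      h.qU (h3 e).1 (h3 e).2 (a e) v]
    exact h5

lemma Hy.dv (m : Ix) (v : ES c T) : ((Dv h.q m v : ES c T) : D) = Dv c.Q m v := by
  have h1 := h.t.wb.der m v
  have h2 : Dv c.Q m v ∈ ES c T := der_mem (HB c T) h1 fun e => h.Um one_pos H496.isLor_one _ v.2
  have h3 : HasDerivAt (fun t : ℝ => h.q.U 1 GF.one (bas m t) v) ⟨_, h2⟩ 0 := by
    refine der_iso (ES c T).subtypeₗᵢ ?_
    simp only [Submodule.coe_subtypeₗᵢ, Submodule.coe_subtype, h.qU one_pos H496.isLor_one]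
    exact h1
  exact congrArg Subtype.val h3.deriv

lemma Hy.enq (k : ℕ) : ∀ v : ES c T, en h.q k v = en c.Q k v := by
  induction k with
  | zero => exact fun v => rfl
  | succ k ih => exact fun v => by simp only [en, ih, h.dv]

lemma Hy.eb (hE : ∀ i, EB1 c.Q (T i)) : EBd h.q := by
  rintro _ ⟨i, rfl⟩
  obtain ⟨k, hk⟩ := hE i
  refine ⟨k, fun f hf => (hk f hf).imp fun C hC v => ?_⟩
  rw [h.enq, Submodule.coe_norm, h.tc i hf.1]
  exact hC v

omit h

/-! ## the embedding -/

variable (c T) in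
/-- the embedding of the sector -/
def jj : Completion (ES c T) →L[ℂ] Completion D := (ES c T).subtypeL.completion

lemma jj_coe (v : ES c T) : jj c T v = ((v : D) : Completion D) :=
  (ES c T).subtypeL.completion_apply_coe v

lemma jj_inner (z w : Completion (ES c T)) : inner ℂ (jj c T z) (jj c T w) = inner ℂ z w :=
  Completion.induction_on₂ z w (isClosed_eq (by fun_prop) (by fun_prop)) fun a b => by
    rw [jj_coe, jj_coe, Completion.inner_coe, Completion.inner_coe, Submodule.coe_inner]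

lemma jj_iso (z : Completion (ES c T)) : adjoint (jj c T) (jj c T z) = z :=
  ext_inner_left ℂ fun w => by rw [ContinuousLinearMap.adjoint_inner_right, jj_inner]

lemma jj_mem (z : Completion (ES c T)) : jj c T z ∈ HB c T :=
  Completion.induction_on z (HB_closed.preimage (jj c T).continuous) fun v => by
    rw [jj_coe]
    exact v.2

lemma jj_pj (z : Completion D) : jj c T (adjoint (jj c T) z) = Pj c T z := by
  refine (Submodule.eq_starProjection_of_mem_of_inner_eq_zero (jj_mem _) ?_).symm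
  refine HB_ind (A := {w | inner ℂ (z - jj c T (adjoint (jj c T) z)) w = 0})
    (isClosed_eq (by fun_prop) continuous_const) fun v hv => ?_
  change inner ℂ _ _ = _
  rw [← jj_coe ⟨v, S0_EE hv⟩, inner_sub_left, jj_inner, ContinuousLinearMap.adjoint_inner_left,
    sub_self]

include h

lemma Hy.jU {s : ℝ} {L : Ix → V} (hs : 0 < s) (hL : IsLor L) (y : V) (z : Completion (ES c T)) :
    jj c T (Ue h.q s L y z) = Ue c.Q s L y (jj c T z) :=
  Completion.induction_on z (isClosed_eq ((jj c T).continuous.comp (ue_cont _ _ _))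
    ((ue_cont _ _ _).comp (jj c T).continuous)) fun v => by
      rw [ue_coe hs hL, jj_coe, jj_coe, ue_coe hs hL, h.qU hs hL]

lemma Hy.uv (hU : UVac c.Q) : UVac h.q := fun z hz => by
  obtain ⟨a, ha⟩ := hU (jj c T z) fun y => by rw [← h.jU one_pos H496.isLor_one, hz]
  refine ⟨a, ?_⟩
  rw [← jj_iso z, ha, ← jj_iso (a • om h.q), map_smul (jj c T)]
  exact congrArg (fun w => adjoint (jj c T) (a • w)) (jj_coe h.q.vac).symm

theorem Hy.sec : Sec c T (ES c T) h.q (tt c T) (aa c T) (jj c T) :=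
  ⟨jj_coe, jj_iso, jj_pj, rfl,
    fun s L y z hs hL => by rw [Ug_apply _ hs hL, Ug_apply _ hs hL, h.jU hs hL],
    fun s L y v hs hL => h.qU hs hL y v, fun r X v hX => h.ac hX v, fun i f v hf => h.tc i hf v,
    fun _ hB => hB, fun i => ⟨i, rfl⟩, h.rep, h.cyc, h.uv, fun z => h.gam _ (jj_mem z), h.eb⟩

omit h

section net

variable {E : Submodule ℂ D} {j : Completion E →L[ℂ] Completion D} (w : WC0 c T)
include w

theorem cs_star (O : Set V) : ∀ y ∈ Cs T j O, star y ∈ Cs T j O := by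
  rintro _ ⟨O', h1, h2, Y, hY, rfl⟩
  exact ⟨O', h1, h2, _, w.star O' Y hY, rd_star j Y⟩

theorem mem_nn {O : Set V} {x : Completion E →L[ℂ] Completion E} :
    x ∈ Nn T j O ↔ ∀ y ∈ Cs T j O, y * x = x * y :=
  (StarSubalgebra.mem_centralizer_iff ℂ).trans
    ⟨fun h y hy => (h y hy).1, fun h y hy => ⟨h y hy, h _ (cs_star w O y hy)⟩⟩

end net

variable (T) in
/-- the algebras of the family -/
def Aw (O : Set V) : VonNeumannAlgebra (Completion D) where
  toStarSubalgebra := StarSubalgebra.centralizer ℂ (Wc T O)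
  centralizer_centralizer' := by simp

theorem mem_aw (w : WC0 c T) {O : Set V} {x : Completion D →L[ℂ] Completion D} :
    x ∈ Aw T O ↔ ∀ y ∈ Wc T O, y * x = x * y :=
  (StarSubalgebra.mem_centralizer_iff ℂ).trans
    ⟨fun h y hy => (h y hy).1, fun h y hy => ⟨h y hy, h _ (w.star O y hy)⟩⟩

variable (c T) in
/-- strong locality of the family -/
structure SLf : Prop where
  dns : ∀ a b, IsNull a → IsNull b → GF.mdot a b = 1 →
    Dense {z | ∃ Y ∈ Wc T (Wdg a b 0), Y c.Om = z}
  loc : ∀ a b, IsNull a → IsNull b → GF.mdot a b = 1 → ∀ x ∈ Aw T (Wdg a b 0), x ∈ Wc T (Wdg b a 0)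

variable (T) in
/-- the operators of `N W` lift to operators of `Aw T W` -/
def Lf {E : Submodule ℂ D} (j : Completion E →L[ℂ] Completion D)
    (N : Set V → VonNeumannAlgebra (Completion E)) : Prop :=
  ∀ a b, IsNull a → IsNull b → GF.mdot a b = 1 → ∀ y ∈ N (Wdg a b 0), ∃ x ∈ Aw T (Wdg a b 0),
    ‖x‖ ≤ ‖y‖ ∧ (∀ z, x (j z) = j (y z)) ∧ ∀ z, star x (j z) = j (star y z)

theorem nb_thm (t : E0 c) (hT : HF c T) (sl : SLf c T) {E : Submodule ℂ D}
    {q : Theory E} {τ : ι → Fld E} {a : (V → V) → E → E} {j : Completion E →L[ℂ] Completion D}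
    (hl : LIFT (Completion D) (Completion E)) (hb : BIC E) (w : WC0 c T) (s : Sec c T E q τ a j) :
    ∃ N, LNm q a N ∧ Lf T j N := by
  have op : ∀ a b : V, IsOpen (Wdg a b 0) := fun a b => by
    have : ∀ a : V, Continuous fun x : V => GF.mdot a (x - 0) := fun a => by
      unfold GF.mdot
      fun_prop
    exact (isOpen_lt (this a) continuous_const).inter (isOpen_lt continuous_const (this b))
  have cm : ∀ a b : V, GF.mdot a b = 1 → GF.mdot b a = 1 := fun a b h => by
    rw [← h]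
    exact Finset.sum_congr rfl fun m _ => by ring
  have jv : j (om q) = c.Om := (s.coe _).trans (congrArg _ s.vac)
  have lf : Lf T j (Nn T j) := fun a b ha hb hab y hy => by
    obtain ⟨x, h1, h2, h3, h4⟩ := hl j (Wc T (Wdg a b 0)) (om q) y s.iso
      (fun Y hY Y' hY' => ⟨w.add _ Y hY Y' hY', w.mul _ (op a b) Y hY Y' hY'⟩)
      (fun Y hY => ⟨w.star _ Y hY, fun z => w.smul _ z Y hY⟩)
      (by
        rw [show j ∘L adjoint j = Pj c T from ContinuousLinearMap.ext s.pj]
        exact w.pj _)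
      (jv ▸ sl.dns a b ha hb hab)
      fun Y hY z => (DFunLike.congr_fun
        ((mem_nn w).1 hy _ ⟨_, op a b, subset_rfl, Y, hY, rfl⟩) z).symm
    exact ⟨x, (mem_aw w).2 h2, h1, h3, h4⟩
  refine ⟨Nn T j, ⟨s.rep, fun O B f hB hf => ?_, fun O O' h X hX => ?_,
    fun r L y O X hX hr hL => ?_, fun a b X ha hb hab hX => ?_⟩, lf⟩
  · obtain ⟨i, rfl⟩ := s.fld B hB
    refine ⟨τ i (bar f), hb (Cs T j O) _ _ _
      ⟨_, isOpen_univ, Set.subset_univ _, 1, w.one _, ContinuousLinearMap.ext fun z =>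
        (s.iso z).symm⟩ ?_ (cs_star w O) (fun x => (mem_nn w).2) (fun v u => ?_) ?_⟩
    · rintro _ ⟨O1, a1, a2, Y, hY, rfl⟩ _ ⟨O2, b1, b2, Y', hY', rfl⟩
      have o := a1.inter b1
      refine ⟨_, o, Set.subset_inter a2 b2, Y * Pj c T * Y', w.mul _ o _ (w.mul _ o _
        (w.anti _ _ Set.inter_subset_left Y hY) _ (w.pj _)) _
        (w.anti _ _ Set.inter_subset_right Y' hY'), ContinuousLinearMap.ext fun z => ?_⟩
      show adjoint j (Y (j (adjoint j _))) = adjoint j (Y (Pj c T _))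
      rw [s.pj]
      rfl
    · rw [Submodule.coe_inner, Submodule.coe_inner, s.eq _ _ _ hf.1, s.eq _ _ _ (isTest_bar hf.1)]
      exact hT.herm i f v u hf.1
    · rintro _ ⟨O1, -, a2, Y, hY, rfl⟩ v u
      rw [rd_in, rd_in, s.coe, s.coe, s.coe, s.coe, s.eq _ _ _ hf.1,
        s.eq _ _ _ (isTest_bar hf.1)]
      exact hY i f ⟨hf.1, hf.2.1, hf.2.2.trans a2⟩ v u
  · exact (mem_nn w).2 fun y ⟨O1, a1, a2, e⟩ => (mem_nn w).1 hX y ⟨O1, a1, h.trans a2, e⟩
  · obtain ⟨W, hW⟩ := (ublock s.rep).lin r L y hr hL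
    let g : Sh c := ⟨⟨r, L, y, hr, hL⟩, false⟩
    have e : ∀ z, j (W z) = g.U c (j z) := fun z => by
      rw [hW, ← Ug_apply q hr hL, s.U _ _ _ _ hr hL]
      rfl
    refine ⟨(W : Completion E →L[ℂ] Completion E) ∘L X ∘L (W.symm : Completion E →L[ℂ] Completion E),
      (mem_nn w).2 ?_, fun z => by simp [← hW]⟩
    rintro _ ⟨O1, a1, a2, Y, hY, rfl⟩
    have k : ∀ z, rd j Y (W z) = W (rd j (star (g.U c) * Y * g.U c) z) := fun z => by
      refine ext_inner_left ℂ fun u => ?_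
      obtain ⟨u, rfl⟩ := W.surjective u
      rw [W.inner_map_map, rd_in, rd_in, e, e, ContinuousLinearMap.star_eq_adjoint]
      exact (ContinuousLinearMap.adjoint_inner_right _ _ _).symm
    have h := (mem_nn w).1 hX _ ⟨g.act ⁻¹' O1, a1.preimage (by
      show Continuous fun x => sim r L y x
      unfold sim
      fun_prop), Set.image_subset_iff.1 a2, _, w.cov g O1 Y hY, rfl⟩
    refine ContinuousLinearMap.ext fun z => ?_
    obtain ⟨z, rfl⟩ := W.surjective z
    show rd j Y (W (X (W.symm (W z)))) = W (X (W.symm (rd j Y (W z))))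
    rw [k, k, W.symm_apply_apply, W.symm_apply_apply]
    exact congrArg W (DFunLike.congr_fun h z)
  · obtain ⟨x, h1, -, h3, -⟩ := lf b a hb ha (cm a b hab) X hX
    rw [VonNeumannAlgebra.mem_commutant_iff]
    intro y hy
    obtain ⟨x', h4, -, h5, -⟩ := lf a b ha hb hab y hy
    refine ContinuousLinearMap.ext fun z => ?_
    have := DFunLike.congr_fun ((mem_aw w).1 h4 x (sl.loc b a hb ha (cm a b hab) x h1)) (j z)
    show y (X z) = X (y z)
    rw [← s.iso (y _), ← s.iso (X (y z)), ← h5, ← h3, ← h3, ← h5]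
    exact congrArg _ this.symm

/-- the vacuum separates the fields of the family -/
theorem sep (t : E0 c) (w : WC0 c T) (sl : SLf c T) {i i' : ι}
    (h : ∀ f, IsTest f → T i f c.Q.vac = T i' f c.Q.vac) {f : Fn} (hf : In Set.univ f) (v : D) :
    T i f v = T i' f v := by
  obtain ⟨g, hg⟩ := t.sg.ex _ hf.bar.2.1.isCompact.isBounded
  have hi : In (g.act ⁻¹' W0) (bar f) := ⟨hf.bar.1, hf.bar.2.1, hg⟩
  have e : g.U c (T i f v : D) = g.U c (T i' f v : D) := by
    refine ext_inner_right ℂ (congrFun (Continuous.ext_on (sl.dns va vb Grp.na Grp.nb Grp.nab) (by fun_prop) (by fun_prop) ?_))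
    rintro _ ⟨Y, hY, rfl⟩
    have k := fun i => w.cov g W0 Y hY i _ hi c.Q.vac v
    simp only [bar_bar, ContinuousLinearMap.mul_apply, ContinuousLinearMap.star_eq_adjoint,
      ContinuousLinearMap.adjoint_inner_right,
      show g.U c (c.Q.vac : Completion D) = c.Om from (t.sg.vac g).1] at k
    beta_reduce
    rw [k, k, h _ hi.1]
  have u1 : ∀ z, star (g.U c) (g.U c z) = z := fun z => DFunLike.congr_fun (t.sg.uni g).1 z
  exact Completion.coe_injective D ((u1 _).symm.trans ((congrArg _ e).trans (u1 _)))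

end

end Vale.Agent.N352.E
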