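import Vale.Agent.N352.E.Ub
import Vale.Agent.N352.E.G2

/-!
# N352, block E: sums of dilated fields
-/

set_option linter.all false

open MeasureTheory Filter Topology Metric
open scoped SchwartzMap ComplexConjugate

namespace Vale.Agent.N352.E

open Vale.Agent.P352 Vale.Agent.P352.GF Vale.Agent.P352.BW Vale.Agent.P352.H246
open Vale.Agent.P352.H496 Vale.Agent.P352.H755 Vale.Agent.P352.H15
open Vale.Agent.P352.SubConf (IsAdj)
open Vale.Agent.P352X Vale.Agent.P352X.EB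
open UniformSpace (Completion)
open KDa (dS barL)
open SN (isPair_mdot Calc)

noncomputable section

variable {D : Type*} [NormedAddCommGroup D] [InnerProductSpace ℂ D]

namespace Sd

open Gx EG.H.JBp
open EG.H.Tmp (inn)

variable {c : Cf D} {u u' v w : Completion D} {y : V} {G : ℕ → Sch}

/-- energy norms of smooth vectors -/
def nr (c : Cf D) (j : ℕ) (u : Completion D) : ℝ := ‖(bc c).Psi (wt (bas o 1) j) u‖

lemma norm_le {z : Completion D} {K : ℝ} (hK : 0 ≤ K)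
    (h : ∀ w : D, ‖inner ℂ (w : Completion D) z‖ ≤ ‖(w : Completion D)‖ * K) : ‖z‖ ≤ K := by
  have h1 : ∀ w : Completion D, ‖inner ℂ w z‖ ≤ ‖w‖ * K := fun w =>
    Completion.induction_on w (isClosed_le (by fun_prop) (by fun_prop)) h
  have h2 := h1 z
  rw [inner_self_eq_norm_sq_to_K, norm_pow, RCLike.norm_ofReal, abs_norm, pow_two] at h2
  rcases (norm_nonneg z).eq_or_lt with e | e
  · rwa [← e]
  · exact le_of_mul_le_mul_left h2 e

lemma bnd (hE : EBd c.Q) (p : Lb c) : ∃ (j m : ℕ) (C : ℝ), 0 ≤ C ∧ ∀ k (F : Sch) u,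
    HasCompactSupport F → u ∈ Sm c →
      ‖Bs p (ev F) ((d2k c k).U c u)‖ ≤ C * sn m F * nr c j u := by
  obtain ⟨j, m, C, hC, h⟩ := eb_sn p.h (hE p.B p.h)
  refine ⟨j, m, C * 2 ^ j * 5 ^ j, by positivity, fun k F u hF hu => ?_⟩
  obtain ⟨x, h1, h2, h3⟩ := (bc c).core isPair_mdot
    (D := LinearMap.range (io D : D →ₗ[ℂ] Completion D))
    (by rintro y _ ⟨v, rfl⟩; exact ⟨_, ((ue _ _).trans (utc y v)).symm⟩)
    (by rintro _ ⟨v, rfl⟩; exact dom_wt (bas o 1) j (sm_coe v)) (dom_wt (bas o 1) j hu)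
    (Completion.denseRange_coe u)
  choose s hs using h1
  obtain rfl : (fun n => (s n : Completion D)) = x := funext hs
  have s0 := sn0 m F
  have p0 : (0 : ℝ) < 2 ^ k := by positivity
  refine norm_le (mul_nonneg (by positivity) (norm_nonneg _)) fun w => ?_
  rw [bs_adj hE p (inn hF) (sm_U _ hu)]
  refine le_of_tendsto_of_tendsto' (tendsto_const_nhds.inner
    ((((d2k c k).U c).continuous.tendsto _).comp h2)).norm
    ((h3.norm.const_mul (C * 2 ^ j * 5 ^ j * sn m F)).const_mul _) fun n => ?_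
  have e : (d2k c k).U c (s n : Completion D) = (Fss.u c.Q _ p0 (s n) : D) :=
    Grp.coe p0 H496.isLor_one 0 (s n)
  simp only [Function.comp]
  rw [e, ← adj' p ⟨F, rfl⟩]
  refine (norm_inner_le_norm _ _).trans (mul_le_mul_of_nonneg_left ?_ (norm_nonneg _))
  rw [Completion.norm_coe]
  have h4 : (1 + ((2 : ℝ) ^ k)⁻¹) ^ j ≤ 2 ^ j := by
    gcongr
    linarith [inv_le_one_of_one_le₀ (one_le_pow₀ one_le_two : (1 : ℝ) ≤ 2 ^ k)]
  calc _ ≤ C * sn m F * (2 ^ j * (5 ^ j * ‖(bc c).Psi (wt (bas o 1) j) (s n)‖)) :=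
        (h F _).trans (mul_le_mul_of_nonneg_left ((en_dil p0 j _).trans
          (mul_le_mul h4 (en_le j _) (H246.en_nonneg j _) (by positivity))) (by positivity))
    _ = _ := by ring

lemma bs_lin (hE : EBd c.Q) (p : Lb c) {F F' : Sch} (z : ℂ) (hF : HasCompactSupport F)
    (hF' : HasCompactSupport F') (hu : u ∈ Sm c) :
    Bs p (ev (F + z • F')) u = Bs p (ev F) u + z • Bs p (ev F') u := exD fun w => by
  have e : bar (ev (F + z • F')) = fun x => bar (ev F) x + conj z * bar (ev F') x := by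
    funext x
    simp [bar, ev]
  have hc : HasCompactSupport (F + z • F' : Sch) := by
    have h1 : HasCompactSupport fun x => F x + z * F' x := hF.add hF'.mul_left
    convert h1 using 2
    simp
  rw [inner_add_right, inner_smul_right, bs_adj hE p (inn hF) hu, bs_adj hE p (inn hF') hu,
    bs_adj hE p (inn hc) hu, e,
    c.Q.lin _ _ _ _ w p.h' (Ap.test_bar ⟨F, rfl⟩) (Ap.test_bar ⟨F', rfl⟩), Completion.coe_add,
    Completion.coe_smul, inner_add_left, inner_smul_left, Complex.conj_conj]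

lemma bs_zero (hE : EBd c.Q) (p : Lb c) (hu : u ∈ Sm c) : Bs p (ev 0) u = 0 := by
  have := bs_lin hE p 1 (F := 0) (F' := 0) HasCompactSupport.zero HasCompactSupport.zero hu
  rwa [smul_zero, add_zero, one_smul, left_eq_add] at this

/-- admissible sequences -/
structure Adm (G : ℕ → Sch) : Prop where
  supp : ∀ k, tsupport (G k) ⊆ closedBall 0 (2 * 2 ^ k)
  dec : ∀ m N : ℕ, ∃ C : ℝ, ∀ k, sn m (G k) ≤ C / (2 ^ k) ^ N

lemma Adm.cpt (h : Adm G) (k : ℕ) : HasCompactSupport (G k) := Dy.cpt (h.supp k)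

lemma Adm.map (h : Adm G) (P : Sch →L[ℝ] Sch) (hP : ∀ F, tsupport (P F) ⊆ tsupport F) :
    Adm fun k => P (G k) := by
  refine ⟨fun k => (hP _).trans (h.supp k), fun m N => ?_⟩
  obtain ⟨C, m', hC, b⟩ := ST.clm_sn' P m
  obtain ⟨C', b'⟩ := h.dec m' N
  refine ⟨C * C', fun k => ?_⟩
  have := b' k
  rw [Api4.sn_eq] at this ⊢
  rw [mul_div_assoc]
  exact (b _).trans (mul_le_mul_of_nonneg_left this hC)

lemma Adm.bar (h : Adm G) : Adm fun k => barL (G k) :=
  h.map barL fun F => (H246.tsupport_bar (ev F)).le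

lemma Adm.der (h : Adm G) (y : V) : Adm fun k => dS (((2 : ℝ) ^ k) • y) (G k) := by
  have h1 := h.map ((dS y).restrictScalars ℝ) fun F => by
    show tsupport (ev (dS y F)) ⊆ _
    rw [KDa.ev_dS]
    exact Ap.tsupport_dv y (ev F)
  have e : ∀ k, dS (((2 : ℝ) ^ k) • y) (G k) = ((2 ^ k : ℝ) : ℂ) • dS y (G k) := fun k => by
    ext x
    show fderiv ℝ (G k) x (_ • y) = _ * fderiv ℝ (G k) x y
    rw [map_smul, Complex.real_smul]
  simp only [e]
  refine ⟨fun k => (tsupport_smul_subset_right (fun _ : V => ((2 ^ k : ℝ) : ℂ)) _).trans (h1.supp k),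
    fun m N => ?_⟩
  obtain ⟨C, b⟩ := h1.dec m (N + 1)
  refine ⟨C, fun k => ?_⟩
  have := b k
  rw [Api4.sn_eq] at this ⊢
  refine (ST.sn_smul _ _ m).trans ?_
  rw [Complex.norm_real, Real.norm_of_nonneg (by positivity)]
  refine (mul_le_mul_of_nonneg_left this (by positivity)).trans (le_of_eq ?_)
  rw [pow_succ]
  field_simp

/-- the dilates -/
def tm (p : Lb c) (G : ℕ → Sch) (u : Completion D) (k : ℕ) : Completion D :=
  (d2k c k).inv.U c (Bs p (ev (G k)) ((d2k c k).U c u))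

/-- their sum -/
def Su (p : Lb c) (G : ℕ → Sch) (u : Completion D) : Completion D := ∑' k, tm p G u k

lemma geo (C : ℝ) : Summable fun k : ℕ => C / 2 ^ k := by
  simpa only [one_div, inv_pow, div_eq_mul_inv, one_mul] using summable_geometric_two.mul_left C

lemma dr_at (h : Dr c y u u') (t : ℝ) :
    HasDerivAt (fun t : ℝ => Ut c.Q (t • y) u) (Ut c.Q (t • y) u') t := by
  have h1 := (((Ut c.Q (t • y)).restrictScalars ℝ).hasFDerivAt.comp_hasDerivAt (0 : ℝ) h)
  rw [← sub_self t] at h1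
  refine (h1.comp_sub_const t t).congr_of_eventuallyEq (.of_forall fun r => ?_)
  show _ = Ut c.Q _ (Ut c.Q _ u)
  rw [ut_ut, ← add_smul, add_sub_cancel]

lemma ut_nrm (a : V) (z : Completion D) : ‖Ut c.Q a z‖ = ‖z‖ :=
  Gx.U_nrm ⟨⟨1, GF.one, a, one_pos, H496.isLor_one⟩, false⟩ z

lemma dr_tsum {z z' : ℕ → Completion D} (h : ∀ k, Dr c y (z k) (z' k))
    (s : Summable fun k => ‖z k‖) (s' : Summable fun k => ‖z' k‖) :
    Dr c y (∑' k, z k) (∑' k, z' k) := by
  have := hasDerivAt_tsum s' (fun k t => dr_at (h k) t) (fun k t => (ut_nrm _ _).le)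
    (y₀ := 0) (by simpa only [zero_smul, ut0] using s.of_norm) 0
  simp only [zero_smul, ut0] at this
  exact this.congr_of_eventuallyEq (.of_forall fun t => (Ut c.Q (t • y)).map_tsum s.of_norm)

lemma sim_d2k (k : ℕ) (y : V) : sim (d2k c k).s (d2k c k).L 0 y = ((2 : ℝ) ^ k) • y :=
  dl0_act (c := c) (one_le_pow₀ one_le_two) y

variable (hE : EBd c.Q) (p : Lb c)
include hE

lemma smb (h : Adm G) (hu : u ∈ Sm c) : Summable fun k => ‖tm p G u k‖ := by
  obtain ⟨j, m, C, hC, b⟩ := bnd hE p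
  obtain ⟨C', b'⟩ := h.dec m 1
  refine .of_nonneg_of_le (fun _ => norm_nonneg _) (fun k => ?_) (geo (C * C' * nr c j u))
  rw [tm, Gx.U_nrm]
  refine (b k _ u (h.cpt k) hu).trans ((mul_le_mul_of_nonneg_right
    (mul_le_mul_of_nonneg_left (b' k) hC) (norm_nonneg _)).trans (le_of_eq ?_))
  rw [pow_one, nr]
  ring

lemma tm_dr (h : Adm G) (hu : u ∈ Sm c) (hu' : u' ∈ Sm c) (d : Dr c y u u') (k : ℕ) :
    Dr c y (tm p G u k) (tm p G u' k - tm p (fun k => dS (((2 : ℝ) ^ k) • y) (G k)) u k) := by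
  have e : ∀ (t : ℝ) z, (d2k c k).U c (Ut c.Q (t • y) z) =
      Ut c.Q (t • ((2 : ℝ) ^ k) • y) ((d2k c k).U c z) := fun t z => by
    rw [U_tr, sim_d2k, smul_comm]
  have d1 : Dr c (((2 : ℝ) ^ k) • y) ((d2k c k).U c u) ((d2k c k).U c u') :=
    ((((d2k c k).U c).restrictScalars ℝ).hasFDerivAt.comp_hasDerivAt (0 : ℝ) d).congr_of_eventuallyEq
      (.of_forall fun t => (e t u).symm)
  have d2 := bs_dr hE p (inn (h.cpt k)) (sm_U _ hu) (sm_U _ hu') d1
  rw [tm, tm, tm, ← map_sub, KDa.ev_dS]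
  refine ((((d2k c k).inv.U c).restrictScalars ℝ).hasFDerivAt.comp_hasDerivAt (0 : ℝ)
    d2).congr_of_eventuallyEq (.of_forall fun t => ?_)
  show _ = (d2k c k).inv.U c (Ut c.Q _ _)
  conv_rhs => rw [← U_inv (d2k c k) (Bs _ _ _), ← e, inv_U]

lemma su_co {P : Submodule ℂ (Completion D)} (hP : ∀ G, Adm G → ∀ u ∈ Co c P, Su p G u ∈ P)
    (h : Adm G) (hu : u ∈ Co c P) : Su p G u ∈ Co c P := by
  refine co_span (A := {z | ∃ G, Adm G ∧ ∃ u ∈ Co c P, z = Su p G u}) ?_ (fun y => ?_)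
    ⟨G, h, u, hu, rfl⟩
  · rintro _ ⟨G, h, u, hu, rfl⟩
    exact hP G h u hu
  rintro _ ⟨G, h, u, hu, rfl⟩
  obtain ⟨u', a, b⟩ := co_dd y hu
  have s1 := smb hE p h (co_sm a)
  have s2 := smb hE p (h.der y) (co_sm hu)
  refine ⟨_, Submodule.sub_mem _ (Submodule.subset_span ⟨G, h, u', a, rfl⟩)
    (Submodule.subset_span ⟨_, h.der y, u, hu, rfl⟩), ?_⟩
  rw [Su, Su, Su, ← s1.of_norm.tsum_sub s2.of_norm]
  exact dr_tsum (tm_dr hE p h (co_sm hu) (co_sm a) b) (smb hE p h (co_sm hu))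
    (.of_nonneg_of_le (fun _ => norm_nonneg _) (fun k => norm_sub_le _ _) (s1.add s2))

lemma su_sm (h : Adm G) (hu : u ∈ Sm c) : Su p G u ∈ Sm c :=
  su_co hE p (fun _ _ _ _ => trivial) h hu

/-- weak commutation passes to the sum -/
lemma su_wk (h : Adm G) {X : Completion D →L[ℂ] Completion D}
    (hX : ∀ k, ∀ u ∈ Sm c, ∀ w ∈ Sm c, inner ℂ (Bs p.dag (bar (ev (G k))) w)
      ((d2k c k).U c (X ((d2k c k).inv.U c u))) =
        inner ℂ w ((d2k c k).U c (X ((d2k c k).inv.U c (Bs p (ev (G k)) u)))))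
    (hu : u ∈ Sm c) (hw : w ∈ Sm c) :
    inner ℂ (Su p.dag (fun k => barL (G k)) w) (X u) = inner ℂ w (X (Su p G u)) := by
  have s1 := (smb hE p h hu).of_norm
  have s2 := (smb hE p.dag h.bar hw).of_norm
  have e1 := (innerSL ℂ w ∘L X).map_tsum s1
  have e2 := (innerSL ℂ (X u)).map_tsum s2
  simp only [ContinuousLinearMap.comp_apply, innerSL_apply_apply] at e1 e2
  rw [Su, Su, e1, ← inner_conj_symm, e2, Complex.conj_tsum]
  refine tsum_congr fun k => ?_
  have := hX k _ (sm_U (d2k c k) hu) _ (sm_U (d2k c k) hw)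
  rw [inv_U, U_inn] at this
  rw [inner_conj_symm, tm, tm, ← this, ← U_inn (d2k c k), U_inv]
  rfl

lemma su_linv (h : Adm G) (z : ℂ) (hu : u ∈ Sm c) (hw : w ∈ Sm c) :
    Su p G (u + z • w) = Su p G u + z • Su p G w := by
  have s1 := (smb hE p h hu).of_norm
  have s2 := (smb hE p h hw).of_norm
  rw [Su, Su, Su, ← s2.tsum_const_smul z, ← s1.tsum_add (s2.const_smul z)]
  exact tsum_congr fun k => by simp only [tm, map_add, map_smul]

lemma su_linf {G' : ℕ → Sch} (h : Adm G) (h' : Adm G') (z : ℂ) (hu : u ∈ Sm c) :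
    Su p (fun k => G k + z • G' k) u = Su p G u + z • Su p G' u := by
  have s1 := (smb hE p h hu).of_norm
  have s2 := (smb hE p h' hu).of_norm
  rw [Su, Su, Su, ← s2.tsum_const_smul z, ← s1.tsum_add (s2.const_smul z)]
  exact tsum_congr fun k => by
    simp only [tm, bs_lin hE p z (h.cpt k) (h'.cpt k) (sm_U _ hu), map_add, map_smul]

omit hE p

/-- the contraction of the argument -/
def ps (k : ℕ) : Sch →L[ℂ] Sch := SchwartzMap.compCLMOfContinuousLinearEquiv ℂ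
  (ContinuousLinearEquiv.equivOfInverse (Dy.ctr k) (((2 : ℝ) ^ k) • ContinuousLinearMap.id ℝ V)
    (fun x => by simp [Dy.ctr, smul_smul]) fun x => by simp [Dy.ctr, smul_smul])

lemma ps_apply (k : ℕ) (F : Sch) (x : V) : ps k F x = F (Dy.ctr k x) := rfl

lemma sn_ps (m k : ℕ) (F : Sch) : sn m (ps k F) ≤ 2 ^ m * (2 ^ k) ^ m * sn m F := by
  rw [Api4.sn_eq, Api4.sn_eq]
  refine ST.Bd.sn_le ((ST.bd_sch F le_rfl le_rfl).comp (Dy.ctr k) le_rfl
    (ContinuousLinearMap.opNorm_le_bound _ zero_le_one fun z => by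
      rw [one_mul]; exact Dy.norm_ctr_le k z)) fun z => ?_
  have h0 : (1 : ℝ) ≤ 2 ^ k := one_le_pow₀ one_le_two
  have h1 : (1 + ‖z‖) ^ m ≤ (2 ^ k) ^ m * (1 + ‖Dy.ctr k z‖) ^ m := by
    rw [← mul_pow, Dy.norm_ctr, mul_add, mul_div_cancel₀ _ (by positivity)]
    gcongr
    linarith
  have h2 : 0 ≤ 2 ^ m * ST.sn V ℂ m F := by positivity
  rw [one_pow, one_mul, ← mul_div_assoc, div_le_iff₀ (by positivity)]
  calc (1 + ‖z‖) ^ m * (2 ^ m * ST.sn V ℂ m F)
      ≤ ((2 ^ k) ^ m * (1 + ‖Dy.ctr k z‖) ^ m) * (2 ^ m * ST.sn V ℂ m F) := by gcongr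
    _ = _ := by ring

/-- the centres -/
def yk (k : ℕ) : V := fun _ => 4 * 2 ^ k

lemma yk_norm (k : ℕ) : ‖yk k‖ = 4 * 2 ^ k := by
  unfold yk
  rw [pi_norm_const, Real.norm_of_nonneg (by positivity)]

/-- the pieces -/
def pk (k : ℕ) : Sch →L[ℂ] Sch := ps k ∘L Ub.pc (yk k)

lemma pk_supp (k : ℕ) (F : Sch) : tsupport (pk k F) ⊆ closedBall 0 (2 * 2 ^ k) :=
  Ap.tsupp_sub isClosed_closedBall fun z hz => by
    have := Ub.pc_supp (yk k) F (subset_tsupport _ (show Dy.ctr k z ∈ Function.support _ from hz))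
    rw [mem_closedBall_zero_iff] at this ⊢
    rwa [Dy.norm_ctr, div_le_iff₀ (by positivity)] at this

lemma sn_pk (m N : ℕ) : ∃ C : ℝ, 0 ≤ C ∧ ∀ k F,
    sn m (pk k F) ≤ C * sn (m + (m + N)) F / (2 ^ k) ^ N := by
  obtain ⟨C, hC, h⟩ := Ub.sn_pc m (m + N)
  refine ⟨2 ^ m * C, by positivity, fun k F => (sn_ps m k _).trans ?_⟩
  have h1 : ((2 : ℝ) ^ k) ^ (m + N) ≤ (1 + ‖yk k‖) ^ (m + N) := by
    rw [yk_norm]
    gcongr
    linarith [show (0 : ℝ) < 2 ^ k by positivity]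
  have := sn0 (m + (m + N)) F
  calc _ ≤ 2 ^ m * (2 ^ k) ^ m * (C / (2 ^ k) ^ (m + N) * sn (m + (m + N)) F) := by
        refine mul_le_mul_of_nonneg_left ((h _ F).trans ?_) (by positivity)
        gcongr
    _ = _ := by
        rw [pow_add ((2 : ℝ) ^ k)]
        field_simp

lemma adm_pk (F : Sch) : Adm fun k => pk k F :=
  ⟨fun k => pk_supp k F, fun m N => let ⟨_, _, h⟩ := sn_pk m N; ⟨_, fun k => h k F⟩⟩

lemma pk_tsl {h : Sch} (hs : tsupport h ⊆ closedBall 0 1) (k j : ℕ) :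
    pk j (ST.tsl (yk k) h) = if j = k then ps k h else 0 := by
  have e : ∀ z, Ub.pc (yk j) (ST.tsl (yk k) h) z = Dy.ch 0 z * h (z + yk j - yk k) := fun z =>
    Ub.pc_apply _ _ z
  split_ifs with a
  · subst a
    refine congrArg (ps j) (SchwartzMap.ext fun z => ?_)
    refine (e z).trans ?_
    rw [add_sub_cancel_right]
    by_cases hz : z ∈ tsupport h
    · rw [Dy.ch_one (by simpa using hs hz), one_mul]
    · rw [image_eq_zero_of_notMem_tsupport hz, mul_zero]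
  · refine (congrArg (ps j) (SchwartzMap.ext fun z => ?_)).trans (map_zero _)
    refine (e z).trans (?_ : _ = (0 : ℂ))
    by_cases hz : z + yk j - yk k ∈ tsupport h
    · rw [Dy.ch_zero, zero_mul]
      have h1 := mem_closedBall_zero_iff.1 (hs hz)
      have h2 : 4 ≤ ‖yk j - yk k‖ := by
        refine le_trans ?_ (norm_le_pi_norm (yk j - yk k) 0)
        have k1 : ∀ a b : ℕ, a < b → (4 : ℝ) ≤ 4 * 2 ^ b - 4 * 2 ^ a := fun a b ab => by
          have := pow_le_pow_right₀ (one_le_two (α := ℝ)) (Nat.succ_le_of_lt ab)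
          rw [pow_succ] at this
          linarith [one_le_pow₀ (one_le_two (α := ℝ)) (n := a)]
        rcases lt_or_gt_of_ne a with b | b
        · exact (k1 _ _ b).trans ((neg_sub _ _).symm.trans_le (neg_le_abs _))
        · exact (k1 _ _ b).trans (le_abs_self _)
      have h3 := norm_sub_le (z + yk j - yk k) z
      rw [show z + yk j - yk k - z = yk j - yk k by abel] at h3
      norm_num
      linarith
    · rw [image_eq_zero_of_notMem_tsupport hz, mul_zero]

lemma cont_of {H : Type*} [NormedAddCommGroup H] [NormedSpace ℂ H] (T : Sch →ₗ[ℂ] H) {m : ℕ}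
    {C : ℝ} (h : ∀ F, ‖T F‖ ≤ C * sn m F) : Continuous T := by
  refine continuous_of_continuousAt_zero T.toAddMonoidHom ?_
  rw [ContinuousAt, map_zero]
  refine squeeze_zero_norm h ?_
  simpa [Xq.sn_zero] using ((Xq.sn_cont m).tendsto 0).const_mul C

end Sd

open Sd Gx EG.H.JBp in
open EG.H.Tmp (inn) in
/-- **all dilates of a field are values of one slot** -/
theorem sum1_some {c : Ctx D} {Λ : Type*} {x : Lt c Λ} (t : E1 x) (hE : EBd c.Q)
    {P : Submodule ℂ (Completion D)} (hD : ∀ v, D1 c v ↔ v ∈ Co c.toCf P)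
    (bop : ∀ (p : Lb c.toCf) G, Adm G → ∀ u ∈ Co c.toCf P, Su p G u ∈ P) (a : Λ) (p : Lb c.toCf)
    (op : ∀ f v, In Set.univ f → D1 c v → x.op a f v = Bs p f v) : Sum1 x a := by
  have sm : ∀ {v}, D1 c v → v ∈ Sm c.toCf := fun hv => co_sm ((hD _).1 hv)
  have lf : ∀ (F G : Sch) (z : ℂ) v, D1 c v → Su p (fun k => pk k (F + z • G)) v =
      Su p (fun k => pk k F) v + z • Su p (fun k => pk k G) v := fun F G z v hv => by
    simp only [map_add, map_smul]
    exact su_linf hE p (adm_pk F) (adm_pk G) z (sm hv)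
  refine ⟨fun F => Su p fun k => pk k F, fun F => Su p.dag fun k => barL (pk k F),
    ⟨fun F v hv => (hD _).2 (su_co hE p (bop p) (adm_pk F) ((hD _).1 hv)),
      fun F v hv => (hD _).2 (su_co hE p.dag (bop _) (adm_pk F).bar ((hD _).1 hv)),
      fun F z v w hv hw => su_linv hE p (adm_pk F) z (sm hv) (sm hw), lf,
      fun F v w hv hw => (su_wk hE p (X := 1) (adm_pk F) (fun k u hu w hw => ?_) (sm hv) (sm hw)).symm,
      fun v hv => ?_⟩, fun m => ⟨2 ^ m * 5 ^ m, m, by positivity, fun k f h e1 e2 hc =>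
        ⟨ST.tsl (yk k) h, ?_, fun v hv => ?_⟩⟩⟩
  · simp only [ContinuousLinearMap.one_apply, U_inv]
    exact bs_herm hE p (inn ((adm_pk F).cpt k)) hu hw
  · obtain ⟨j, m, C, hC, b⟩ := bnd hE p
    obtain ⟨C', hC', b'⟩ := sn_pk m 1
    refine cont_of (mkL (fun F => Su p (fun k => pk k F) v) fun F G z => lf F G z v hv)
      (m := m + (m + 1)) (C := ∑' k : ℕ, C * C' * nr c.toCf j v / 2 ^ k) fun F => ?_
    rw [← tsum_mul_right]
    refine tsum_of_norm_bounded ((geo _).mul_right _).hasSum fun k => ?_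
    rw [tm, Gx.U_nrm]
    refine (b k _ v ((adm_pk F).cpt k) (sm hv)).trans ((mul_le_mul_of_nonneg_right
      (mul_le_mul_of_nonneg_left (b' k F) hC) (norm_nonneg _)).trans (le_of_eq ?_))
    rw [pow_one, Sd.nr]
    ring
  · rw [Api4.sn_eq, Api4.sn_eq]
    refine (ST.sn_tsl h _ m).trans (mul_le_mul_of_nonneg_right ?_ (apply_nonneg _ _))
    rw [mul_assoc ((2 : ℝ) ^ m) (5 ^ m), ← mul_pow 5, yk_norm]
    have h0 : (1 : ℝ) ≤ 2 ^ k := one_le_pow₀ one_le_two
    have h1 : (1 + 4 * 2 ^ k : ℝ) ≤ 5 * 2 ^ k := by linarith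
    exact mul_le_mul_of_nonneg_left (pow_le_pow_left₀ (by positivity) h1 m) (pow_nonneg zero_le_two m)
  · have e : ps k h = f := SchwartzMap.ext fun z => by
      refine (congrFun e1 _).trans (congrArg f ?_)
      rw [d2k, dl0_act]
      simp [Dy.ctr, smul_smul]
    rw [op _ _ (inn hc) (t.ops.d_U _ _ hv)]
    show _ = (d2k c.toCf k).U c.toCf (∑' j, _)
    rw [tsum_eq_single k fun j hj => by
      rw [tm, pk_tsl e2, if_neg hj, bs_zero hE p (sm_U _ (sm hv)), map_zero], tm, pk_tsl e2,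
      if_pos rfl, e, U_inv]

end

end Vale.Agent.N352.E
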