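import Vale.Agent.N352.E.Top
import Vale.Agent.N352.E.Wl
import Vale.Agent.N352.Def5

/-!
# N352, block E: the weakly local potential in the public definitions
-/

set_option linter.all false

open Filter Topology

namespace Vale.Agent.N352.E.Tw

open P352 P352.GF P352R Tp
open UniformSpace (Completion)

noncomputable section

universe u v

variable {D : Type u} {D' : Type v} [NormedAddCommGroup D] [InnerProductSpace ℂ D]
  [NormedAddCommGroup D'] [InnerProductSpace ℂ D']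
  {Q : Theory D} {G : D → D} {T : Ix → Ix → Fld D} {A : (V → V) → D → D}

theorem en (k v) : Df.en Q k v = H246.en Q k v := by rw [Bg.en, Br.en_eq]

theorem sl1 : Df.SL1 Q T ↔ SL1 Q T := ⟨fun h => h.1, fun h => ⟨h⟩⟩

/-- admissible letters -/
def Ok (Q : Theory D) (f : Fn) (p : Fld D × Fld D × Fn) : Prop :=
  Q.fld p.1 ∧ Q.fld p.2.1 ∧ Df.IsAdj p.1 p.2.1 ∧ Df.In Set.univ p.2.2 ∧ Sep f p.2.2

theorem al {f : Fn} (X : List (Fld D × Fld D × Fn)) (h : ∀ p ∈ X, Ok Q f p) :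
    H246.Al Q (H496.cc (tsupport f)) (fun v => X.foldr (fun p v => p.1 p.2.2 v) v)
      fun v => X.foldl (fun v p => p.2.1 (bar p.2.2) v) v := by
  induction X with
  | nil => exact .one
  | cons p X ih =>
    obtain ⟨⟨a, b, c, d, e⟩, k⟩ := List.forall_mem_cons.1 h
    exact .fld _ _ _ _ _ a b c ⟨d.1, d.2.1, fun y hy x hx => e x hx y hy⟩ (ih k)

theorem wd {f : Fn} (X : List (Fld D × Fld D × Fn)) (h : ∀ p ∈ X, Ok Q f p) :
    ∃ L : D →ₗ[ℂ] D, ∀ v, X.foldr (fun p v => p.1 p.2.2 v) v = L v := by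
  induction X with
  | nil => exact ⟨.id, fun _ => rfl⟩
  | cons p X ih =>
    obtain ⟨⟨a, -, -, d, -⟩, k⟩ := List.forall_mem_cons.1 h
    obtain ⟨L, e⟩ := ih k
    exact ⟨P352X.Fss.fl a d.1 ∘ₗ L, fun v => congrArg (p.1 p.2.2) (e v)⟩

theorem wl {l} (h : Df.Wl Q l) : N86.WeakLoc Q l := fun f X X' hf a => by
  suffices k : ∀ u : List (Fld D × Fld D × Fn), (∀ p ∈ u, Ok Q f p) →
      inner ℂ ((X' (u.foldl (fun v p => p.2.1 (bar p.2.2) v) Q.vac) : D) : Completion D) (l f) =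
      inner ℂ (l (bar f)) ((u.foldr (fun p v => p.1 p.2.2 v) (X Q.vac) : D) : Completion D) from
    k [] (by simp)
  induction a with
  | one => exact fun u hu => h.loc f u hf hu
  | add X X' Y Y' _ _ a b =>
    intro u hu
    obtain ⟨L, e⟩ := wd u hu
    rw [Completion.coe_add, inner_add_left, a u hu, b u hu, e, e, e, map_add, Completion.coe_add,
      inner_add_right]
  | smul c X X' _ a =>
    intro u hu
    obtain ⟨L, e⟩ := wd u hu
    rw [Completion.coe_smul, inner_smul_left, a u hu, e, e, map_smul, Completion.coe_smul,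
      inner_smul_right, starRingEnd_apply, star_star]
  | fld B B' g X X' p q r s _ a =>
    intro u hu
    have := a (u ++ [(B, B', g)]) (List.forall_mem_append.2 ⟨hu, List.forall_mem_singleton.2
      ⟨p, q, r, ⟨s.1, s.2.1, Set.subset_univ _⟩, fun x hx y hy => s.2.2 hy x hx⟩⟩)
    rwa [List.foldl_append, List.foldr_append] at this

theorem net {Γ N} (k : Df.LNg Q G A Γ N) (s : Df.Stress0 Q T) : SL1 Q T := fun a b ha hb ab => by
  have h := Bg.lng.1 k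
  let c := cf k.toGe
  obtain ⟨M, m, p, q⟩ := Sl.net1 h hb ha ((H755.mdot_comm _ _).trans ab)
  refine ⟨M, fun s hs X hX => ?_, fun m n f => p _ f (s.bose m n), q⟩
  obtain ⟨x, g⟩ := (m X).1 hX
  obtain ⟨Y, y, e⟩ := h.cov s one 0 _ X x hs H496.isLor_one
  refine ⟨Y, (m Y).2 ⟨h.mono _ _ ?_ Y y, ?_⟩, e⟩
  · rintro _ ⟨z, hz, rfl⟩
    exact (dil_w hs a b z).2 hz
  have e' : Y * ud c s = ud c s * X := ContinuousLinearMap.ext fun z =>
    (congrArg Y (ud_ue hs z)).trans ((e z).trans (ud_ue (c := c) hs _).symm)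
  have u : Γ * ud c s = ud c s * Γ := by
    rw [show Γ = c.Γ from P352X.EG.SGx.dext fun v => (k.ext v).trans (c.hN.ext v).symm]
    exact SGx.gU0 c ⟨s, one, 0, hs, H496.isLor_one⟩
  calc Γ * Y = Γ * (Y * ud c s) * ud c s⁻¹ := by rw [mul_assoc, mul_assoc, ud_inv hs, mul_one]
    _ = Y * Γ * (ud c s * ud c s⁻¹) := by
      rw [e', ← mul_assoc, u, mul_assoc _ Γ, g, ← mul_assoc, ← e', mul_assoc Y, ← u]
      simp only [mul_assoc]
    _ = _ := by rw [ud_inv hs, mul_one]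

theorem loc (h : Df.Ge Q G A) (s : Df.Stress0 Q T)
    (k : (∃ Γ N, Df.LNg Q G A Γ N) ∨ Df.CovA Q ∧ Df.EBd Q ∧ Df.SL Q T) : Df.SL1 Q T := by
  rcases k with ⟨Γ, N, k⟩ | ⟨a, e, k⟩
  exacts [sl1.2 (net k s), sl1.2 (sl1_of (c := cf h) (Br.stress0.1 (Bg.stress0.1 s))
    (fun s hs => a s _ 0 hs lor1) (Br.ebd.1 (Bg.ebd.1 e)) (sl.1 k))]

theorem bound (h : Df.Ge Q G A) (s : Df.Stress0 Q T)
    (k : Df.FBT Q T ∨ Df.LBT Q T ∨ Df.EBd Q) : Df.EBT Q T := by
  have l : Df.LBT Q T → Df.EBT Q T := fun k => ⟨fun m n => ⟨1, fun f hf => by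
    obtain ⟨C, e⟩ := k m n f hf
    refine ⟨|C|, fun v => (e v).trans (mul_le_mul (le_abs_self C) (add_le_add le_rfl ?_)
      (by positivity) (abs_nonneg C))⟩
    exact Finset.single_le_sum (f := fun m => ‖Df.Dv Q m v‖) (fun _ _ => norm_nonneg _)
      (Finset.mem_univ o)⟩⟩
  rcases k with k | k | k
  exacts [l fun m n => Fb.lb (c := cf h) (Q.bose_fld _ (s.bose m n)) (k m n), l k,
    ⟨fun m n => k _ (Q.bose_fld _ (s.bose m n))⟩]

theorem eb1 (h : Df.EBT Q T) (m n) : EB1 Q (T m n) :=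
  (h.1 m n).imp fun k e f hf => (e f hf).imp fun _ e v => en (Q := Q) k v ▸ e v

theorem wl' (h : Df.Ge Q G A) {l} (p : H246.IsPot Q T l) (w : N86.WeakLoc Q l) : Df.Wl Q l := by
  refine ⟨p.lin, p.cont, fun s M y f hs hM hf => ?_, fun f X hf hX => ?_⟩
  swap
  · have := w f _ _ hf (al (f := f) X hX)
    exact this
  have k : (s : ℂ) ^ 2 ≠ 0 := pow_ne_zero 2 (Complex.ofReal_ne_zero.2 hs.ne')
  have e := Sq.pot (c := cf h) p y hs hM hf
  rw [show Df.Ue Q s M y _ = _ from (P352X.Ug_apply _ hs hM _ _).symm.trans e, ← Complex.coe_smul,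
    smul_smul, Complex.ofReal_inv, Complex.ofReal_pow, mul_inv_cancel₀ k, one_smul]

variable (D D') in
/-- **the theorem** -/
theorem thm : Df.Thm5 D D' where
  pot Q G T A h := by
    obtain ⟨-, S, l, a, b, p, w, k⟩ := keyR (c := cf h.toGe) (D' := D')
      (Br.stress0.1 (Bg.stress0.1 h.stress)) h.charges h.cov
      (fun m n => (h.scl m n).imp fun _ => Exists.imp fun _ k => ⟨k.1, k.2⟩) h.unique
      (eb1 h.bound) (sl1.1 h.loc)
    exact ⟨S, l, a, b, wl' h.toGe p w, fun f hf => (p.trace f hf).symm,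
      fun R i G' T' A' L o q r => (k R i G' T' A' (Bg.ovr.1 o) ⟨L, q, r⟩).imp fun _ => Bg.conf⟩
  self Q G T A h := ⟨⟨rfl, fun _ _ _ _ _ _ => rfl, h.cov, fun B C p q =>
    ⟨B, C, p, q, fun _ _ _ => rfl, fun _ _ _ => rfl⟩⟩, h.toGr, h.toGnr, h.stress, h.charges,
    fun _ _ _ _ _ => rfl⟩
  loc _ _ _ _ := loc
  bound _ _ _ _ := bound

open P352L.StA in
/-- **the witness** -/
theorem wit : ∃ (E : Type) (_ : NormedAddCommGroup E) (_ : InnerProductSpace ℂ E), Df.Wit5 E := by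
  obtain ⟨A, N, ⟨a, b, -, -, n, u, x⟩, -, -, ⟨-, g, d⟩, ⟨B, k1, k2⟩, k⟩ := fr.topQ rec_fr
  have r := (Br.lnm.1 n).toRep
  have ge : Df.Ge fr.tq id A := ⟨Bg.gr.2 g, ⟨d⟩, rfl, r.add⟩
  have s := Bg.stress0.2 a
  have e := Bg.ebd.2 (H72.ebd r)
  obtain ⟨-, c1, c2⟩ := cnt ge (.inl (Bg.cntf.2 cntF_tq))
  refine ⟨_, _, _, fr.tq, _, A, B, ⟨ge, s, b, u, c2, fun m n =>
    c1 _ (fr.tq.bose_fld _ (s.bose m n)), bound ge s (.inr (.inr e)), loc ge s (.inr ⟨c2, e,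
      Tp.loc ge s e (.inr (.inl fun m n => Sl.lb_wit r m n))⟩)⟩, fun l h => ?_, k1, k2, k⟩
  obtain ⟨Φ, hΦ⟩ := x 0 2 (fun _ => l) ⟨fun _ => h.lin, fun _ => h.cont, fun μ s M a f hs hM b => by
    rw [Fintype.sum_unique, h.cov s M a f hs hM b]
    norm_num
    rfl⟩ fun _ => Br.wloc.2 (wl h)
  exact ⟨_, hΦ default⟩

end

end Vale.Agent.N352.E.Tw
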