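import Vale.Agent.N352.E.Top5
import Vale.Agent.N352.E.Go
import Vale.Agent.N352.Def6

/-!
# N352, block E: the theorem of the second hand-in
-/

set_option linter.all false

namespace Vale.Agent.N352.E.Tz

open P352.GF

variable {D D' : Type*} [NormedAddCommGroup D] [InnerProductSpace ℂ D]
  [NormedAddCommGroup D'] [InnerProductSpace ℂ D']
  {Q : Theory D} {G : D → D} {T : Ix → Ix → Fld D} {A : (V → V) → D → D}

theorem ex {E : Submodule ℂ (UniformSpace.Completion D)} {P : Theory E} {G' e} :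
    De.Ex Q G P G' e ↔ Df.Ex Q G P G' e :=
  ⟨fun k => ⟨k.1, k.2, k.3, k.4, k.5, k.6, k.7, k.8⟩,
    fun k => ⟨k.1, k.2, k.3, k.4, k.5, k.6, k.7, k.8⟩⟩

theorem mx {R : Theory D'} {i} : De.Mx Q G R i ↔ Df.Mx Q G R i :=
  ⟨fun k => ⟨fun E P G' e L a => k.1 E P G' e L (ex.2 a)⟩,
    fun k => ⟨fun E P G' e L a => k.1 E P G' e L (ex.1 a)⟩⟩

theorem hy (h : De.Hb Q G T A) (r : De.Reg1 Q G T A) : Df.Hy Q G T A :=
  ⟨h.1, h.2, h.3, h.4, h.5, h.6, r.1, r.2.elim (fun k => Tp.loc h.1 h.2 r.1 (.inl k)) fun k =>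
    k.elim (fun k => ⟨k.1⟩) fun k => Tp.loc h.1 h.2 r.1 (.inr (.inr (.inr k)))⟩

theorem hw (h : De.Hb Q G T A) (r : De.Reg1 Q G T A ∨ De.Reg2 Q G T A) : Df.Hw Q G T A := by
  rcases r with r | r
  · exact ⟨h.1, h.2, h.3, h.4, h.5, h.6, Tw.bound h.1 h.2 (.inr (.inr r.1)),
      Tw.loc h.1 h.2 (.inr ⟨h.5, r.1, (hy h r).loc⟩)⟩
  · exact ⟨h.1, h.2, h.3, h.4, h.5, h.6,
      r.1.elim (fun k => ⟨k.1⟩) fun k => Tw.bound h.1 h.2 (.inl k),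
      r.2.elim (fun k => ⟨k.1⟩) fun k => Tw.loc h.1 h.2 (.inl k)⟩

variable (D D') in
/-- **the theorem** -/
theorem thm : De.Thm D D' where
  conf Q G T A h r m := (Tp.thm D gt_row).max Q G T A Q _ G T A (hy h r)
    ((Tp.thm D gt_row).self Q G T A (hy h r)) (mx.1 m)
  sup Q G T A R i G' T' A' h r o m :=
    (Tp.thm D' gt_row).max Q G T A R i G' T' A' (hy h r) o (mx.1 m)
  ext Q G T A h r := by
    obtain ⟨S, a, b, E, P, G', e, t, c, k⟩ := (Tp.thm D gt_row).ext Q G T A (hy h r)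
    exact ⟨S, a, b, E, P, G', e, t, ex.2 c, k⟩
  pot Q G T A h r := by
    obtain ⟨S, l, a, b, c, k⟩ := (Tw.thm D D').pot Q G T A (hw h r)
    exact ⟨(Tw.thm D D').self Q G T A (hw h r), S, l, a, b, ⟨c.1, c.2, c.3, c.4⟩, k⟩
  cnt _ _ _ := Tp.cnt
  gen := (Bg.thm D D').gen

open P352 P352L.StA P352R Tp in
/-- **the witness** -/
theorem wit : ∃ (E : Type) (_ : NormedAddCommGroup E) (_ : InnerProductSpace ℂ E), De.Wit E := by
  obtain ⟨A, N, ⟨a, b, -, -, n, u, x⟩, -, -, ⟨-, g, d⟩, ⟨B, k1, k2⟩, k⟩ := fr.topQ rec_fr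
  have r := (Br.lnm.1 n).toRep
  have ge : Df.Ge fr.tq id A := ⟨Bg.gr.2 g, ⟨d⟩, rfl, r.add⟩
  have fl : Df.Flds fr.tq := .inl (Bg.cntf.2 cntF_tq)
  have s := Bg.stress0.2 a
  have e := Bg.ebd.2 (H72.ebd r)
  have l : Df.LBT fr.tq _ := fun m n => Sl.lb_wit r m n
  obtain ⟨-, c1, c2⟩ := cnt ge fl
  have sl := loc ge s e (.inr (.inl l))
  refine ⟨_, _, _, fr.tq, _, A, B, ⟨ge, s, b, u, c2, fun m n =>
    c1 _ (fr.tq.bose_fld _ (s.bose m n))⟩, e, fun m n =>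
      Fb.fb (c := cf ge) (fr.tq.bose_fld _ (s.bose m n)) (s.herm m n) (l m n), ⟨sl.1⟩,
    ⟨(Tw.bound ge s (.inr (.inr e))).1⟩, ⟨(Tw.loc ge s (.inr ⟨c2, e, sl⟩)).1⟩,
    Tz.mx.2 ((Tp.mx ge).2 (max_of_rec x _ _)), fun l h => ?_, fl, k1, k2, k⟩
  obtain ⟨Φ, hΦ⟩ := x 0 2 (fun _ => l) ⟨fun _ => h.lin, fun _ => h.cont, fun μ s M a f hs hM b => by
    rw [Fintype.sum_unique, h.cov s M a f hs hM b]
    norm_num
    rfl⟩ fun _ => Br.wloc.2 (Tw.wl ⟨h.1, h.2, h.3, h.4⟩)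
  exact ⟨_, hΦ default⟩

end Vale.Agent.N352.E.Tz
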