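import Vale.Agent.N352.E.TopI
import Vale.Agent.N352.Def8

/-!
# N352, block E: the theorem on energy bounds, without the auxiliary clauses
-/

namespace Vale.Agent.N352.E.Ti

theorem thn (D D' : Type*) [NormedAddCommGroup D] [InnerProductSpace ℂ D] [NormedAddCommGroup D']
    [InnerProductSpace ℂ D'] : Di.Thn D D' where
  conf := (thm D D').conf
  sup := (thm D D').sup
  ext Q G T A h r :=
    have ⟨S, a, b, E, P, G', e, t, c, _, d⟩ := (thm D D').ext Q G T A h r
    ⟨S, a, b, E, P, G', e, t, c, d⟩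
  pot Q G T A h r :=
    have ⟨o, S, l, a, b, c, d, _⟩ := (thm D D').pot Q G T A h r
    ⟨o, S, l, a, b, c, d⟩

theorem wiu : ∃ (D : Type) (_ : NormedAddCommGroup D) (_ : InnerProductSpace ℂ D), Di.Wiu D := by
  obtain ⟨D, _, _, Q, T, A, _, a, -, b, c, d, e, f, g, -, -, -, -, -, h⟩ := wit
  exact ⟨D, _, _, Q, T, A, a, b, c, d, e, f, g, h⟩

end Vale.Agent.N352.E.Ti
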