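import Vale.Agent.N352.U.Sum

/-!
# N352, block E: energy bounds for the direct sum of two copies of a theory (helper21)
-/

set_option linter.all false

namespace Vale.Agent.N352.U.Sm

open P352.GF P352R.P P352R.G

noncomputable section

variable {D : Type*} [NormedAddCommGroup D] [InnerProductSpace ℂ D] {Q : Theory D} {h : Ok Q}
  {T : Ix → Ix → Fld D} {A : (V → V) → D → D}

theorem dv_eq (a : Rep Q A) (m : Ix) (v : D) : Dv Q m v = Complex.I • A (fun _ => bas m 1) v :=
  (a.der (fun _ => 1) (fun _ => one) (fun e => bas m e) _ v rfl rfl (funext fun n => ite_self _)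
    (fun _ => ⟨one_pos, lor1⟩) fun n z => by
      simp only [sim, bas]
      split_ifs
      exacts [(hasDerivAt_id' 0).add_const _, hasDerivAt_const _ _]).deriv

theorem dv_ap (a : Rep Q A) (m : Ix) (v : D2 D) (i) : Dv (sm h) m v i = Dv Q m (v i) := by
  rw [dv_eq (rep a), dv_eq a]
  rfl

theorem en_nn (k : ℕ) : ∀ v, 0 ≤ en Q k v := by
  induction k with
  | zero => exact norm_nonneg
  | succ k ih => exact fun v => add_nonneg (ih v) (Finset.sum_nonneg fun m _ => ih _)

theorem en_mono {k k' : ℕ} (e : k ≤ k') (v : D) : en Q k v ≤ en Q k' v :=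
  monotone_nat_of_le_succ (f := fun k => en Q k v)
    (fun k => le_add_of_nonneg_right (Finset.sum_nonneg fun m _ => en_nn k _)) e

theorem en_ap (a : Rep Q A) (k : ℕ) (i) : ∀ v : D2 D, en Q k (v i) ≤ en (sm h) k v := by
  induction k with
  | zero => exact fun v => PiLp.norm_apply_le v i
  | succ k ih =>
    exact fun v => add_le_add (ih v) (Finset.sum_le_sum fun m _ => dv_ap (h := h) a m v i ▸ ih _)

theorem norm_le (v : D2 D) : ‖v‖ ≤ ∑ i, ‖v i‖ :=
  (congrArg _ (sum_sg v)).ge.trans ((norm_sum_le _ _).trans_eq (by simp))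

theorem ebd (a : Rep Q A) (e : EBd Q) : EBd (sm h) := by
  rintro _ ⟨C, b, rfl⟩
  choose k c using fun i => e _ (b i)
  refine ⟨Finset.univ.sup k, fun f hf => ?_⟩
  choose K d using fun i => c i f hf
  refine ⟨∑ i, |K i|, fun v => (norm_le _).trans ?_⟩
  rw [Finset.sum_mul]
  exact Finset.sum_le_sum fun i _ => (d i _).trans (mul_le_mul (le_abs_self _)
    ((en_mono (Finset.le_sup (Finset.mem_univ i)) _).trans (en_ap a _ i v)) (en_nn _ _)
      (abs_nonneg _))

theorem lb (a : Rep Q A) {X : D → D} (e : ∃ C : ℝ, ∀ v, ‖X v‖ ≤ C * (‖v‖ + ‖Dv Q o v‖)) :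
    ∃ C : ℝ, ∀ v, ‖dg (fun _ => X) v‖ ≤ C * (‖v‖ + ‖Dv (sm h) o v‖) := by
  obtain ⟨C, e⟩ := e
  refine ⟨∑ i : Fin 2, |C|, fun v => (norm_le _).trans ?_⟩
  rw [Finset.sum_mul]
  exact Finset.sum_le_sum fun i _ => (e _).trans (mul_le_mul (le_abs_self _)
    (add_le_add (PiLp.norm_apply_le v i) (dv_ap (h := h) a o v i ▸ PiLp.norm_apply_le _ i))
    (by positivity) (abs_nonneg _))

end

end Vale.Agent.N352.U.Sm
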