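import Vale.Agent.N352.E.Top6
import Vale.Agent.N352.E.PotI
import Vale.Agent.N352.U.All
import Vale.Agent.N352.U.WitD
import Vale.Agent.N352.U.Brg
import Vale.Agent.N352.E.WitS
import Vale.Agent.N352.Def7

/-!
# N352, block E: the theorem for degenerate vacua, in the public definitions (helper21)
-/

set_option linter.all false

namespace Vale.Agent.N352.E.Ti

open P352 P352.GF P352R Tp
open UniformSpace (Completion)

variable {D D' : Type*} [NormedAddCommGroup D] [InnerProductSpace ℂ D]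
  [NormedAddCommGroup D'] [InnerProductSpace ℂ D']
  {Q : Theory D} {G : D → D} {T : Ix → Ix → Fld D} {A : (V → V) → D → D}

theorem ex' {E : Submodule ℂ (Completion D)} {P : Theory E} {G' e} :
    Di.Ex Q G P G' e ↔ Df.Ex Q G P G' e :=
  ⟨fun k => ⟨k.1, k.2, k.3, k.4, k.5, k.6, k.7, k.8⟩,
    fun k => ⟨k.1, k.2, k.3, k.4, k.5, k.6, k.7, k.8⟩⟩

theorem mx' {R : Theory D'} {i} : Di.Mx Q G R i ↔ Df.Mx Q G R i :=
  ⟨fun k => ⟨fun E P G' e L a => k.1 E P G' e L (ex'.2 a)⟩,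
    fun k => ⟨fun E P G' e L a => k.1 E P G' e L (ex'.1 a)⟩⟩

theorem sl' (h : Di.Hb Q G T A) (r : Di.Reg1 Q G T A) : Df.SL Q T :=
  r.2.elim (fun k => loc h.1 h.2 r.1 (.inl k)) fun k =>
    k.elim (fun k => ⟨k.1⟩) fun k => loc h.1 h.2 r.1 (.inr (.inr (.inr k)))

theorem reg (h : Di.Hb Q G T A) (r : Di.Reg1 Q G T A ∨ Di.Reg2 Q G T A) :
    Df.EBT Q T ∧ Df.SL1 Q T := by
  rcases r with r | r
  · exact ⟨Tw.bound h.1 h.2 (.inr (.inr r.1)), Tw.loc h.1 h.2 (.inr ⟨h.cov, r.1, sl' h r⟩)⟩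
  · exact ⟨r.1.elim (fun k => ⟨k.1⟩) fun k => Tw.bound h.1 h.2 (.inl k),
      r.2.elim (fun k => ⟨k.1⟩) fun k => Tw.loc h.1 h.2 (.inl k)⟩

theorem sec (h : Di.Hb Q G T A) (r : Di.Reg1 Q G T A) :
    ∃ (F : Ix → Ix → Finset (ℂ × ℕ)) (C : Ix → Ix → ℂ × ℕ → Fld D),
      (∀ m n, P352X.Scl Q (T m n) (F m n) (C m n)) ∧ (∀ m n j, ((4 : ℂ), j) ∈ F m n ↔ j = 0) ∧
      Q.IsStress (fun m n => C m n (4, 0)) ∧ Df.PCh Q (fun m n => C m n (4, 0)) A ∧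
      Mn.Core (cf h.toGe) fun m n => C m n (4, 0) := by
  obtain ⟨b, s⟩ := reg h (.inl r)
  obtain ⟨F, C, a, b, c, d, -, N, l, p, q⟩ := sectorI (c := cf h.toGe) (fun E _ _ => U.rows E)
    (Br.stress0.1 (Bg.stress0.1 h.stress)) h.charges (fun s hs => h.cov s _ 0 hs lor1)
    (fun m n => (h.scl m n).imp fun _ => Exists.imp fun _ k => ⟨k.1, k.2⟩)
    h.vacua (Tw.eb1 b) (Tw.sl1.1 s)
  exact ⟨F, C, a, b, c, d, core_of (gt_row) _ c q p (Br.ebd.1 (Bg.ebd.1 r.1)) (cov0_of h.cov)⟩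

theorem self (h : Di.Hb Q G T A) : Df.Over Q T Q .id G T A :=
  ⟨⟨rfl, fun _ _ _ _ _ _ => rfl, h.cov, fun B C p q =>
    ⟨B, C, p, q, fun _ _ _ => rfl, fun _ _ _ => rfl⟩⟩, h.toGr, h.toGnr, h.stress, h.charges,
    fun _ _ _ _ _ => rfl⟩

theorem sup (h : Di.Hb Q G T A) (r : Di.Reg1 Q G T A) {R : Theory D'} {i G' T' A'}
    (a : Df.Over Q T R i G' T' A') (b : Di.Mx Q G R i) : ∃ t, Df.Conf R G' T' t := by
  obtain ⟨F, C, p, q, -, -, k⟩ := sec h r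
  exact (Mn.key (cf h.toGe) (Br.stress0.1 (Bg.stress0.1 h.stress)) p q k (Bg.ovr.1 a)
    ((mx h.toGe).1 (mx'.1 b))).imp fun _ => Bg.conf

variable (D D') in
/-- **the theorem** -/
theorem thm : Di.Thm D D' where
  conf Q G T A h r m := sup h r (self h) m
  sup Q G T A R i G' T' A' h r o m := sup h r o m
  ext Q G T A h r := by
    obtain ⟨F, C, -, -, a, b, k⟩ := sec h r
    obtain ⟨E, P, G', e, t, c, d, k⟩ := Mn.exten _ (cov0_of (c := cf h.toGe) h.cov) k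
    exact ⟨_, a, b, E, P, G', e, t, ex'.2 ((ex h.toGe).2 c), fun p q =>
      Bg.desc (d (Br.mfa.1 (Bg.mfa.1 p)) (Bg.fsl.1 q)),
      fun R p q => Bg.conf (k R (Bg.enl.1 p) (Bg.gr.1 q))⟩
  pot Q G T A h r := by
    obtain ⟨b, s⟩ := reg h r
    obtain ⟨-, S, l, a, b, p, w, k⟩ := keyRI (c := cf h.toGe) (D' := D') (fun E _ _ => U.rows E)
      (Br.stress0.1 (Bg.stress0.1 h.stress)) h.charges h.cov
      (fun m n => (h.scl m n).imp fun _ => Exists.imp fun _ k => ⟨k.1, k.2⟩)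
      h.vacua (Tw.eb1 b) (Tw.sl1.1 s)
    have w := Tw.wl' h.toGe p w
    exact ⟨self h, S, l, a, b, ⟨w.1, w.2, w.3, w.4⟩, fun f hf => (p.trace f hf).symm,
      fun R i G' T' A' L o q r => (k R i G' T' A' (Bg.ovr.1 o) ⟨L, q, r⟩).imp fun _ => Bg.conf⟩
  uni _ := Bg.ivac_of
  cnt _ _ _ := Tp.cnt
  gen := (Bg.thm D D').gen

/-- **the witness** -/
theorem wit : ∃ (E : Type) (_ : NormedAddCommGroup E) (_ : InnerProductSpace ℂ E), Di.Wit E := by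
  obtain ⟨E, _, _, Q, T, A, B, h, a, b, c, d, e, f, g, k⟩ := Tz.wit
  exact ⟨E, _, _, Q, T, A, B, ⟨h.1, h.2, h.3, Bg.ivac_of h.4, h.5, h.6⟩, h.4, a, b, ⟨c.1⟩, ⟨d.1⟩,
    ⟨e.1⟩, mx'.2 (Tz.mx.1 f), fun l w => g l ⟨w.1, w.2, w.3, w.4⟩, k⟩

theorem ebd_wid (e : P352R.G.EBd Q) : P352R.G.EBd (Tn.wid Q) := by
  have k : ∀ k v, P352R.G.en (Tn.wid Q) k v = P352R.G.en Q k v := fun k => by
    induction k with
    | zero => exact fun v => rfl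
    | succ k ih => exact fun v => by simp only [P352R.G.en, ih]; rfl
  rintro B (hB | ⟨z, rfl⟩)
  · simpa only [k] using e B hB
  · exact ⟨0, fun f _ => ⟨_, fun v => (norm_smul _ v).le⟩⟩

open P352L.StA U in
/-- **the witness with a degenerate vacuum** -/
theorem witD : ∃ (E : Type) (_ : NormedAddCommGroup E) (_ : InnerProductSpace ℂ E), Di.WitD E := by
  obtain ⟨A, N, ⟨a, b, -, f, n, u, x⟩, -, m, ⟨-, g, -⟩, -, k⟩ := fr.topQ rec_fr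
  have r := (Br.lnm.1 n).toRep
  let c : P352X.EG.Cg _ := ⟨fr.tq, id, A, 1, N, Br.lng.1 (lng_of n g)⟩
  have hT := fun m n => fr.tq.bose_fld _ (a.bose m n)
  have h : Sm.Ok (Tn.wid fr.tq) := ⟨.inr ⟨1, funext₂ fun _ _ => by rw [Tn.idz, one_mul]⟩,
    .inr ⟨0, funext₂ fun _ _ => by simp [Tn.idz]⟩⟩
  have n1 := Br.lng.2 (Tn.wid_lng c.hN)
  have r1 := (N352.lnm_of n1).toRep
  have r2 := Sm.rep (h := h) r1
  have ge : Df.Ge (Sm.sm h) id (Sm.A2 A) :=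
    ⟨Bg.gr.2 (Sm.gr n1.toGr r1), ⟨r2.der⟩, rfl, r2.add⟩
  have s1 : P.Stress0 (Tn.wid fr.tq) _ := ⟨fun m n => .inl (a.bose m n), a.symm, a.herm, a.cov,
    a.conserved, Tn.wid_chg hT a.charge⟩
  have s := Bg.stress0.2 (Sm.st0 (h := h) s1)
  obtain ⟨-, c1, c2⟩ := cnt ge (Bg.flds.2 (.inr
    ⟨Sm.mfa (Br.mfa.2 (Tn.wid_mfa (Br.mfa.1 m))), Sm.fsl (Tn.wid_fsl f)⟩))
  have hb := fun m n => (Sm.sm h).bose_fld _ (s.bose m n)
  exact ⟨_, _, _, Sm.sm h, _, _, ⟨ge, s, Sm.pch (Tn.wid_pch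
    (fun X hX => (P352X.EG.Fsg.gen c hX).isLinear) hT b), Sm.ivac u, c2, fun m n => c1 _ (hb m n)⟩,
    Sm.not_uvac, Bg.ebd.2 (Sm.ebd r1 (ebd_wid (H72.ebd r))), fun m n => Fb.fb (c := cf ge) (hb m n)
      (s.herm m n) fun f hf => Sm.lb (h := h) r1 (Sl.lb_wit r m n f hf),
    mx'.2 ((mx ge).2 (max_of_rec (Sm.recon (h := h) fun k d φ p q => (x k d φ ⟨p.lin, p.cont, p.cov⟩
      fun μ f X X' s t => q μ f X X' s (Bg.al_enl (Q := fr.tq) (R := Tn.wid fr.tq) (fun _ => Or.inl) t)).imp fun _ r μ =>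
        ⟨Or.inl (r μ).1, (r μ).2⟩) _ _)), Sm.inf k.1, k.2.imp fun _ x => ⟨x.1, Sm.trace s1 x.1 x.2⟩⟩

end Vale.Agent.N352.E.Ti
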