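import Vale.Agent.N352.E.Base
import Vale.Agent.N352.X.FIN

/-!
# N352, block E: from the action of the letters on a domain to the extension (port of X/Lt, Tm, Rec, FIN)
-/

set_option linter.all false

open MeasureTheory Filter Topology Metric
open scoped SchwartzMap ComplexConjugate ContDiff

namespace Vale.Agent.N352.E

open Vale.Agent.P352 Vale.Agent.P352.GF Vale.Agent.P352.BW Vale.Agent.P352.H246
open Vale.Agent.P352.H496 Vale.Agent.P352.H755 Vale.Agent.P352.H15
open Vale.Agent.P352.SubConf (IsAdj)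
open Vale.Agent.P352X Vale.Agent.P352X.EB
open UniformSpace (Completion)

noncomputable section

variable {D : Type*} [NormedAddCommGroup D] [InnerProductSpace ℂ D]

/-- **The context for words**: the potential, a product and a domain -/
structure Ctx (D : Type*) [NormedAddCommGroup D] [InnerProductSpace ℂ D] extends Cf D where
  T : Ix → Ix → Fld D
  l : Fn → Completion D
  hT : Q.IsStress T
  hl : IsPot Q T l
  ml : Completion D → Completion D → Completion D
  d1 : Completion D → Prop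

def dl0 (c : Cf D) (s : ℝ) (hs : 1 ≤ s) : Sh c :=
  ⟨⟨s, GF.one, 0, by linarith, H496.isLor_one⟩, false⟩

theorem dl0_act {c : Cf D} {s : ℝ} (hs : 1 ≤ s) (y : V) : (dl0 c s hs).act y = s • y := by
  funext n
  simp [dl0, Sg.act, sim, GF.one, bas]

/-- the domain -/
def D1 (c : Ctx D) (v : Completion D) : Prop := c.d1 v

/-- row FIN: the extension with the local potential -/
def FIN (c : Ctx D) : Prop := ∃ (D' : Submodule ℂ (Completion D)) (Q' : Theory D') (G' : D' → D')
  (e : Fld D → Fld D') (L : Fld D'), ExtC c.Q c.Γ Q' G' e ∧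
    Q'.IsStress (fun m n => e (c.T m n)) ∧ Q'.IsScalar L 2 ∧ (∀ f v, IsTest f →
      GF.tr (fun m n => e (c.T m n)) f v = (3 : ℂ) • L (box f) v) ∧
    (∀ f, IsTest f → (L f Q'.vac : Completion D) = c.l f) ∧
    ∀ A, Q'.fld A → ∃ (n : ℕ) (B : Fin n → Fld D'), (∀ i, B i = L ∨ ∃ C, c.Q.fld C ∧
      ∀ f v, IsTest f → B i f v = e C f v) ∧ ∀ f v, A f v = ∑ i, B i f v

section lt

/-- the letters: fields applied to the vacuum -/
structure Lt (c : Ctx D) (Λ : Type*) where
  dag : Λ → Λ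
  φ : Λ → Fn → Completion D
  p : Λ → Bool
  dag2 : ∀ a, dag (dag a) = a
  pdag : ∀ a, p (dag a) = p a
  par : ∀ a f, IsTest f → c.Γ (φ a f) = sg (p a) • φ a f
  lin : ∀ a (f g : Fn) (z : ℂ), IsTest f → IsTest g →
    φ a (fun x => f x + z * g x) = φ a f + z • φ a g
  cont : ∀ a, Continuous fun g : Sch => φ a (ev g)
  cov : ∀ a (g : Sh c.toCf), ∃ (n : ℕ) (κ : Fin n → ℂ) (b : Fin n → Λ), ∀ f, IsTest f →
    φ (dag a) f = ∑ i, conj (κ i) • g.U c.toCf (φ (dag (b i)) (g.pull f))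
  tra : ∀ a y f, IsTest f → φ a f = Ut c.Q y (φ a fun x => f (sim 1 GF.one y x))

variable {c : Ctx D} {Λ : Type*}

namespace Lt

variable (x : Lt c Λ)

/-- the letter `a`, smeared with `f`, acting on local vectors -/
def op (a : Λ) (f : Fn) (v : Completion D) : Completion D := c.ml (x.φ (x.dag a) (bar f)) v

/-- words acting on local vectors -/
def ap (u : Wd Λ) (v : Completion D) : Completion D := u.foldr (fun p w => x.op p.1 p.2 w) v

/-- words of Schwartz functions applied to the vacuum -/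
def W (u : Wd Λ) : Completion D := limUnder atTop fun R : ℕ => x.ap (cutw R u) c.Om

/-- the new domain -/
def Dn : Submodule ℂ (Completion D) := Submodule.span ℂ {z | ∃ u, TW u ∧ z = x.W u}

open Classical in
/-- the new fields -/
def o (a : Λ) : Fld x.Dn := fun f v =>
  if h : IsTest f ∧ ∃ z : x.Dn, ∀ u, TW u → inner ℂ (z : Completion D) (x.W u) =
    inner ℂ (v : Completion D) (x.W ((x.dag a, bar f) :: u)) then h.2.choose else 0

open Classical in
/-- the similitudes on the new domain -/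
def Ud (s : ℝ) (L : Ix → V) (a : V) (v : x.Dn) : x.Dn :=
  if h : Ug c.Q s L a v ∈ x.Dn then ⟨_, h⟩ else v

open Classical in
/-- the grading on the new domain -/
def Gd (v : x.Dn) : x.Dn := if h : c.Γ v ∈ x.Dn then ⟨_, h⟩ else v

/-- the covariance relation of the adjoint letters, on the vacuum -/
def Cv (a : Λ) (g : Sh c.toCf) {n : ℕ} (κ : Fin n → ℂ) (b : Fin n → Λ) : Prop := ∀ f, IsTest f →
  x.φ (x.dag a) f = ∑ i, conj (κ i) • g.U c.toCf (x.φ (x.dag (b i)) (g.pull f))

/-- the letter `a` is the field `B` with adjoint `B'` -/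
def Is (a : Λ) (B B' : Fld D) : Prop := c.Q.fld B ∧ c.Q.fld B' ∧ IsAdj B B' ∧
  ∀ f, IsTest f → x.φ a f = (B f c.Q.vac : D) ∧ x.φ (x.dag a) f = (B' f c.Q.vac : D)

/-- finite sums of new fields with labels in `P` -/
def Fs (P : Λ → Prop) (B : Fld x.Dn) : Prop := ∃ (n : ℕ) (b : Fin n → Λ), (∀ i, P (b i)) ∧
  B = fun f v => ∑ i, x.o (b i) f v

/-- the sign in the commutation relation -/
def sn (a b : Λ) : ℂ := sg (x.p a && x.p b)

end Lt

variable (x : Lt c Λ)

/-- row OPS: the letters act on the local vectors -/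
structure OPS : Prop where
  d_vac : D1 c c.Om
  d_zero : D1 c 0
  d_add : ∀ v w, D1 c v → D1 c w → D1 c (v + w)
  d_smul : ∀ (z : ℂ) v, D1 c v → D1 c (z • v)
  d_U : ∀ (g : Sh c.toCf) v, D1 c v → D1 c (g.U c.toCf v)
  mem : ∀ a f v, In Set.univ f → D1 c v → D1 c (x.op a f v)
  add : ∀ a f v w, In Set.univ f → D1 c v → D1 c w → x.op a f (v + w) = x.op a f v + x.op a f w
  smul : ∀ a f (z : ℂ) v, In Set.univ f → D1 c v → x.op a f (z • v) = z • x.op a f v
  lin : ∀ a (f g : Fn) (z : ℂ) v, In Set.univ f → In Set.univ g → D1 c v →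
    x.op a (fun y => f y + z * g y) v = x.op a f v + z • x.op a g v
  herm : ∀ a f v w, In Set.univ f → D1 c v → D1 c w →
    inner ℂ (x.op a f v) w = inner ℂ v (x.op (x.dag a) (bar f) w)
  cov : ∀ a (g : Sh c.toCf) n (κ : Fin n → ℂ) b f v, x.Cv a g κ b → In Set.univ f → D1 c v →
    x.op a f (g.U c.toCf v) = ∑ i, κ i • g.U c.toCf (x.op (b i) (g.pull f) v)
  loc : ∀ a b f g v, In Set.univ f → In Set.univ g → Sep f g → D1 c v →
    x.op a f (x.op b g v) = x.sn a b • x.op b g (x.op a f v)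
  aff : ∀ a B B' f v (w : D), x.Is a B B' → In Set.univ f → D1 c v → Cyc c.Q w →
    inner ℂ (x.op a f v) (w : Completion D) = inner ℂ v ((B' (bar f) w : D) : Completion D)
  zero : ∀ n (κ : Fin n → ℂ) (b : Fin n → Λ) (f : Fin n → Fn) v, (∀ i, In Set.univ (f i)) →
    ∑ i, κ i • x.φ (b i) (f i) = 0 → D1 c v → ∑ i, κ i • x.op (b i) (f i) v = 0
  cont : ∀ a R v, D1 c v → Continuous fun f : Sch => x.op a (cutf R (ev f)) v
  vac : ∀ a f, In Set.univ f → x.op a f c.Om = x.φ a f

/-- the tools for the rows on words -/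
structure E1 : Prop extends E0 c.toCf where
  ops : OPS x

/-- finite families under dilations -/
def Dil : Prop := ∀ a, ∃ (e n : ℕ) (b : Fin n → Λ), ∀ s : ℝ, 1 ≤ s → ∃ κ : Fin n → ℂ,
    (∀ i, ‖κ i‖ ≤ s ^ e) ∧ ∀ f, IsTest f → x.φ (x.dag a) f = ∑ i, conj (κ i) •
      Ug c.Q s GF.one 0 (x.φ (x.dag (b i)) fun y => f (sim s GF.one 0 y))

/-- row JB: joint bounds for supports in the unit ball -/
def JB : Prop := ∀ (ls : List Λ) v, D1 c v → ∃ (m : ℕ) (C : ℝ), 0 ≤ C ∧
  ∀ u : List (Λ × Sch), u.map Prod.fst = ls → ‖x.ap (cutw 0 (evw u)) v‖ ≤ C * snw m u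

/-- row TMP: tempered bounds -/
def TMP : Prop := ∀ ls : List Λ, ∃ (m : ℕ) (C : ℝ), 0 ≤ C ∧
  ∀ u : List (Λ × Sch), u.map Prod.fst = ls → CW (evw u) → ‖x.ap (evw u) c.Om‖ ≤ C * snw m u

/-- row EXT: extension to Schwartz functions -/
structure EXT : Prop where
  lim : ∀ u, TW u → Tendsto (fun R => x.ap (cutw R u) c.Om) atTop (𝓝 (x.W u))
  cw : ∀ u, CW u → x.W u = x.ap u c.Om
  bd : ∀ ls : List Λ, ∃ (m : ℕ) (C : ℝ), 0 ≤ C ∧
    ∀ u : List (Λ × Sch), u.map Prod.fst = ls → ‖x.W (evw u)‖ ≤ C * snw m u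

/-- row FS (first part): the vector valued Wightman distributions -/
structure WP : Prop where
  nil : x.W [] = c.Om
  lin : ∀ a (f g : Fn) (z : ℂ) u, IsTest f → IsTest g → TW u →
    x.W ((a, fun y => f y + z * g y) :: u) = x.W ((a, f) :: u) + z • x.W ((a, g) :: u)
  cont : ∀ a u, TW u → Continuous fun g : Sch => x.W ((a, ev g) :: u)
  herm : ∀ a f u w, IsTest f → TW u → TW w →
    inner ℂ (x.W ((a, f) :: u)) (x.W w) = inner ℂ (x.W u) (x.W ((x.dag a, bar f) :: w))
  loc : ∀ a b f g u, IsTest f → IsTest g → Sep f g → TW u →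
    x.W ((a, f) :: (b, g) :: u) = x.sn a b • x.W ((b, g) :: (a, f) :: u)
  aff : ∀ a B B' f u (w : D), x.Is a B B' → IsTest f → TW u → Cyc c.Q w →
    inner ℂ (x.W ((a, f) :: u)) (w : Completion D) =
      inner ℂ (x.W u) ((B' (bar f) w : D) : Completion D)

/-- row FS (second part): the new fields -/
structure FS : Prop where
  vac : c.Om ∈ x.Dn
  oW : ∀ a f u (v : x.Dn), IsTest f → TW u → (v : Completion D) = x.W u →
    (x.o a f v : Completion D) = x.W ((a, f) :: u)
  add : ∀ a f v w, x.o a f (v + w) = x.o a f v + x.o a f w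
  smul : ∀ a f (z : ℂ) v, x.o a f (z • v) = z • x.o a f v
  lin : ∀ a (f g : Fn) (z : ℂ) v, IsTest f → IsTest g →
    x.o a (fun y => f y + z * g y) v = x.o a f v + z • x.o a g v
  cont : ∀ a v, Continuous fun g : Sch => x.o a (ev g) v
  herm : ∀ a, IsAdj (x.o a) (x.o (x.dag a))
  loc : ∀ a b f g v, IsTest f → IsTest g → Sep f g →
    x.o a f (x.o b g v) = x.sn a b • x.o b g (x.o a f v)
  aff : ∀ a B B' f (v : x.Dn) (w : D), x.Is a B B' → IsTest f → Cyc c.Q w →
    inner ℂ (x.o a f v : Completion D) (w : Completion D) =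
      inner ℂ (v : Completion D) ((B' (bar f) w : D) : Completion D)

/-- row CV: covariance and relations of the new fields -/
structure CV : Prop where
  mem : ∀ (g : Sh c.toCf) v, v ∈ x.Dn → g.U c.toCf v ∈ x.Dn
  cov : ∀ a (g : Sh c.toCf) n (κ : Fin n → ℂ) b f (v w : x.Dn), x.Cv a g κ b → IsTest f →
    (w : Completion D) = g.U c.toCf v →
    (x.o a f w : Completion D) = ∑ i, κ i • g.U c.toCf (x.o (b i) (g.pull f) v)
  zero : ∀ n (κ : Fin n → ℂ) (b : Fin n → Λ) (f : Fin n → Fn) v, (∀ i, In Set.univ (f i)) →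
    ∑ i, κ i • x.φ (b i) (f i) = 0 → ∑ i, κ i • x.o (b i) (f i) v = 0

/-- row REC: the new theory -/
def REC : Prop := ∀ P : Λ → Prop, (∀ a, P a → P (x.dag a)) →
  (∀ S : Submodule ℂ x.Dn, (∀ v : x.Dn, (v : Completion D) = c.Om → v ∈ S) →
    (∀ a f v, P a → IsTest f → v ∈ S → x.o a f v ∈ S) → Dense (S : Set x.Dn)) →
  ∃ Q' : Theory x.Dn, (Q'.vac : Completion D) = c.Om ∧ Q'.U = x.Ud ∧
    (∀ B, Q'.fld B ↔ x.Fs P B) ∧
    (∀ B, Q'.bose B ↔ x.Fs P B ∧ ∀ f v, IsTest f → B f (x.Gd v) = x.Gd (B f v)) ∧ Gr Q' x.Gd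

end lt

section words

variable {c : Ctx D} {Λ : Type*} {x : Lt c Λ}

namespace Jq

open EG.H.JBp (sn0 sn_mono snw_cons snw0 snw_mono snw_snoc ubp mkL)


theorem inn (t : E1 x) (f : Sch) : In Set.univ (cutf 0 (ev f)) :=
  ⟨(t.ana.inn 0 _ ⟨f, rfl⟩).1, (t.ana.inn 0 _ ⟨f, rfl⟩).2.1, Set.subset_univ _⟩

theorem ap_cons (p : Λ × Sch) (u : List (Λ × Sch)) (v : Completion D) :
    x.ap (cutw 0 (evw (p :: u))) v = x.op p.1 (cutf 0 (ev p.2)) (x.ap (cutw 0 (evw u)) v) := rfl

theorem ap_snoc (u : List (Λ × Sch)) (p : Λ × Sch) (v : Completion D) :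
    x.ap (cutw 0 (evw (u ++ [p]))) v = x.ap (cutw 0 (evw u)) (x.op p.1 (cutf 0 (ev p.2)) v) := by
  simp [Lt.ap, evw, cutw, List.foldr_append]

theorem ap_mem (t : E1 x) (u : List (Λ × Sch)) {v : Completion D} (hv : D1 c v) :
    D1 c (x.ap (cutw 0 (evw u)) v) := by
  induction u with
  | nil => exact hv
  | cons p u ih => exact t.ops.mem _ _ _ (inn t _) ih

theorem ap_lin (t : E1 x) (u : List (Λ × Sch)) (z : ℂ) {v w : Completion D} (hv : D1 c v)
    (hw : D1 c w) : x.ap (cutw 0 (evw u)) (v + z • w) =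
      x.ap (cutw 0 (evw u)) v + z • x.ap (cutw 0 (evw u)) w := by
  induction u with
  | nil => rfl
  | cons p u ih =>
    rw [ap_cons, ap_cons, ap_cons, ih, t.ops.add _ _ _ _ (inn t _) (ap_mem t u hv)
      (t.ops.d_smul _ _ (ap_mem t u hw)), t.ops.smul _ _ _ _ (inn t _) (ap_mem t u hw)]

/-- the word can be moved to the other side -/
theorem ap_herm (t : E1 x) (u : List (Λ × Sch)) {w : Completion D} (hw : D1 c w) :
    ∃ w', ∀ v, D1 c v → inner ℂ w (x.ap (cutw 0 (evw u)) v) = inner ℂ w' v := by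
  induction u generalizing w with
  | nil => exact ⟨w, fun v _ => rfl⟩
  | cons p u ih =>
    obtain ⟨w', h⟩ := ih (t.ops.mem (x.dag p.1) _ w (inn t p.2).bar hw)
    refine ⟨w', fun v hv => ?_⟩
    rw [ap_cons, ← h v hv, ← inner_conj_symm, t.ops.herm _ _ _ _ (inn t _) (ap_mem t u hv) hw,
      inner_conj_symm]

theorem op_lin (t : E1 x) (a : Λ) {v : Completion D} (hv : D1 c v) (f g : Sch) (z : ℂ) :
    x.op a (cutf 0 (ev (f + z • g))) v =
      x.op a (cutf 0 (ev f)) v + z • x.op a (cutf 0 (ev g)) v := by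
  rw [← t.ops.lin a _ _ z v (inn t f) (inn t g) hv]
  congr 1
  funext y
  simp [cutf, ev]
  ring

/-- the local vectors -/
def S1 (t : E1 x) : Submodule ℂ (Completion D) where
  carrier := {v | D1 c v}
  add_mem' := fun h h' => t.ops.d_add _ _ h h'
  zero_mem' := t.ops.d_zero
  smul_mem' := fun z _ h => t.ops.d_smul z _ h

/-- the last slot -/
def Ψ (t : E1 x) (a : Λ) {v : Completion D} (hv : D1 c v) (u : List (Λ × Sch)) : Sch →ₗ[ℂ] S1 t :=
  mkL (fun f => ⟨x.ap (cutw 0 (evw u)) (x.op a (cutf 0 (ev f)) v),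
      ap_mem t u (t.ops.mem _ _ _ (inn t f) hv)⟩) fun f g z => Subtype.ext (by
    show x.ap _ _ = x.ap _ _ + z • x.ap _ _
    rw [op_lin t a hv, ap_lin t u z (t.ops.mem _ _ _ (inn t f) hv) (t.ops.mem _ _ _ (inn t g) hv)])

theorem Ψ_apply (t : E1 x) (a : Λ) {v : Completion D} (hv : D1 c v) (u : List (Λ × Sch)) (f : Sch) :
    (Ψ t a hv u f : Completion D) = x.ap (cutw 0 (evw u)) (x.op a (cutf 0 (ev f)) v) := rfl

theorem Ψ_cont (t : E1 x) (a : Λ) {v : Completion D} (hv : D1 c v) (u : List (Λ × Sch)) :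
    Continuous (Ψ t a hv u) := by
  haveI := t.ana.barr
  refine cont_of_weak (Ψ t a hv u) dense_univ fun z _ => ?_
  obtain ⟨w', h⟩ := ap_herm t u (w := z.1) z.2
  have e : (fun f => inner ℂ z (Ψ t a hv u f)) =
      fun f : Sch => inner ℂ w' (x.op a (cutf 0 (ev f)) v) := by
    funext f
    rw [Submodule.coe_inner, Ψ_apply, h _ (t.ops.mem _ _ _ (inn t f) hv)]
  rw [e]
  exact continuous_const.inner (t.ops.cont a 0 v hv)

end Jq

open EG.H.JBp (sn0 sn_mono snw_cons snw0 snw_mono snw_snoc ubp mkL) in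
open Jq in
theorem jb_row (t : E1 x) : JB x := by
  intro ls
  induction ls using List.reverseRecOn with
  | nil =>
    intro v _
    refine ⟨0, ‖v‖, norm_nonneg _, fun u hu => ?_⟩
    obtain rfl := List.map_eq_nil_iff.1 hu
    simp [snw, Lt.ap, cutw, evw]
  | append_singleton ls a ih =>
    intro v hv
    haveI := t.ana.baire
    obtain ⟨m, k, C, hC, h⟩ := ubp
      (fun u : {u : List (Λ × Sch) // u.map Prod.fst = ls} => Ψ t a hv u.1)
      (fun u => Ψ_cont t a hv u.1) (fun m u => m * snw m u.1) fun f => by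
        obtain ⟨m, C, hC, h⟩ := ih _ (t.ops.mem a _ v (inn t f) hv)
        refine ⟨max m ⌈C⌉₊, fun u => (h u.1 u.2).trans ?_⟩
        refine mul_le_mul ((Nat.le_ceil C).trans ?_) (snw_mono (le_max_left _ _) _) (snw0 _ _)
          (Nat.cast_nonneg _)
        exact_mod_cast le_max_right _ _
    refine ⟨max m k, C * m, by positivity, fun u hu => ?_⟩
    obtain ⟨u', w, rfl, hu', hw⟩ := List.map_eq_append_iff.1 hu
    obtain ⟨p, w', rfl, hp, hw'⟩ := List.map_eq_cons_iff.1 hw
    obtain rfl := List.map_eq_nil_iff.1 hw'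
    subst hp
    have h1 := h ⟨u', hu'⟩ p.2
    rw [ap_snoc, snw_snoc]
    refine (le_of_eq rfl).trans (h1.trans ?_)
    have h2 : snw m u' * sn k p.2 ≤ snw (max m k) u' * sn (max m k) p.2 :=
      mul_le_mul (snw_mono (le_max_left _ _) _) (sn_mono (le_max_right _ _) _) (sn0 _ _) (snw0 _ _)
    calc C * (m * snw m u') * sn k p.2 = C * m * (snw m u' * sn k p.2) := by ring
      _ ≤ _ := mul_le_mul_of_nonneg_left h2 (by positivity)
namespace Tq

open EG.H.Tmp (sn0 snw_cons snw0 CS BS slots inn rl rl_mem rl_fst rl_snw)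

theorem ap_cons (p : Λ × Sch) (u : List (Λ × Sch)) (v : Completion D) :
    x.ap (evw (p :: u)) v = x.op p.1 (ev p.2) (x.ap (evw u) v) := rfl

theorem ap_app (u w : List (Λ × Sch)) (v : Completion D) :
    x.ap (evw (u ++ w)) v = x.ap (evw u) (x.ap (evw w) v) := by
  simp [Lt.ap, evw, List.foldr_append]

theorem ap_mem (o : OPS x) {u : List (Λ × Sch)} (hu : CS u) {v : Completion D} (hv : D1 c v) :
    D1 c (x.ap (evw u) v) := by
  induction u with
  | nil => exact hv
  | cons p u ih =>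
    obtain ⟨h1, h2⟩ := List.forall_mem_cons.1 hu
    exact o.mem _ _ _ (inn h1) (ih h2)

theorem ap_add (o : OPS x) {u : List (Λ × Sch)} (hu : CS u) {v w : Completion D} (hv : D1 c v)
    (hw : D1 c w) : x.ap (evw u) (v + w) = x.ap (evw u) v + x.ap (evw u) w := by
  induction u with
  | nil => rfl
  | cons p u ih =>
    obtain ⟨h1, h2⟩ := List.forall_mem_cons.1 hu
    rw [ap_cons, ap_cons, ap_cons, ih h2,
      o.add _ _ _ _ (inn h1) (ap_mem o h2 hv) (ap_mem o h2 hw)]

theorem sub (o : OPS x) (u : List (Λ × Sch)) (a : Λ) (f g : Sch) (w : List (Λ × Sch)) (hu : CS u)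
    (hf : HasCompactSupport f) (hg : HasCompactSupport g) (hw : CS w) :
    ‖x.ap (evw (u ++ (a, f + g) :: w)) c.Om‖ ≤
      ‖x.ap (evw (u ++ (a, f) :: w)) c.Om‖ + ‖x.ap (evw (u ++ (a, g) :: w)) c.Om‖ := by
  have hv := ap_mem o hw o.d_vac
  have e : ev (f + g) = fun y => ev f y + 1 * ev g y := by
    funext y
    simp [ev]
  have h := o.lin a (ev f) (ev g) 1 _ (inn hf) (inn hg) hv
  rw [one_smul, ← e] at h
  simp only [ap_app, ap_cons]
  rw [h, ap_add o hu (o.mem _ _ _ (inn hf) hv) (o.mem _ _ _ (inn hg) hv)]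
  exact norm_add_le _ _

theorem op_sum (o : OPS x) (a : Λ) {f : Fn} (hf : In Set.univ f) {ι : Type} (s : Finset ι)
    (κ : ι → ℂ) {v : ι → Completion D} (hv : ∀ i, D1 c (v i)) : D1 c (∑ i ∈ s, κ i • v i) ∧
      x.op a f (∑ i ∈ s, κ i • v i) = ∑ i ∈ s, κ i • x.op a f (v i) := by
  classical
  induction s using Finset.induction_on with
  | empty => simpa using ⟨o.d_zero, by simpa using o.smul a f 0 0 hf o.d_zero⟩
  | insert i s hi ih =>
    have := o.d_smul (κ i) _ (hv i)
    simp only [Finset.sum_insert hi]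
    exact ⟨o.d_add _ _ this ih.1, by rw [o.add _ _ _ _ hf this ih.1, ih.2, o.smul _ _ _ _ hf (hv i)]⟩

theorem dil (t : E1 x) (dl : Dil x) (ls : List Λ) : ∃ (e : ℕ) (ι : Type) (_ : Fintype ι) (b : ι → List Λ),
    (∀ i, (b i).length = ls.length) ∧ ∀ (s : ℝ) (hs : 1 ≤ s) (P : Sch → Sch),
    (∀ f, ev (P f) = (dl0 c.toCf s hs).pull (ev f)) → ∃ κ : ι → ℂ, (∀ i, ‖κ i‖ ≤ s ^ e) ∧
      ∀ u : List (Λ × Sch), u.map Prod.fst = ls → CS u → x.ap (evw u) c.Om =
        ∑ i, κ i • (dl0 c.toCf s hs).U c.toCf (x.ap (evw (rl P (b i) u)) c.Om) := by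
  induction ls with
  | nil =>
    refine ⟨0, Unit, inferInstance, fun _ => [], fun _ => rfl, fun s hs P _ =>
      ⟨fun _ => 1, fun _ => by simp, fun u hu _ => ?_⟩⟩
    obtain rfl := List.map_eq_nil_iff.1 hu
    rw [Fintype.sum_unique, one_smul]
    exact (t.sg.vac _).1.symm
  | cons a ls ih =>
    obtain ⟨e, ι, _, b, hb, ih⟩ := ih
    obtain ⟨e', n, b', he'⟩ := dl a
    refine ⟨e' + e, ι × Fin n, inferInstance, fun i => b' i.2 :: b i.1, fun i => by simp [hb],
      fun s hs P hP => ?_⟩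
    obtain ⟨κ, hκ, h4⟩ := ih s hs P hP
    obtain ⟨κ', hκ', h5⟩ := he' s hs
    refine ⟨fun i => κ i.1 * κ' i.2, fun i => ?_, fun u hu hc => ?_⟩
    · rw [norm_mul, add_comm, pow_add]
      exact mul_le_mul (hκ _) (hκ' _) (norm_nonneg _) (by positivity)
    obtain ⟨p, w, rfl, hp, hw⟩ := List.map_eq_cons_iff.1 hu
    obtain ⟨a', f⟩ := p
    obtain rfl : a' = a := hp
    obtain ⟨h1, h2⟩ := List.forall_mem_cons.1 hc
    have hv : ∀ i, D1 c (x.ap (evw (rl P (b i) w)) c.Om) := fun i =>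
      ap_mem t.ops (fun q hq => by
        obtain ⟨p, p1, p2⟩ := rl_mem hq
        have := (t.sg.inn (dl0 c.toCf s hs) _ _ (inn (h2 p p1))).2.1
        rwa [← hP, ← p2] at this) t.ops.d_vac
    rw [ap_cons, h4 w hw h2, (op_sum t.ops _ (inn h1) _ _ fun i => t.ops.d_U _ _ (hv i)).2,
      Fintype.sum_prod_type]
    refine Finset.sum_congr rfl fun i _ => ?_
    rw [t.ops.cov a' (dl0 c.toCf s hs) n κ' b' _ _ h5 (inn h1) (hv i), Finset.smul_sum]
    refine Finset.sum_congr rfl fun j _ => ?_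
    rw [smul_smul, ← hP]
    rfl

theorem ball (t : E1 x) (dl : Dil x) (j : JB x) (ls : List Λ) : ∃ (m M : ℕ) (κ : ℝ), 0 ≤ κ ∧
    ∀ (R : ℝ) (u : List (Λ × Sch)), 1 ≤ R → u.map Prod.fst = ls → BS R u →
      ‖x.ap (evw u) c.Om‖ ≤ κ * R ^ M * snw m u := by
  obtain ⟨e, ι, _, b, hb, he⟩ := dil t dl ls
  choose m' C hC j using fun i => j (b i) _ t.ops.d_vac
  let m := Finset.univ.sup m'
  obtain ⟨C', hC', hd⟩ := t.ana.dil m
  have hS : 0 ≤ ∑ i, C i := Finset.sum_nonneg fun i _ => hC i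
  refine ⟨m, e + m * ls.length, (∑ i, C i) * C' ^ ls.length, by positivity,
    fun R u hR hu hB => ?_⟩
  obtain ⟨P, hP⟩ := t.sg.clm (dl0 c.toCf R hR)
  obtain ⟨κ, hκ, h⟩ := he R hR P hP
  have h5 : u.length = ls.length := by rw [← hu, List.length_map]
  have h1 : ∀ i, cutw 0 (evw (rl P (b i) u)) = evw (rl P (b i) u) := fun i => by
    simp only [cutw, evw, List.map_map]
    refine List.map_congr_left fun q hq => Prod.ext rfl (t.ana.eq 0 _ fun y hy => ?_)
    obtain ⟨p, hp, e⟩ := rl_mem hq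
    simp only [Function.comp, e, hP] at hy
    have h2 := (t.sg.inn (dl0 c.toCf R hR) _ _ ⟨⟨p.2, rfl⟩, hB.cs p hp, hB p hp⟩).2.2 hy
    rw [Set.mem_preimage, dl0_act, mem_closedBall_zero_iff, norm_smul,
      Real.norm_of_nonneg (by linarith)] at h2
    rw [mem_closedBall_zero_iff]
    have : ‖y‖ ≤ 1 := le_of_mul_le_mul_left (by linarith) (by linarith : 0 < R)
    simpa using this
  rw [h u hu hB.cs, Finset.sum_mul, Finset.sum_mul, Finset.sum_mul]
  refine (norm_sum_le _ _).trans (Finset.sum_le_sum fun i _ => ?_)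
  have l := (hb i).trans h5.symm
  have h2 := j i _ (rl_fst (P := P) l)
  rw [h1] at h2
  have h4 := (EG.H.JBp.snw_mono (Finset.le_sup (f := m') (Finset.mem_univ i)) _).trans
    (rl_snw (P := P) (by positivity) (fun f => hd R f (P f) hR fun y => congrFun (hP f) y) l)
  have := hC i
  have := snw0 m u
  rw [norm_smul, ContinuousLinearMap.norm_map_of_mem_unitary (t.sg.uni _)]
  calc _ ≤ R ^ e * (C i * ((C' * R ^ m) ^ u.length * snw m u)) :=
        mul_le_mul (hκ i) (h2.trans (by gcongr)) (norm_nonneg _) (by positivity)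
    _ = _ := by rw [h5, mul_pow, ← pow_mul, pow_add]; ring

end Tq

open EG.H.Tmp (sn0 snw_cons snw0 CS BS slots inn rl rl_mem rl_fst rl_snw) in
/-- polynomial growth in the radius of the supports gives tempered bounds -/
theorem tmp_of (t : E1 x) (b : ∀ ls : List Λ, ∃ (m M : ℕ) (κ : ℝ), 0 ≤ κ ∧
    ∀ (R : ℝ) (u : List (Λ × Sch)), 1 ≤ R → u.map Prod.fst = ls → BS R u →
      ‖x.ap (evw u) c.Om‖ ≤ κ * R ^ M * snw m u) : TMP x := by
  intro ls
  obtain ⟨m, M, κ, hκ, h⟩ := b ls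
  obtain ⟨m', C, hC, h'⟩ := slots (Λ := Λ) t.dy m M
  refine ⟨m', C ^ ls.length * κ, by positivity, fun u hu hc => ?_⟩
  exact h' ls (fun u => ‖x.ap (evw u) c.Om‖) κ hκ (Tq.sub t.ops) h u hu fun p hp =>
    (hc (p.1, ev p.2) (List.mem_map.2 ⟨p, hp, rfl⟩)).2.1

theorem tmp_row (t : E1 x) (dl : Dil x) (j : JB x) : TMP x := tmp_of t (Tq.ball t dl j)

namespace Cq

/-- the span of the words with compact support -/
def Cp (x : Lt c Λ) : Submodule ℂ (Completion D) :=
  Submodule.span ℂ {z | ∃ u, CW u ∧ z = x.ap u c.Om}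

theorem ap_cons (a : Λ) (f : Fn) (u : Wd Λ) (v : Completion D) :
    x.ap ((a, f) :: u) v = x.op a f (x.ap u v) := rfl

theorem cw_cons {a : Λ} {f : Fn} {u : Wd Λ} : CW ((a, f) :: u) ↔ In Set.univ f ∧ CW u :=
  List.forall_mem_cons

theorem tw_cons {a : Λ} {f : Fn} {u : Wd Λ} : TW ((a, f) :: u) ↔ IsTest f ∧ TW u :=
  List.forall_mem_cons

theorem tw_of {u : Wd Λ} (h : CW u) : TW u := fun p hp => (h p hp).1

theorem d1_ap (o : OPS x) : ∀ u, CW u → D1 c (x.ap u c.Om)
  | [], _ => o.d_vac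
  | (a, f) :: u, h => o.mem a f _ (cw_cons.1 h).1 (d1_ap o u (cw_cons.1 h).2)

theorem d1 (o : OPS x) {v : Completion D} (hv : v ∈ Cp x) : D1 c v := by
  induction hv using Submodule.span_induction with
  | mem z hz => obtain ⟨u, hu, rfl⟩ := hz; exact d1_ap o u hu
  | zero => exact o.d_zero
  | add y z _ _ hy hz => exact o.d_add y z hy hz
  | smul a y _ hy => exact o.d_smul a y hy

theorem op_zero (o : OPS x) (a : Λ) {f : Fn} (hf : In Set.univ f) : x.op a f 0 = 0 := by
  have := o.smul a f 0 0 hf o.d_zero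
  rwa [zero_smul, zero_smul] at this

theorem op_mem (o : OPS x) (a : Λ) {f : Fn} (hf : In Set.univ f) {v : Completion D}
    (hv : v ∈ Cp x) : x.op a f v ∈ Cp x := by
  induction hv using Submodule.span_induction with
  | mem z hz =>
    obtain ⟨u, hu, rfl⟩ := hz
    exact Submodule.subset_span ⟨(a, f) :: u, cw_cons.2 ⟨hf, hu⟩, rfl⟩
  | zero => rw [op_zero o a hf]; exact zero_mem _
  | add y z hy hz h1 h2 => rw [o.add a f y z hf (d1 o hy) (d1 o hz)]; exact add_mem h1 h2
  | smul s y hy h1 => rw [o.smul a f s y hf (d1 o hy)]; exact Submodule.smul_mem _ _ h1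

theorem inv_U (s : SG c.toCf) (g : Sh c.toCf) (v : Completion D) : g.inv.U c.toCf (g.U c.toCf v) = v := by
  rw [s.U_inv]
  exact congrArg (fun L : Completion D →L[ℂ] Completion D => L v) (s.uni g).1

theorem U_inv (s : SG c.toCf) (g : Sh c.toCf) (v : Completion D) : g.U c.toCf (g.inv.U c.toCf v) = v := by
  rw [s.U_inv]
  exact congrArg (fun L : Completion D →L[ℂ] Completion D => L v) (s.uni g).2

theorem inner_U (s : SG c.toCf) (g : Sh c.toCf) (y v : Completion D) :
    inner ℂ y (g.U c.toCf v) = inner ℂ (g.inv.U c.toCf y) v := by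
  rw [s.U_inv, ContinuousLinearMap.star_eq_adjoint, ContinuousLinearMap.adjoint_inner_left]

theorem U_ap (t : E1 x) (g : Sh c.toCf) : ∀ u, CW u → g.U c.toCf (x.ap u c.Om) ∈ Cp x
  | [], h => by
    have : g.U c.toCf (x.ap [] c.Om) = x.ap [] c.Om := (t.sg.vac g).1
    rw [this]
    exact Submodule.subset_span ⟨[], h, rfl⟩
  | (a, f) :: u, h => by
    have ih := U_ap t g u (cw_cons.1 h).2
    obtain ⟨n, κ, b, hb⟩ := x.cov a g.inv
    have h1 := t.ops.cov a g.inv n κ b f _ hb (cw_cons.1 h).1 (d1 t.ops ih)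
    rw [inv_U t.sg] at h1
    rw [ap_cons, h1, map_sum]
    refine Submodule.sum_mem _ fun i _ => ?_
    rw [map_smul, U_inv t.sg]
    exact Submodule.smul_mem _ _ (op_mem t.ops _ (t.sg.inn g.inv Set.univ f (cw_cons.1 h).1) ih)

theorem U_mem (t : E1 x) (g : Sh c.toCf) {v : Completion D} (hv : v ∈ Cp x) : g.U c.toCf v ∈ Cp x := by
  induction hv using Submodule.span_induction with
  | mem z hz => obtain ⟨u, hu, rfl⟩ := hz; exact U_ap t g u hu
  | zero => rw [map_zero]; exact zero_mem _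
  | add y z _ _ h1 h2 => rw [map_add]; exact add_mem h1 h2
  | smul s y _ h1 => rw [map_smul]; exact Submodule.smul_mem _ _ h1

theorem le_Dn (e : EXT x) : Cp x ≤ x.Dn :=
  Submodule.span_mono fun _ ⟨u, hu, hz⟩ => ⟨u, tw_of hu, hz.trans (e.cw u hu).symm⟩

theorem in_cut (t : E1 x) (R : ℕ) {f : Fn} (hf : IsTest f) : In Set.univ (cutf R f) :=
  ⟨(t.ana.inn R f hf).1, (t.ana.inn R f hf).2.1, Set.subset_univ _⟩

theorem Dn_le (t : E1 x) (e : EXT x) : x.Dn ≤ (Cp x).topologicalClosure := by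
  refine Submodule.span_le.2 ?_
  rintro _ ⟨u, hu, rfl⟩
  refine mem_closure_of_tendsto (e.lim u hu) (Eventually.of_forall fun R => ?_)
  refine Submodule.subset_span ⟨cutw R u, fun p hp => ?_, rfl⟩
  obtain ⟨q, hq, rfl⟩ := List.mem_map.1 hp
  exact in_cut t R (hu q hq)

theorem o_eq (t : E1 x) (e : EXT x) (fs : FS x) (a : Λ) {f : Fn} (hf : In Set.univ f)
    {v : Completion D} (hv : v ∈ Cp x) :
    (x.o a f ⟨v, le_Dn e hv⟩ : Completion D) = x.op a f v := by
  induction hv using Submodule.span_induction with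
  | mem z hz =>
    obtain ⟨u, hu, rfl⟩ := hz
    rw [fs.oW a f u _ hf.1 (tw_of hu) (e.cw u hu).symm, e.cw _ (cw_cons.2 ⟨hf, hu⟩), ap_cons]
  | zero =>
    have := fs.smul a f 0 0
    rw [zero_smul, zero_smul] at this
    rw [op_zero t.ops a hf]
    exact congrArg Subtype.val this
  | add y z hy hz h1 h2 =>
    rw [t.ops.add a f y z hf (d1 t.ops hy) (d1 t.ops hz), ← h1, ← h2]
    exact congrArg Subtype.val (fs.add a f ⟨y, le_Dn e hy⟩ ⟨z, le_Dn e hz⟩)
  | smul s y hy h1 =>
    rw [t.ops.smul a f s y hf (d1 t.ops hy), ← h1]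
    exact congrArg Subtype.val (fs.smul a f s ⟨y, le_Dn e hy⟩)

theorem adj (fs : FS x) (a : Λ) {f : Fn} (hf : IsTest f) (y v : x.Dn) :
    inner ℂ (x.o a f v : Completion D) (y : Completion D) =
      inner ℂ (v : Completion D) (x.o (x.dag a) (bar f) y : Completion D) :=
  fs.herm a f v y hf

/-- covariance on the words with compact support -/
theorem cov0 (t : E1 x) (e : EXT x) (fs : FS x) (a : Λ) (g : Sh c.toCf) {n : ℕ} (κ : Fin n → ℂ)
    (b : Fin n → Λ) (hc : x.Cv a g κ b) {f : Fn} (hf : IsTest f) {v : Completion D}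
    (hv : v ∈ Cp x) : (x.o a f ⟨g.U c.toCf v, le_Dn e (U_mem t g hv)⟩ : Completion D) =
      ∑ i, κ i • g.U c.toCf (x.o (b i) (g.pull f) ⟨v, le_Dn e hv⟩) := by
  obtain ⟨F, rfl⟩ := hf
  obtain ⟨P, hP⟩ := t.sg.clm g
  have c1 : Continuous fun F : Sch =>
      (x.o a (ev F) ⟨g.U c.toCf v, le_Dn e (U_mem t g hv)⟩ : Completion D) :=
    continuous_subtype_val.comp (fs.cont a _)
  have c2 : Continuous fun F : Sch =>
      ∑ i, κ i • g.U c.toCf (x.o (b i) (g.pull (ev F)) ⟨v, le_Dn e hv⟩) := by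
    refine continuous_finset_sum _ fun i _ => ?_
    simp only [← hP]
    exact ((g.U c.toCf).continuous.comp (continuous_subtype_val.comp
      ((fs.cont (b i) _).comp P.continuous))).const_smul (κ i)
  refine tendsto_nhds_unique ((c1.tendsto F).comp (t.ana.lim F))
    (((c2.tendsto F).comp (t.ana.lim F)).congr fun R => ?_)
  have h1 := in_cut t R (f := ev F) ⟨F, rfl⟩
  simp only [Function.comp_apply]
  rw [Ap.ev_sch h1.1, o_eq t e fs a h1 (U_mem t g hv), t.ops.cov a g n κ b _ v hc h1 (d1 t.ops hv)]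
  exact Finset.sum_congr rfl fun i _ => by
    rw [o_eq t e fs (b i) (t.sg.inn g Set.univ _ h1) hv]

theorem eq_zero {z : Completion D} (hz : z ∈ (Cp x).topologicalClosure)
    (h : ∀ y ∈ Cp x, inner ℂ z y = 0) : z = 0 := by
  have h1 : IsClosed {y : Completion D | inner ℂ z y = 0} :=
    isClosed_eq (by fun_prop) continuous_const
  exact inner_self_eq_zero.1 (closure_minimal (fun y hy => h y hy) h1 hz)

theorem cov (t : E1 x) (e : EXT x) (fs : FS x) (a : Λ) (g : Sh c.toCf) {n : ℕ} (κ : Fin n → ℂ)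
    (b : Fin n → Λ) {f : Fn} (v w : x.Dn) (hc : x.Cv a g κ b) (hf : IsTest f)
    (hw : (w : Completion D) = g.U c.toCf v) :
    (x.o a f w : Completion D) = ∑ i, κ i • g.U c.toCf (x.o (b i) (g.pull f) v) := by
  have hU : ∀ z ∈ (Cp x).topologicalClosure, g.U c.toCf z ∈ (Cp x).topologicalClosure := fun z hz =>
    map_mem_closure (g.U c.toCf).continuous hz fun y hy => U_mem t g hy
  refine sub_eq_zero.1 (eq_zero (x := x) (sub_mem (Dn_le t e (x.o a f w).2)
    (Submodule.sum_mem _ fun i _ => Submodule.smul_mem _ _ (hU _ (Dn_le t e (x.o _ _ v).2))))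
    fun y hy => ?_)
  have hy' := U_mem t g.inv hy
  have key : ∀ (v w : x.Dn), (w : Completion D) = g.U c.toCf v →
      inner ℂ ((x.o a f w : Completion D) - ∑ i, κ i • g.U c.toCf (x.o (b i) (g.pull f) v)) y =
      inner ℂ (g.U c.toCf v) (x.o (x.dag a) (bar f) ⟨y, le_Dn e hy⟩ : Completion D) -
        ∑ i, conj (κ i) * inner ℂ (v : Completion D)
          (x.o (x.dag (b i)) (bar (g.pull f)) ⟨g.inv.U c.toCf y, le_Dn e hy'⟩ : Completion D) := by
    intro v w hw
    rw [inner_sub_left, adj fs a hf ⟨y, le_Dn e hy⟩ w, hw, sum_inner]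
    congr 1
    refine Finset.sum_congr rfl fun i _ => ?_
    rw [inner_smul_left, ← adj fs (b i) (t.sg.test g f hf), ← inner_conj_symm, inner_U t.sg,
      inner_conj_symm]
  rw [key v w hw]
  have h1 : IsClosed {v : Completion D |
      inner ℂ (g.U c.toCf v) (x.o (x.dag a) (bar f) ⟨y, le_Dn e hy⟩ : Completion D) -
        ∑ i, conj (κ i) * inner ℂ v
          (x.o (x.dag (b i)) (bar (g.pull f)) ⟨g.inv.U c.toCf y, le_Dn e hy'⟩ : Completion D) = 0} :=
    isClosed_eq (by fun_prop) continuous_const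
  refine closure_minimal (fun z hz => ?_) h1 (Dn_le t e v.2)
  have := key ⟨z, le_Dn e hz⟩ ⟨g.U c.toCf z, le_Dn e (U_mem t g hz)⟩ rfl
  rw [cov0 t e fs a g κ b hc hf hz, sub_self, inner_zero_left] at this
  exact this.symm

theorem U_W (t : E1 x) (e : EXT x) (w : WP x) (fs : FS x) (g : Sh c.toCf) :
    ∀ u, TW u → g.U c.toCf (x.W u) ∈ x.Dn
  | [], _ => by rw [w.nil, (t.sg.vac g).1]; exact fs.vac
  | (a, f) :: u, h => by
    have ih := U_W t e w fs g u (tw_cons.1 h).2
    have hm : x.W u ∈ x.Dn := Submodule.subset_span ⟨u, (tw_cons.1 h).2, rfl⟩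
    obtain ⟨n, κ, b, hb⟩ := x.cov a g.inv
    have h1 := cov t e fs a g.inv κ b ⟨_, ih⟩ ⟨_, hm⟩ hb (tw_cons.1 h).1
      (inv_U t.sg g _).symm
    rw [← fs.oW a f u ⟨_, hm⟩ (tw_cons.1 h).1 (tw_cons.1 h).2 rfl, h1, map_sum]
    refine Submodule.sum_mem _ fun i _ => ?_
    rw [map_smul, U_inv t.sg]
    exact Submodule.smul_mem _ _ (x.o _ _ _).2

end Cq

open Cq in
theorem cv_row (t : E1 x) (e : EXT x) (w : WP x) (fs : FS x) : CV x where
  mem g v hv := by
    induction hv using Submodule.span_induction with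
    | mem z hz => obtain ⟨u, hu, rfl⟩ := hz; exact U_W t e w fs g u hu
    | zero => rw [map_zero]; exact zero_mem _
    | add y z _ _ h1 h2 => rw [map_add]; exact add_mem h1 h2
    | smul s y _ h1 => rw [map_smul]; exact Submodule.smul_mem _ _ h1
  cov a g n κ b f v w hc hf hw := cov t e fs a g κ b v w hc hf hw
  zero n κ b f v hf h0 := by
    set y : x.Dn := ∑ i, κ i • x.o (b i) (f i) v with hy
    have key : ∀ v : x.Dn, inner ℂ ((∑ i, κ i • x.o (b i) (f i) v : x.Dn) : Completion D)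
        (y : Completion D) = ∑ i, conj (κ i) * inner ℂ (v : Completion D)
          (x.o (x.dag (b i)) (bar (f i)) y : Completion D) := by
      intro v
      rw [Submodule.coe_sum, sum_inner]
      refine Finset.sum_congr rfl fun i _ => ?_
      rw [Submodule.coe_smul, inner_smul_left, adj fs (b i) (hf i).1]
    have h1 : IsClosed {v : Completion D | ∑ i, conj (κ i) * inner ℂ v
        (x.o (x.dag (b i)) (bar (f i)) y : Completion D) = 0} :=
      isClosed_eq (by fun_prop) continuous_const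
    have h2 : ∑ i, conj (κ i) * inner ℂ (v : Completion D)
        (x.o (x.dag (b i)) (bar (f i)) y : Completion D) = 0 := by
      refine closure_minimal (fun z hz => ?_) h1 (Dn_le t e v.2)
      have h3 := key ⟨z, le_Dn e hz⟩
      have h4 : ((∑ i, κ i • x.o (b i) (f i) ⟨z, le_Dn e hz⟩ : x.Dn) : Completion D) = 0 := by
        rw [Submodule.coe_sum, ← t.ops.zero n κ b f z hf h0 (d1 t.ops hz)]
        exact Finset.sum_congr rfl fun i _ => by
          rw [Submodule.coe_smul, o_eq t e fs (b i) (hf i) hz]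
      rw [h4, inner_zero_left] at h3
      exact h3.symm
    rw [← key v, ← hy] at h2
    exact Subtype.ext (inner_self_eq_zero.1 h2)
namespace Xq

open Cq

theorem sn_cont (m : ℕ) : Continuous fun f : Sch => sn m f := by
  simp only [Api4.sn_eq]
  exact ST.continuous_sn m

theorem sn_nn (m : ℕ) (f : Sch) : 0 ≤ sn m f := apply_nonneg _ _

theorem sn_zero (m : ℕ) : sn m (0 : Sch) = 0 := map_zero _

theorem snw_nil (m : ℕ) : snw m ([] : List (Λ × Sch)) = 1 := rfl

theorem snw_cons (m : ℕ) (q : Λ × Sch) (u : List (Λ × Sch)) :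
    snw m (q :: u) = sn m q.2 * snw m u := by simp [snw]

theorem snw_append (m : ℕ) (p u : List (Λ × Sch)) : snw m (p ++ u) = snw m p * snw m u := by
  simp [snw]

theorem snw_nn (m : ℕ) : ∀ u : List (Λ × Sch), 0 ≤ snw m u
  | [] => zero_le_one
  | q :: u => by rw [snw_cons]; exact mul_nonneg (sn_nn m _) (snw_nn m u)

/-- the cutoff in Schwartz space -/
def ct (R : ℕ) (f : Sch) : Sch := sch (cutf R (ev f))

/-- the cutoff of a word -/
def cw (R : ℕ) (u : List (Λ × Sch)) : List (Λ × Sch) := u.map fun q => (q.1, ct R q.2)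

/-- the distance of two cutoffs of a word -/
def dl (m R R' : ℕ) : List (Λ × Sch) → ℝ
  | [] => 0
  | q :: u => sn m (ct R q.2 - ct R' q.2) * snw m (cw R u) + sn m (ct R' q.2) * dl m R R' u

theorem ev_ct (t : E1 x) (R : ℕ) (f : Sch) : ev (ct R f) = cutf R (ev f) :=
  Ap.ev_sch (in_cut t R ⟨f, rfl⟩).1

theorem evw_cw (t : E1 x) (R : ℕ) (u : List (Λ × Sch)) : evw (cw R u) = cutw R (evw u) := by
  simp only [evw, cw, cutw, List.map_map]
  exact List.map_congr_left fun q _ => by simp [ev_ct t]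

theorem cw_cw (t : E1 x) (R : ℕ) (u : List (Λ × Sch)) : CW (evw (cw R u)) := by
  intro p hp
  obtain ⟨q, hq, rfl⟩ := List.mem_map.1 hp
  obtain ⟨r, -, rfl⟩ := List.mem_map.1 hq
  simp only [ev_ct t]
  exact in_cut t R ⟨r.2, rfl⟩

theorem cw_fst (R : ℕ) (u : List (Λ × Sch)) : (cw R u).map Prod.fst = u.map Prod.fst := by
  simp [cw, List.map_map, Function.comp_def]

theorem snw_lim (t : E1 x) (m : ℕ) :
    ∀ u : List (Λ × Sch), Tendsto (fun R => snw m (cw R u)) atTop (𝓝 (snw m u))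
  | [] => tendsto_const_nhds
  | q :: u => by
    have h := (((sn_cont m).tendsto q.2).comp (t.ana.lim q.2)).mul (snw_lim t m u)
    rw [snw_cons]
    exact h.congr fun R => (snw_cons m (q.1, ct R q.2) (cw R u)).symm

theorem dl_lim (t : E1 x) (m : ℕ) : ∀ u : List (Λ × Sch),
    Tendsto (fun R : ℕ × ℕ => dl m R.1 R.2 u) (atTop ×ˢ atTop) (𝓝 0)
  | [] => tendsto_const_nhds
  | q :: u => by
    have h1 : Tendsto (fun R : ℕ × ℕ => ct R.1 q.2) (atTop ×ˢ atTop) (𝓝 q.2) :=
      (t.ana.lim q.2).comp tendsto_fst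
    have h2 : Tendsto (fun R : ℕ × ℕ => ct R.2 q.2) (atTop ×ˢ atTop) (𝓝 q.2) :=
      (t.ana.lim q.2).comp tendsto_snd
    have h3 := ((sn_cont m).tendsto _).comp (h1.sub h2)
    have h := (h3.mul ((snw_lim t m u).comp tendsto_fst)).add
      ((((sn_cont m).tendsto _).comp h2).mul (dl_lim t m u))
    rw [sub_self, sn_zero, zero_mul, mul_zero, add_zero] at h
    exact h

theorem d1_ap' (o : OPS x) {v : Completion D} (hv : D1 c v) : ∀ u, CW u → D1 c (x.ap u v)
  | [], _ => hv
  | (a, f) :: u, h => o.mem a f _ (cw_cons.1 h).1 (d1_ap' o hv u (cw_cons.1 h).2)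

theorem ap_lin (o : OPS x) (z : ℂ) {v w : Completion D} (hv : D1 c v) (hw : D1 c w) :
    ∀ u, CW u → x.ap u (v + z • w) = x.ap u v + z • x.ap u w
  | [], _ => rfl
  | (a, f) :: u, h => by
    obtain ⟨h1, h2⟩ := cw_cons.1 h
    rw [ap_cons, ap_cons, ap_cons, ap_lin o z hv hw u h2,
      o.add a f _ _ h1 (d1_ap' o hv u h2) (o.d_smul z _ (d1_ap' o hw u h2)),
      o.smul a f z _ h1 (d1_ap' o hw u h2)]

theorem ap_append (p u : Wd Λ) (v : Completion D) : x.ap (p ++ u) v = x.ap p (x.ap u v) :=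
  List.foldr_append

theorem evw_append (p u : List (Λ × Sch)) : evw (p ++ u) = evw p ++ evw u := List.map_append

theorem cw_append {p u : Wd Λ} (hp : CW p) (hu : CW u) : CW (p ++ u) := fun q hq =>
  (List.mem_append.1 hq).elim (hp q) (hu q)

theorem in_sub {f g : Sch} (hf : In Set.univ (ev f)) (hg : In Set.univ (ev g)) :
    In Set.univ (ev (f - g)) :=
  ⟨⟨_, rfl⟩, HasCompactSupport.sub hf.2.1 hg.2.1, Set.subset_univ _⟩

theorem tele (t : E1 x) {ls : List Λ} {m : ℕ} {C : ℝ}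
    (hC : ∀ u : List (Λ × Sch), u.map Prod.fst = ls → CW (evw u) →
      ‖x.ap (evw u) c.Om‖ ≤ C * snw m u) (R R' : ℕ) :
    ∀ u p : List (Λ × Sch), (p ++ u).map Prod.fst = ls → CW (evw p) →
      ‖x.ap (evw (p ++ cw R u)) c.Om - x.ap (evw (p ++ cw R' u)) c.Om‖ ≤
        C * (snw m p * dl m R R' u)
  | [], p, _, _ => by simp [cw, dl]
  | q :: u, p, h, hp => by
    have i1 : In Set.univ (ev (ct R q.2)) := by rw [ev_ct t]; exact in_cut t R ⟨_, rfl⟩
    have i2 : In Set.univ (ev (ct R' q.2)) := by rw [ev_ct t]; exact in_cut t R' ⟨_, rfl⟩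
    have i3 := in_sub i1 i2
    have hu := cw_cw t R u
    have hv := d1_ap t.ops _ hu
    have ih := tele t hC R R' u (p ++ [(q.1, ct R' q.2)]) (by simpa using h)
      (by rw [evw_append]; exact cw_append hp (cw_cons.2 ⟨i2, fun _ h => by simp [evw] at h⟩))
    have h1 := hC (p ++ (q.1, ct R q.2 - ct R' q.2) :: cw R u)
      (by rw [← h]; simp [cw_fst]) (by rw [evw_append]; exact cw_append hp (cw_cons.2 ⟨i3, hu⟩))
    have e1 : x.op q.1 (ev (ct R q.2 - ct R' q.2)) (x.ap (evw (cw R u)) c.Om) =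
        x.op q.1 (ev (ct R q.2)) (x.ap (evw (cw R u)) c.Om) +
          (-1 : ℂ) • x.op q.1 (ev (ct R' q.2)) (x.ap (evw (cw R u)) c.Om) := by
      rw [← t.ops.lin q.1 _ _ (-1) _ i1 i2 hv]
      congr 1
      funext y
      simp [ev, sub_eq_add_neg]
    have e2 : x.ap (evw (p ++ (q.1, ct R q.2 - ct R' q.2) :: cw R u)) c.Om =
        x.ap (evw (p ++ cw R (q :: u))) c.Om -
          x.ap (evw (p ++ [(q.1, ct R' q.2)] ++ cw R u)) c.Om := by
      rw [List.append_assoc, evw_append, evw_append, evw_append, ap_append, ap_append, ap_append,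
        sub_eq_add_neg (x.ap _ _), ← neg_one_smul ℂ (x.ap _ _)]
      exact (congrArg (x.ap (evw p)) e1).trans (ap_lin t.ops (-1) (t.ops.mem _ _ _ i1 hv)
        (t.ops.mem _ _ _ i2 hv) _ hp)
    have e3 : p ++ [(q.1, ct R' q.2)] ++ cw R' u = p ++ cw R' (q :: u) := by simp [cw]
    rw [e2] at h1
    rw [e3] at ih
    refine (norm_sub_le_norm_sub_add_norm_sub _ _ _).trans ((add_le_add h1 ih).trans (le_of_eq ?_))
    simp only [snw_append, snw_cons, snw_nil, dl]
    ring

theorem lim0 (t : E1 x) (b : TMP x) (u : List (Λ × Sch)) :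
    Tendsto (fun R => x.ap (cutw R (evw u)) c.Om) atTop (𝓝 (x.W (evw u))) := by
  obtain ⟨m, C, -, hC⟩ := b (u.map Prod.fst)
  refine CauchySeq.tendsto_limUnder ?_
  rw [cauchySeq_iff_tendsto_dist_atTop_0, ← prod_atTop_atTop_eq]
  have h := (dl_lim t m u).const_mul C
  rw [mul_zero] at h
  refine squeeze_zero (fun _ => dist_nonneg) (fun R => ?_) h
  have := tele t hC R.1 R.2 u [] rfl fun _ h => by simp [evw] at h
  simp only [List.nil_append, snw_nil, one_mul, evw_cw t] at this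
  rwa [dist_eq_norm]

theorem ex_evw {u : Wd Λ} (h : TW u) : ∃ U, evw U = u := by
  refine ⟨u.map fun q => (q.1, sch q.2), ?_⟩
  simp only [evw, List.map_map]
  conv_rhs => rw [← List.map_id u]
  exact List.map_congr_left fun q hq => by simp [Ap.ev_sch (h q hq)]

theorem cut_ev (t : E1 x) : ∀ u : Wd Λ, CW u → ∀ᶠ R in atTop, cutw R u = u
  | [], _ => Eventually.of_forall fun _ => rfl
  | (a, f) :: u, h => by
    obtain ⟨h1, h2⟩ := cw_cons.1 h
    obtain ⟨r, hr⟩ := h1.2.1.isCompact.isBounded.subset_closedBall 0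
    filter_upwards [cut_ev t u h2, eventually_ge_atTop ⌈r⌉₊] with R hR hR'
    have : cutf R f = f := t.ana.eq R f (hr.trans (Metric.closedBall_subset_closedBall (by
      have := Nat.ceil_le.1 hR'
      linarith)))
    change (a, cutf R f) :: cutw R u = _
    rw [this, hR]

end Xq

open Xq in
theorem ext_row (t : E1 x) (b : TMP x) : EXT x := by
  have lim : ∀ u, TW u → Tendsto (fun R => x.ap (cutw R u) c.Om) atTop (𝓝 (x.W u)) := by
    intro u hu
    obtain ⟨U, rfl⟩ := ex_evw hu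
    exact lim0 t b U
  refine ⟨lim, fun u hu => ?_, fun ls => ?_⟩
  · refine tendsto_nhds_unique (lim u (Cq.tw_of hu)) (tendsto_const_nhds.congr' ?_)
    exact (cut_ev t u hu).mono fun R hR => by simp only [hR]
  · obtain ⟨m, C, h0, hC⟩ := b ls
    refine ⟨m, C, h0, fun u hu => ?_⟩
    refine le_of_tendsto_of_tendsto' (lim0 t b u).norm ((snw_lim t m u).const_mul C) fun R => ?_
    rw [← evw_cw t]
    exact hC _ ((cw_fst R u).trans hu) (cw_cw t R u)
section

variable {a : Λ} {f g : Fn} {u : Wd Λ}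

namespace Fq

lemma tw_nil : TW ([] : Wd Λ) := fun _ h => nomatch h

lemma tw_cons (hf : IsTest f) (hu : TW u) : TW ((a, f) :: u) := List.forall_mem_cons.2 ⟨hf, hu⟩

lemma in_cut (h : ANA) (R : ℕ) (hf : IsTest f) : In Set.univ (cutf R f) := Ap.in_univ' (h.inn R f hf)

lemma cw_cut (h : ANA) (R : ℕ) (hu : TW u) : CW (cutw R u) :=
  List.forall_mem_map.2 fun p hp => in_cut h R (hu p hp)

lemma d_ap (o : OPS x) {v : Completion D} (hv : D1 c v) : ∀ {u : Wd Λ}, CW u → D1 c (x.ap u v)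
  | [], _ => hv
  | _ :: _, h => o.mem _ _ _ (List.forall_mem_cons.1 h).1 (d_ap o hv (List.forall_mem_cons.1 h).2)

lemma d_cut (t : E1 x) (R : ℕ) (hu : TW u) : D1 c (x.ap (cutw R u) c.Om) :=
  d_ap t.ops t.ops.d_vac (cw_cut t.ana R hu)

lemma bar_cut (R : ℕ) (f : Fn) : bar (cutf R f) = cutf R (bar f) := Ap.bar_rmul _ f

lemma ex_evw : ∀ {u : Wd Λ}, TW u → ∃ w, evw w = u
  | [], _ => ⟨[], rfl⟩
  | p :: _, h => by
    obtain ⟨g, hg⟩ := (List.forall_mem_cons.1 h).1
    obtain ⟨w, rfl⟩ := ex_evw (List.forall_mem_cons.1 h).2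
    exact ⟨(p.1, g) :: w, by simp [evw, hg]⟩

lemma lim1 (e : EXT x) (a : Λ) (hf : IsTest f) (hu : TW u) : Tendsto
    (fun R => x.op a (cutf R f) (x.ap (cutw R u) c.Om)) atTop (𝓝 (x.W ((a, f) :: u))) :=
  e.lim _ (tw_cons hf hu)

lemma test_lin (z : ℂ) (hf : IsTest f) (hg : IsTest g) : IsTest fun y => f y + z * g y := by
  obtain ⟨f, rfl⟩ := hf
  obtain ⟨g, rfl⟩ := hg
  exact ⟨f + z • g, rfl⟩

end Fq

open Fq

theorem wp_row (t : E1 x) (e : EXT x) : WP x := by
  have o := t.ops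
  have lin : ∀ a (f g : Fn) (z : ℂ) u, IsTest f → IsTest g → TW u →
      x.W ((a, fun y => f y + z * g y) :: u) = x.W ((a, f) :: u) + z • x.W ((a, g) :: u) :=
    fun a f g z u hf hg hu => tendsto_nhds_unique (lim1 e a (test_lin z hf hg) hu)
      (((lim1 e a hf hu).add ((lim1 e a hg hu).const_smul z)).congr fun R => by
        rw [← o.lin _ _ _ _ _ (in_cut t.ana R hf) (in_cut t.ana R hg) (d_cut t R hu)]
        congr 1
        funext y
        simp only [cutf]
        ring)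
  refine ⟨e.cw [] (fun _ h => nomatch h), lin, fun a u hu => ?_, fun a f u w hf hu hw => ?_,
    fun a b f g u hf hg s hu => ?_, fun a B B' f u w i hf hu hw => ?_⟩
  · obtain ⟨w, rfl⟩ := ex_evw hu
    obtain ⟨m, C, -, h⟩ := e.bd (a :: w.map Prod.fst)
    refine continuous_iff_continuousAt.2 fun g0 => tendsto_iff_norm_sub_tendsto_zero.2
      (squeeze_zero (fun _ => norm_nonneg _) (g := fun g => C * (ST.sn V ℂ m (g - g0) * snw m w))
        (fun g => ?_) ?_)
    · have := lin a (ev g0) (ev (g - g0)) 1 _ ⟨_, rfl⟩ ⟨_, rfl⟩ hu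
      rw [show (fun y => ev g0 y + 1 * ev (g - g0) y) = ev g from funext fun y => by simp [ev],
        one_smul] at this
      rw [this, add_sub_cancel_left, ← Api4.sn_eq]
      exact h ((a, g - g0) :: w) rfl
    · exact Continuous.tendsto' (continuous_const.mul (((ST.continuous_sn m).comp
        (continuous_id.sub continuous_const)).mul continuous_const)) _ _ (by simp)
  · exact tendsto_nhds_unique ((lim1 e a hf hu).inner (e.lim w hw))
      (((e.lim u hu).inner (lim1 e _ (Ap.test_bar hf) hw)).congr fun R => by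
        rw [o.herm _ _ _ _ (in_cut t.ana R hf) (d_cut t R hu) (d_cut t R hw), bar_cut])
  · exact tendsto_nhds_unique (lim1 e a hf (tw_cons hg hu))
      (((lim1 e b hg (tw_cons hf hu)).const_smul _).congr fun R => (o.loc a b _ _ _ (in_cut t.ana R hf)
        (in_cut t.ana R hg) (fun p hp q hq => s p ((t.ana.inn R f hf).2.2 hp).1 q
          ((t.ana.inn R g hg).2.2 hq).1) (d_cut t R hu)).symm)
  · obtain ⟨G, hG⟩ := Ap.test_bar hf
    have l := ((Completion.continuous_coe D).tendsto _).comp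
      (((c.Q.cont B' w i.2.1).tendsto G).comp (t.ana.lim G))
    rw [hG] at l
    refine tendsto_nhds_unique ((lim1 e a hf hu).inner tendsto_const_nhds)
      (((e.lim u hu).inner l).congr fun R => ?_)
    rw [o.aff _ _ _ _ _ _ i (in_cut t.ana R hf) (d_cut t R hu) hw, bar_cut]
    exact congrArg (fun F => inner ℂ _ ((B' F w : D) : Completion D))
      (Api4.coe_sch (Ap.in_dc (in_cut t.ana R (Ap.test_bar hf))))

namespace Fq

lemma W_mem (hu : TW u) : x.W u ∈ x.Dn := Submodule.subset_span ⟨u, hu, rfl⟩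

lemma ind {P : x.Dn → Prop} (h0 : P 0) (h1 : ∀ v w, P v → P w → P (v + w))
    (h2 : ∀ (z : ℂ) v, P v → P (z • v)) (h3 : ∀ u (hu : TW u), P ⟨x.W u, W_mem hu⟩) (v : x.Dn) :
    P v :=
  Submodule.span_induction (p := fun v hv => P ⟨v, hv⟩) (by rintro _ ⟨u, hu, rfl⟩; exact h3 u hu)
    h0 (fun _ _ _ _ => h1 _ _) (fun z _ _ => h2 z _) v.2

lemma ext {v w : x.Dn} (h : ∀ u, TW u → inner ℂ (v : Completion D) (x.W u) =
    inner ℂ (w : Completion D) (x.W u)) : v = w :=
  ext_inner_right ℂ (ind (by simp) (fun _ _ p q => by rw [inner_add_right, inner_add_right, p, q])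
    (fun z y p => (inner_smul_right v y z).trans (p ▸ (inner_smul_right w y z).symm)) h)

lemma spec (w : WP x) (a : Λ) (hf : IsTest f) (v : x.Dn) : ∀ u, TW u →
    inner ℂ (x.o a f v : Completion D) (x.W u) =
      inner ℂ (v : Completion D) (x.W ((x.dag a, bar f) :: u)) := by
  have h : IsTest f ∧ ∃ z : x.Dn, ∀ u, TW u → inner ℂ (z : Completion D) (x.W u) =
      inner ℂ (v : Completion D) (x.W ((x.dag a, bar f) :: u)) := by
    refine ⟨hf, ind (P := fun v => ∃ z : x.Dn, ∀ u, TW u → inner ℂ (z : Completion D) (x.W u) =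
      inner ℂ (v : Completion D) (x.W ((x.dag a, bar f) :: u))) ⟨0, by simp⟩ ?_ ?_
        (fun u hu => ⟨⟨_, W_mem (tw_cons hf hu)⟩, fun u' => w.herm a f u u' hf hu⟩) v⟩
    · rintro v v' ⟨z, p⟩ ⟨z', q⟩
      exact ⟨z + z', fun u hu => by simp only [Submodule.coe_add, inner_add_left, p u hu, q u hu]⟩
    · rintro s v ⟨z, p⟩
      exact ⟨s • z, fun u hu => by simp only [Submodule.coe_smul, inner_smul_left, p u hu]⟩
  rw [Lt.o, dif_pos h]
  exact h.2.choose_spec

lemma o_not (hf : ¬ IsTest f) (v : x.Dn) : x.o a f v = 0 := dif_neg fun h => hf h.1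

lemma oW (w : WP x) (a : Λ) (hf : IsTest f) (hu : TW u) :
    x.o a f ⟨_, W_mem hu⟩ = ⟨_, W_mem (tw_cons (a := a) hf hu)⟩ :=
  ext fun u' h => (spec w a hf _ u' h).trans (w.herm a f u u' hf hu h).symm

end Fq

theorem fs_row (w : WP x) : FS x := by
  have add : ∀ a f v v', x.o a f (v + v') = x.o a f v + x.o a f v' := fun a f v v' => by
    by_cases hf : IsTest f
    · exact ext fun u hu => by simp only [Submodule.coe_add, inner_add_left, spec w a hf _ u hu]
    · simp [o_not hf]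
  have smul : ∀ a f (z : ℂ) v, x.o a f (z • v) = z • x.o a f v := fun a f z v => by
    by_cases hf : IsTest f
    · exact ext fun u hu => by simp only [Submodule.coe_smul, inner_smul_left, spec w a hf _ u hu]
    · simp [o_not hf]
  have zero : ∀ a f, x.o a f 0 = 0 := fun a f => by simpa using smul a f 0 0
  refine ⟨w.nil ▸ W_mem tw_nil, fun a f u v hf hu e => ?_, add, smul,
    fun a f g z v hf hg => ext fun u hu => ?_, fun a => Fq.ind ?_ ?_ ?_ fun u hu => ?_,
    fun a f v v' hf => ?_, fun a b f g v hf hg s => ?_, fun a B B' f v y i hf hy => ?_⟩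
  · rw [show v = ⟨_, W_mem hu⟩ from Subtype.ext e, oW w a hf hu]
  · rw [spec w a (test_lin z hf hg) _ u hu, show bar (fun y => f y + z * g y) =
      fun y => bar f y + conj z * bar g y from funext fun y => by simp [bar],
      w.lin _ _ _ _ _ (Ap.test_bar hf) (Ap.test_bar hg) hu]
    simp only [Submodule.coe_add, Submodule.coe_smul, inner_add_left, inner_add_right,
      inner_smul_left, inner_smul_right, spec w a hf _ u hu, spec w a hg _ u hu]
  · simpa only [zero] using continuous_const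
  · exact fun v v' p q => by simpa only [add] using p.fun_add q
  · exact fun z v p => by simpa only [smul] using p.fun_const_smul z
  · simpa only [oW w a ⟨_, rfl⟩ hu] using (w.cont a u hu).subtype_mk _
  · induction v' using Fq.ind with
    | h0 => simp [zero]
    | h1 _ _ p q => rw [add, inner_add_right, inner_add_right, p, q]
    | h2 z y p =>
      rw [smul]
      exact (inner_smul_right _ y z).trans (p ▸ (inner_smul_right v _ z).symm)
    | h3 u hu =>
      rw [oW w _ (Ap.test_bar hf) hu]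
      exact spec w a hf v u hu
  · induction v using Fq.ind with
    | h0 => simp [zero]
    | h1 _ _ p q => simp only [add, p, q, smul_add]
    | h2 z _ p => simp only [smul, p, smul_comm z]
    | h3 u hu =>
      rw [oW w _ hf hu, oW w _ hg hu, oW w _ hf (tw_cons hg hu), oW w _ hg (tw_cons hf hu)]
      exact Subtype.ext (w.loc a b f g u hf hg s hu)
  · induction v using Fq.ind with
    | h0 => simp [zero]
    | h1 _ _ p q => simp only [add, Submodule.coe_add, inner_add_left, p, q]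
    | h2 _ _ p => simp only [smul, Submodule.coe_smul, inner_smul_left, p]
    | h3 u hu =>
      rw [oW w _ hf hu]
      exact w.aff a B B' f u y i hf hu hy
end

namespace Rq

theorem ud (v : CV x) {s : ℝ} {L : Ix → V} (hs : 0 < s) (hL : IsLor L) (a : V) (w : x.Dn) :
    (x.Ud s L a w : Completion D) = Ug c.Q s L a w := by
  have h : Ug c.Q s L a w ∈ x.Dn := v.mem ⟨⟨s, L, a, hs, hL⟩, false⟩ w w.2
  rw [Lt.Ud, dif_pos h]

theorem o_sum (f : FS x) (a : Λ) (g : Fn) {n : ℕ} (w : Fin n → x.Dn) :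
    x.o a g (∑ i, w i) = ∑ i, x.o a g (w i) :=
  map_sum (AddMonoidHom.mk' (x.o a g) (f.add a g)) w _

theorem fs_one {P : Λ → Prop} {a : Λ} (h : P a) : x.Fs P (x.o a) :=
  ⟨1, fun _ => a, fun _ => h, by simp⟩

theorem tra (v : CV x) (a : Λ) (y : V) {f : Fn} (hf : IsTest f) (w : x.Dn) :
    (x.o a f (x.Ud 1 GF.one y w) : Completion D) =
      Ug c.Q 1 GF.one y (x.o a (fun z => f (sim 1 GF.one y z)) w) := by
  have := v.cov a ⟨⟨1, GF.one, y, one_pos, H496.isLor_one⟩, false⟩ 1 (fun _ => 1) (fun _ => a) f w _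
    (fun g hg => by
      rw [Fin.sum_univ_one, map_one, one_smul]
      exact x.tra (x.dag a) y g hg) hf (ud v one_pos H496.isLor_one y w)
  rwa [Fin.sum_univ_one, one_smul] at this

theorem gd (s : SG c.toCf) (v : CV x) (w : x.Dn) : (x.Gd w : Completion D) = c.Γ w := by
  have h := v.mem (Sh.gm c.toCf true) w w.2
  rw [(s.gm true).1] at h
  rw [Lt.Gd, dif_pos (show c.Γ w ∈ x.Dn from h)]

theorem gg (s : SG c.toCf) (z : Completion D) : c.Γ (c.Γ z) = z := DFunLike.congr_fun s.g2 z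

theorem par (s : SG c.toCf) (v : CV x) (a : Λ) {f : Fn} (hf : IsTest f) (w : x.Dn) :
    (x.o a f (x.Gd w) : Completion D) = sg (x.p a) • c.Γ (x.o a f w) := by
  have e : ∀ g, (Sh.gm c.toCf true).pull g = g := fun g => funext fun y => congrArg g ((s.gm true).2 y)
  have := v.cov a (Sh.gm c.toCf true) 1 (fun _ => sg (x.p a)) (fun _ => a) f w (x.Gd w)
    (fun g hg => by
      rw [Fin.sum_univ_one, e, (s.gm true).1]
      show _ = _ • c.Γ _
      rw [x.par _ g hg, x.pdag]
      cases x.p a <;> simp [sg]) hf (by rw [gd s v, (s.gm true).1]; rfl)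
  rwa [Fin.sum_univ_one, e, (s.gm true).1] at this

/-- the part of parity `e` -/
def prt (e : Bool) {n : ℕ} (b : Fin n → Λ) : Fld x.Dn := fun f w =>
  ∑ i with x.p (b i) = e, x.o (b i) f w

theorem prt_fs {P : Λ → Prop} (e : Bool) {n : ℕ} {b : Fin n → Λ} (hb : ∀ i, P (b i)) :
    x.Fs P (prt e b) := by
  let S := Finset.univ.filter fun i => x.p (b i) = e
  refine ⟨S.card, fun j => b (S.equivFin.symm j), fun _ => hb _, ?_⟩
  funext f w
  rw [prt, ← Finset.sum_coe_sort]
  exact (S.equivFin.symm.sum_comp fun i => x.o (b i) f w).symm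

theorem prt_par (s : SG c.toCf) (v : CV x) (e : Bool) {n : ℕ} (b : Fin n → Λ) {f : Fn} (hf : IsTest f)
    (w : x.Dn) : prt e b f (x.Gd w) = sg e • x.Gd (prt e b f w) := Subtype.ext <| by
  simp only [prt, Submodule.coe_sum, Submodule.coe_smul, gd s v, map_sum, Finset.smul_sum]
  refine Finset.sum_congr rfl fun i hi => ?_
  rw [par s v _ hf, (Finset.mem_filter.1 hi).2]

theorem split (e : Bool) {n : ℕ} (b : Fin n → Λ) (f : Fn) (w : x.Dn) :
    ∑ i, x.o (b i) f w = prt e b f w + prt (!e) b f w := by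
  rw [← Finset.sum_filter_add_sum_filter_not _ fun i => x.p (b i) = e]
  simp only [prt, Bool.eq_not]

theorem pure (s : SG c.toCf) (v : CV x) (e : Bool) {n : ℕ} (b : Fin n → Λ) {f : Fn} (hf : IsTest f)
    (w : x.Dn) (h : ∑ i, x.o (b i) f (x.Gd w) = sg e • x.Gd (∑ i, x.o (b i) f w)) :
    ∑ i, x.o (b i) f w = prt e b f w := by
  rw [split e, split e, prt_par s v _ _ hf, prt_par s v _ _ hf] at h
  have h1 := congrArg (fun z : x.Dn => c.Γ z) h
  simp only [Submodule.coe_add, Submodule.coe_smul, gd s v, map_add, map_smul, gg s, smul_add,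
    add_right_inj] at h1
  have h2 : (prt (!e) b f w : Completion D) = 0 := by
    have : (sg (!e) - sg e) • (prt (!e) b f w : Completion D) = 0 := by rw [sub_smul, h1, sub_self]
    refine (smul_eq_zero.1 this).resolve_left ?_
    cases e <;> norm_num [sg]
  rw [split e, show prt (!e) b f w = 0 from Subtype.ext h2, add_zero]

theorem comm (f : FS x) {n m : ℕ} (b : Fin n → Λ) (b' : Fin m → Λ) (S : Finset (Fin n))
    (S' : Finset (Fin m)) (z : ℂ) (h : ∀ i ∈ S, ∀ j ∈ S', x.sn (b i) (b' j) = z) {g k : Fn}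
    (hg : IsTest g) (hk : IsTest k) (hs : Sep g k) (w : x.Dn) :
    ∑ i ∈ S, x.o (b i) g (∑ j ∈ S', x.o (b' j) k w) =
      z • ∑ j ∈ S', x.o (b' j) k (∑ i ∈ S, x.o (b i) g w) := by
  have e : ∀ a g {n} (S : Finset (Fin n)) (w : Fin n → x.Dn), x.o a g (∑ i ∈ S, w i) =
      ∑ i ∈ S, x.o a g (w i) := fun a g _ S w =>
    map_sum (AddMonoidHom.mk' (x.o a g) (f.add a g)) w _
  simp only [e, Finset.smul_sum]
  rw [Finset.sum_comm]
  exact Finset.sum_congr rfl fun j hj => Finset.sum_congr rfl fun i hi => by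
    rw [f.loc _ _ g k w hg hk hs, h i hi j hj]

theorem extD {A B : Completion D →L[ℂ] Completion D} (h : ∀ w : D, A w = B w) (z : Completion D) :
    A z = B z :=
  Completion.induction_on z (isClosed_eq A.continuous B.continuous) h

end Rq

open Rq in
theorem rec_row (t : E0 c.toCf) (f : FS x) (v : CV x) : REC x := fun P hP hc => by
  have s := t.sg
  let Q' : Theory x.Dn :=
    { vac := ⟨c.Om, f.vac⟩
      fld := x.Fs P
      bose := fun B => x.Fs P B ∧ ∀ f v, IsTest f → B f (x.Gd v) = x.Gd (B f v)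
      U := x.Ud
      norm_vac := (Completion.norm_coe c.Q.vac).trans c.Q.norm_vac
      cyclic := fun S h0 h => hc S (fun w hw => by rwa [show w = ⟨c.Om, f.vac⟩ from Subtype.ext hw])
        fun a g w ha => h _ g w (fs_one ha)
      lin := by
        rintro _ g k z w ⟨n, b, -, rfl⟩ hg hk
        simp only [f.lin _ g k z w hg hk, Finset.sum_add_distrib, Finset.smul_sum]
      cont := by
        rintro _ w ⟨n, b, -, rfl⟩
        exact continuous_finset_sum _ fun i _ => f.cont _ w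
      adj := by
        rintro _ ⟨n, b, hb, rfl⟩
        refine ⟨_, ⟨n, fun i => x.dag (b i), fun i => hP _ (hb i), rfl⟩, fun g w w' hg => ?_⟩
        simp only [sum_inner, inner_sum, f.herm _ g w w' hg]
      bose_fld := fun _ h => h.1
      loc := by
        rintro _ _ g k w ⟨⟨n, b, -, rfl⟩, h⟩ ⟨m, b', -, rfl⟩ hg hk hs
        have e : ∀ w, ∑ i, x.o (b i) g w = prt false b g w := fun w =>
          pure s v false b hg w ((h g w hg).trans (one_smul _ _).symm)
        show ∑ i, x.o (b i) g _ = ∑ j, x.o (b' j) k (∑ i, x.o (b i) g w)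
        rw [e, e]
        exact (comm f b b' _ _ 1 (fun i hi j _ => by
          rw [Lt.sn, (Finset.mem_filter.1 hi).2]; rfl) hg hk hs w).trans (one_smul _ _)
      U_inner := fun r L a w w' hs hL => by
        rw [Submodule.coe_inner, Submodule.coe_inner, ud v hs hL, ud v hs hL]
        exact ContinuousLinearMap.inner_map_map_of_mem_unitary
          (s.uni ⟨⟨r, L, a, hs, hL⟩, false⟩) _ _
      U_vac := fun r L a hs hL =>
        Subtype.ext ((ud v hs hL a _).trans (s.vac ⟨⟨r, L, a, hs, hL⟩, false⟩).1)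
      transl := by
        rintro _ a g w ⟨n, b, -, rfl⟩ hg
        refine Subtype.ext ?_
        simp only [ud v one_pos H496.isLor_one, Submodule.coe_sum, map_sum, tra v _ a hg]
      spectrum := fun w => by
        obtain ⟨ν, h1, h2, h3⟩ := s.spec w
        exact ⟨ν, h1, h2, fun a => by
          rw [Submodule.coe_inner, ud v one_pos H496.isLor_one]
          exact h3 a⟩ }
  refine ⟨Q', rfl, rfl, fun _ => Iff.rfl, fun _ => Iff.rfl, fun w => Subtype.ext ?_,
    fun w w' => ?_, fun B g w h hg => h.2 g w hg, ?_, ?_, fun r L a w hs hL => Subtype.ext ?_,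
    fun r L a r' L' a' hs hs' hL hL' => ?_⟩
  · rw [Rq.gd s v, Rq.gd s v, gg s]
  · rw [Submodule.coe_inner, Submodule.coe_inner, Rq.gd s v, Rq.gd s v, ← inner_star, s.gs]
  · rintro _ ⟨n, b, hb, rfl⟩
    exact ⟨prt false b, prt true b, ⟨prt_fs _ hb, fun g w hg => (prt_par s v _ b hg w).trans
      (one_smul _ _)⟩, ⟨prt_fs _ hb, fun g w hg => (prt_par s v _ b hg w).trans (neg_one_smul ℂ _)⟩,
      fun g w _ => split false b g w⟩
  · rintro _ _ g k w ⟨⟨n, b, -, rfl⟩, h⟩ ⟨⟨m, b', -, rfl⟩, h'⟩ hg hk hs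
    have e : ∀ w, ∑ i, x.o (b i) g w = prt true b g w := fun w =>
      pure s v true b hg w ((h g w hg).trans (neg_one_smul ℂ _).symm)
    have e' : ∀ w, ∑ i, x.o (b' i) k w = prt true b' k w := fun w =>
      pure s v true b' hk w ((h' k w hk).trans (neg_one_smul ℂ _).symm)
    show ∑ i, x.o (b i) g (∑ j, x.o (b' j) k w) = -∑ j, x.o (b' j) k (∑ i, x.o (b i) g w)
    rw [e, e, e', e']
    exact (comm f b b' _ _ (-1) (fun i hi j hj => by
      rw [Lt.sn, (Finset.mem_filter.1 hi).2, (Finset.mem_filter.1 hj).2]; rfl) hg hk hs w).trans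
        (neg_one_smul ℂ _)
  · show (x.Ud r L a _ : Completion D) = x.Gd (x.Ud r L a w)
    rw [ud v hs hL, Rq.gd s v, Rq.gd s v, ud v hs hL]
    exact (DFunLike.congr_fun (s.gU ⟨⟨r, L, a, hs, hL⟩, false⟩) w.1).symm
  · have hs2 := mul_pos hs hs'
    have hL2 := ue_lor hL hL'
    refine (c.hN.mul r L a r' L' a' hs hs' hL hL').imp (fun h w => Subtype.ext ?_)
      fun h => ⟨h.1, h.2.1, fun w => Subtype.ext ?_⟩
    · show (x.Ud r L a (x.Ud r' L' a' w) : Completion D) = x.Ud _ _ _ w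
      rw [ud v hs hL, ud v hs' hL', ud v hs2 hL2]
      refine extD (A := Ug c.Q r L a * Ug c.Q r' L' a') (fun u => ?_) _
      rw [ContinuousLinearMap.mul_apply, s.coe _ _ _ _ hs' hL', s.coe _ _ _ _ hs hL, h,
        s.coe _ _ _ _ hs2 hL2]
    · show (x.Ud r L a (x.Ud r' L' a' w) : Completion D) = x.Gd (x.Ud _ _ _ w)
      rw [Rq.gd s v, ud v hs hL, ud v hs' hL', ud v hs2 hL2]
      refine extD (A := Ug c.Q r L a * Ug c.Q r' L' a') (B := c.Γ * _) (fun u => ?_) _
      rw [ContinuousLinearMap.mul_apply, s.coe _ _ _ _ hs' hL', s.coe _ _ _ _ hs hL, h.2.2,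
        ContinuousLinearMap.mul_apply, s.coe _ _ _ _ hs2 hL2, c.hN.ext]
end words

variable {c : Ctx D}

/-- the labels: fields with parity, and the potential -/
abbrev Lab (c : Ctx D) : Type _ := Option (Lb c.toCf)

/-- the vectors of a label -/
def ph (c : Ctx D) : Lab c → Fn → Completion D
  | none => c.l
  | some p => fun f => (p.B f c.Q.vac : D)

theorem pot_U (c : Ctx D) (g : Sh c.toCf) {f : Fn} (hf : IsTest f) :
    c.l f = ((g.s ^ 2 : ℝ) : ℂ) • g.U c.toCf (c.l (g.pull f)) := by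
  have h := Sq.pot (c := c.toCf) c.hl g.a g.hs g.hL hf
  rw [U_par g (e := false) ((Sq.l_even (c := c.toCf) c.hT c.hl
    (Ap.test_sim g.hs g.hL g.a hf)).trans (one_smul _ _).symm), Bool.and_false, sg_false,
    one_smul] at h
  rw [Complex.coe_smul]
  exact (smul_inv_smul₀ (pow_pos g.hs 2).ne' _).symm.trans (congrArg _ h.symm)

/-- the letters -/
def lx (hc : COV c.toCf) : Lt c (Lab c) where
  dag := Option.map Lb.dag
  φ := ph c
  p a := a.elim false Lb.e
  dag2 := by rintro (_ | p) <;> rfl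
  pdag := by rintro (_ | p) <;> rfl
  par := by
    rintro (_ | p) f hf
    exacts [(Sq.l_even (c := c.toCf) c.hT c.hl hf).trans (one_smul _ _).symm, p.pvac hf]
  lin := by
    rintro (_ | p) f g z h1 h2
    · exact c.hl.lin f g z h1 h2
    · show ((_ : D) : Completion D) = (_ : D) + z • ((_ : D) : Completion D)
      rw [c.Q.lin _ f g z _ p.h h1 h2, Completion.coe_add, Completion.coe_smul]
  cont := by
    rintro (_ | p)
    exacts [c.hl.cont, (Completion.continuous_coe D).comp (c.Q.cont _ _ p.h)]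
  cov := by
    rintro (_ | p) g
    · refine ⟨1, fun _ => ((g.s ^ 2 : ℝ) : ℂ), fun _ => none, fun f h0 => ?_⟩
      rw [Fin.sum_univ_one, Complex.conj_ofReal]
      exact pot_U c g h0
    · obtain ⟨n, q, κ, h2⟩ := hc _ _ p.h p.h' p.a g
      exact ⟨n, κ, fun i => some (q i), fun f h0 => (h2 f h0).2⟩
  tra := by
    rintro (_ | p) y f h0
    · simpa using! pot_U c ⟨⟨1, GF.one, y, one_pos, H496.isLor_one⟩, false⟩ h0
    · show ((_ : D) : Completion D) = Ut c.Q y (_ : D)
      rw [Ut, Grp.coe one_pos H496.isLor_one, ← c.Q.transl _ _ _ _ p.h h0,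
        c.Q.U_vac _ _ _ one_pos H496.isLor_one]

theorem lx_dil (hc : COV c.toCf) (hu : COVU c.toCf) : Dil (lx hc) := by
  rintro (_ | p)
  · refine ⟨2, 1, fun _ => none, fun s hs => ⟨fun _ => ((s ^ 2 : ℝ) : ℂ),
      fun _ => by simp [abs_of_pos (one_pos.trans_le hs)], fun f h0 => ?_⟩⟩
    rw [Fin.sum_univ_one, Complex.conj_ofReal]
    exact pot_U c ⟨⟨s, GF.one, 0, one_pos.trans_le hs, H496.isLor_one⟩, false⟩ h0
  · obtain ⟨e, n, q, κ, h3, h2⟩ := hu _ _ p.h p.h' p.a
    refine ⟨e, n, fun i => some (q i), fun s hs => ?_⟩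
    let g : Sh c.toCf := ⟨⟨s, GF.one, 0, one_pos.trans_le hs, H496.isLor_one⟩, false⟩
    refine ⟨κ g.toSg, h3 g.toSg hs rfl, fun f h0 => ?_⟩
    have := cov_vac g (q := fun i => (q i).dag) h0 (h2 g.toSg f _ h0).2
    simpa only [g, Bool.false_and, sg_false, mul_one] using! this

open Classical in
/-- a decomposition into labels -/
def dec (c : Cf D) (B : Fld D) : Σ n : ℕ, Fin n → Lb c :=
  if h : ∃ q : Σ n : ℕ, Fin n → Lb c, ∀ f v, IsTest f → B f v = ∑ i, (q.2 i).B f v then h.choose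
  else ⟨0, Fin.elim0⟩

theorem dec_spec {c : Cf D} {B : Fld D} (hB : c.Q.fld B) :
    ∀ f v, IsTest f → B f v = ∑ i, ((dec c B).2 i).B f v := by
  have h : ∃ q : Σ n : ℕ, Fin n → Lb c, ∀ f v, IsTest f → B f v = ∑ i, (q.2 i).B f v :=
    let ⟨q, _, _, h⟩ := ex_split hB
    ⟨⟨2, ![q false, q true]⟩, fun f v hf => (h f v hf).trans (by simp)⟩
  rw [dec, dif_pos h]
  exact h.choose_spec

/-- the extension of the field `B` -/
def ee (x : Lt c (Lab c)) (B : Fld D) : Fld x.Dn := fun f v =>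
  ∑ i, x.o (some ((dec c.toCf B).2 i)) f v

open Fin' in
theorem fin_of (t : E0 c.toCf) (hc : COV c.toCf) (h0 : COV0 c.toCf) (o : OPS (lx hc))
    (tm : TMP (lx hc)) : FIN c := by
  set x := lx hc with hx
  have t1 : E1 x := ⟨t, o⟩
  have E := ext_row t1 tm
  have w := wp_row t1 E
  have F := fs_row w
  have V' := cv_row t1 E w F
  have r := rec_row t F V'
  have h2 : ∀ p : Lb c.toCf, x.Is (some p) p.B p.B' := fun p =>
    ⟨p.h, p.h', p.a, fun _ _ => ⟨rfl, rfl⟩⟩
  have gd := Rq.gd t.sg V'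
  have adj : ∀ B B' f (v : x.Dn) (u : D), c.Q.fld B → IsAdj B B' → IsTest f → Cyc c.Q u →
      inner ℂ (ee x B f v : Completion D) (u : Completion D) =
        inner ℂ (v : Completion D) (B' (bar f) u : Completion D) := by
    intro B B' f v u hB hA hf hu
    have e : B' (bar f) u = ∑ i, ((dec c.toCf B).2 i).B' (bar f) u :=
      ext_inner_left ℂ fun y => by
        rw [← hA f y u hf, dec_spec hB f y hf, sum_inner, inner_sum]
        exact Finset.sum_congr rfl fun i _ => ((dec c.toCf B).2 i).a f y u hf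
    rw [e, coe_sum, inner_sum, ee, Submodule.coe_sum, sum_inner]
    exact Finset.sum_congr rfl fun i _ => F.aff _ _ _ f v u (h2 _) hf hu
  have eq : ∀ (p : Lb c.toCf) f v, IsTest f → x.o (some p) f v = ee x p.B f v := fun p f v hf =>
    ext_C c.Q fun y hy => by rw [F.aff _ _ _ f v y (h2 p) hf hy, adj _ _ f v y p.h p.a hf hy]
  have agree : ∀ B f (v : x.Dn) (u : D), c.Q.fld B → IsTest f → Cyc c.Q u →
      (v : Completion D) = u → (ee x B f v : Completion D) = (B f u : D) := by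
    intro B f v u hB hf hu e
    obtain ⟨B', -, hA⟩ := c.Q.adj B hB
    refine (cs_dense c.Q).eq_of_inner_left ℂ fun y => ?_
    rw [adj B B' f v y hB hA hf y.2, e, Completion.inner_coe, Completion.inner_coe, hA f u y hf]
  have cyc : ∀ S : Submodule ℂ x.Dn, (∀ v : x.Dn, (v : Completion D) = c.Om → v ∈ S) →
      (∀ p f v, IsTest f → v ∈ S → x.o (some p) f v ∈ S) → ∀ u, Cyc c.Q u →
      ∃ v ∈ S, (v : Completion D) = u := fun S a1 a2 u hu =>
    (hu (cs c.Q ⊓ (S.map x.Dn.subtype).comap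
      (Completion.toComplL : D →L[ℂ] Completion D).toLinearMap)
      ⟨cyc_vac, ⟨c.Om, F.vac⟩, a1 _ rfl, rfl⟩ (by
        rintro B f u hB hf ⟨h, v, hv, e⟩
        exact ⟨cyc_fld hB hf h, ee x B f v, S.sum_mem fun i _ => a2 _ f v hf hv,
          agree B f v u hB hf h e⟩)).2
  have cyc' : ∀ P : Lab c → Prop, (∀ p, P (some p)) → ∀ S : Submodule ℂ x.Dn,
      (∀ v : x.Dn, (v : Completion D) = c.Om → v ∈ S) →
      (∀ a f v, P a → IsTest f → v ∈ S → x.o a f v ∈ S) → Dense (S : Set x.Dn) :=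
    fun P hP S a1 a2 v => by
      rw [closure_subtype]
      refine closure_mono ?_ (cs_dense c.Q v)
      rintro _ ⟨u, rfl⟩
      exact cyc S a1 (fun p f v hf hv => a2 _ f v (hP p) hf hv) u u.2
  have ud := fun s L a v hs hL => Rq.ud V' (s := s) (L := L) hs hL a v
  have ex : ∀ (P : Lab c → Prop) (Q' : Theory x.Dn), (∀ p, P (some p)) →
      (Q'.vac : Completion D) = c.Om → Q'.U = x.Ud → (∀ B, Q'.fld B ↔ x.Fs P B) →
      (∀ B, Q'.bose B ↔ x.Fs P B ∧ ∀ f v, IsTest f → B f (x.Gd v) = x.Gd (B f v)) →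
      Gr Q' x.Gd → ExtC c.Q c.Γ Q' x.Gd (ee x) := fun P Q' hP a1 a2 a3 a4 a5 =>
    ⟨a5, fun u hu => let ⟨v, _, e⟩ := cyc ⊤ (fun _ _ => trivial) (fun _ _ _ _ _ => trivial) u hu
      e ▸ v.2, a1, gd, fun s L a v hs hL => by rw [a2, ud s L a v hs hL, Ug_apply _ hs hL],
      fun B _ => (a3 _).2 ⟨_, _, fun i => hP _, rfl⟩, fun B hB => (a4 _).2
        ⟨⟨_, _, fun i => hP _, rfl⟩, fun f v hf => ext_C c.Q fun y hy => by
          have hB1 := c.Q.bose_fld _ hB
          obtain ⟨B', -, hA⟩ := c.Q.adj B hB1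
          have pa := t.bas.padj false B B' hA (fun f v hf =>
            (c.hN.bose B f v hB hf).trans (one_smul _ _).symm) _ y (Ap.test_bar hf)
          rw [sg_false, one_smul] at pa
          rw [adj B B' f _ y hB1 hA hf hy, gd, gd, ← t.sg.gs, star_inner, star_inner,
            c.hN.ext, c.hN.ext, adj B B' f _ _ hB1 hA hf (cyc_G (c := c.toCf) hy), pa]⟩,
      fun B B' a b d f v u hf => by
        have e : ee x B' (bar f) u = ∑ i, x.o (x.dag (some ((dec c.toCf B).2 i))) (bar f) u :=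
          ext_C c.Q fun y hy => by
            have hb := Ap.test_bar hf
            rw [adj B' B _ u y b (H755.adj_symm d) hb hy, dec_spec a _ y (Ap.test_bar hb), coe_sum,
              inner_sum, Submodule.coe_sum, sum_inner]
            exact Finset.sum_congr rfl fun i _ =>
              (F.aff _ _ _ _ u y (h2 ((dec c.toCf B).2 i).dag) hb hy).symm
        rw [e, ee, sum_inner, inner_sum]
        exact Finset.sum_congr rfl fun i _ => F.herm _ f v u hf, agree⟩
  obtain ⟨Q0, a1, a2, a3, a4, a5⟩ := r (· ≠ none) (fun a ha => by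
    cases a with
    | none => exact absurd rfl ha
    | some p => exact Option.some_ne_none _) (cyc' _ fun p => Option.some_ne_none p)
  obtain ⟨Q1, b1, b2, b3, b4, b5⟩ := r (fun _ => True) (fun _ _ => trivial) (cyc' _ fun _ => trivial)
  have s0 := str0 (c := c.toCf) c.hT h0 (ex _ Q0 (fun p => Option.some_ne_none p) a1 a2 a3 a4 a5)
    fun A hA => by
      obtain ⟨n, b, hb, rfl⟩ := (a3 A).1 hA
      choose p hp using fun i => Option.ne_none_iff_exists'.1 (hb i)
      exact ⟨n, fun i => (p i).B, fun i => (p i).h, fun f v hf =>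
        Finset.sum_congr rfl fun i _ => by rw [hp, eq _ f v hf]⟩
  have enl : IsEnl Q0 Q1 := ⟨Subtype.ext (b1.trans a1.symm), b2.trans a2.symm,
    fun A hA => (b3 A).2 (((a3 A).1 hA).imp fun n h => h.imp fun b h => ⟨fun _ => trivial, h.2⟩),
    fun A hA => (b4 A).2 (((a4 A).1 hA).imp_left fun h => h.imp fun n h => h.imp fun b h =>
      ⟨fun _ => trivial, h.2⟩)⟩
  refine ⟨x.Dn, Q1, x.Gd, ee x, x.o none, ex _ Q1 (fun _ => trivial) b1 b2 b3 b4 b5,
    H746.isStress_enl enl s0,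
    ⟨(b4 _).2 ⟨Rq.fs_one trivial, fun f v hf => Subtype.ext ?_⟩, F.herm none, ?_⟩, ?_,
    fun f hf => ?_, fun A hA => ?_⟩
  · refine (Rq.par t.sg V' none hf v).trans ?_
    rw [gd]
    exact one_smul _ _
  · intro s L a f v hs hL hf
    apply Subtype.ext
    have := V'.cov none ⟨⟨s, L, a, hs, hL⟩, false⟩ 1 (fun _ => ((s ^ 2 : ℝ) : ℂ)) (fun _ => none) f v
      (x.Ud s L a v) (fun g hg => by
        rw [Fin.sum_univ_one, Complex.conj_ofReal]
        exact pot_U c ⟨⟨s, L, a, hs, hL⟩, false⟩ hg) hf (ud s L a v hs hL)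
    rw [b2, this, Submodule.coe_smul, ud _ _ _ _ hs hL, Fin.sum_univ_one,
      show (4 - 2 : ℝ) = (2 : ℕ) by norm_num, Real.rpow_natCast]
    rfl
  · let p : Ix → Lb c.toCf := fun m => ⟨c.T m m, c.T m m, false, c.Q.bose_fld _ (c.hT.bose m m),
      c.Q.bose_fld _ (c.hT.bose m m), c.hT.herm m m, fun f v hf =>
        (c.hN.bose _ f v (c.hT.bose m m) hf).trans (one_smul _ _).symm⟩
    have q2 : ∀ m f v, IsTest f → ee x (c.T m m) f v = x.o (some (p m)) f v := fun m f v hf =>
      (eq (p m) f v hf).symm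
    have hc : ∀ f v, In Set.univ f →
        GF.tr (fun m n => ee x (c.T m n)) f v = (3 : ℂ) • x.o none (box f) v := by
      intro f v hf
      have z := V'.zero 5 (Fin.cons (-3) fun m => eta m) (Fin.cons none fun m => some (p m))
        (Fin.cons (box f) fun _ => f) v (Fin.cases (Ap.in_box hf) fun _ => hf) (by
          rw [Fin.sum_univ_succ]
          simp only [Fin.cons_zero, Fin.cons_succ, neg_smul]
          rw [neg_add_eq_zero]
          refine (c.hl.trace f hf.1).trans ?_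
          rw [GF.tr, coe_sum]
          exact Finset.sum_congr rfl fun m _ => by rw [Completion.coe_smul]; rfl)
      rw [Fin.sum_univ_succ] at z
      simp only [Fin.cons_zero, Fin.cons_succ, neg_smul, ← q2 _ _ _ hf.1] at z
      exact (neg_add_eq_zero.1 z).symm
    rintro _ v ⟨f, rfl⟩
    obtain ⟨P, hP⟩ := box_clm
    obtain ⟨-, u, -, -, u2, -, u4⟩ := ST.exists_cut f
    have c1 : Continuous fun g : Sch => GF.tr (fun m n => ee x (c.T m n)) (ev g) v :=
      continuous_finset_sum _ fun m _ =>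
        (continuous_finset_sum _ fun i _ =>
          F.cont (some ((dec c.toCf (c.T m m)).2 i)) v).const_smul (eta m : ℂ)
    have c2 : Continuous fun g : Sch => (3 : ℂ) • x.o none (box (ev g)) v := by
      simp only [← hP]
      exact ((F.cont none v).comp P.continuous).const_smul (3 : ℂ)
    exact tendsto_nhds_unique ((c1.tendsto f).comp u4) (((c2.tendsto f).comp u4).congr
      fun n => (hc _ v ⟨⟨u n, rfl⟩, u2 n, Set.subset_univ _⟩).symm)
  · obtain ⟨g, rfl⟩ := hf
    obtain ⟨-, u, -, -, u2, -, u4⟩ := ST.exists_cut g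
    have c1 : Continuous fun g : Sch => (x.o none (ev g) Q1.vac : Completion D) :=
      continuous_subtype_val.comp (F.cont none _)
    refine tendsto_nhds_unique ((c1.tendsto g).comp u4) (((c.hl.cont.tendsto g).comp u4).congr
      fun n => ?_)
    have hi : In Set.univ (ev (u n)) := ⟨⟨u n, rfl⟩, u2 n, Set.subset_univ _⟩
    show c.l _ = (x.o none _ _ : Completion D)
    rw [F.oW none _ [] _ hi.1 (fun _ h => nomatch h) (b1.trans w.nil.symm),
      E.cw _ (List.forall_mem_singleton.2 hi)]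
    exact (o.vac none _ hi).symm
  · obtain ⟨n, b, -, rfl⟩ := (b3 A).1 hA
    refine ⟨n, fun i => x.o (b i), fun i => ?_, fun _ _ => rfl⟩
    dsimp only
    cases b i with
    | none => exact .inl rfl
    | some p => exact .inr ⟨p.B, p.h, eq p⟩

end

end Vale.Agent.N352.E
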